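import Vale.Agent.P014.H581.Ex

/-!
# From the theta identity to the squares of the toric periods
-/

namespace Vale.Agent.P014.H581

open NumberField Vale.Agent.P017.H185 Vale.Agent.P017.H185.QF
open scoped Classical

variable {K : Type*} [Field K] [NumberField K] {n : ℕ} {q : QF K n}

/-- the number of representations -/
noncomputable def Rep.cr {l : ℕ} (r : Rep q l) (A B : ClassGroup (𝓞 K)) (m : ℕ) : ℕ :=
  Nat.card (RNs q (r.X A B) (r.Y A B) (r.nX A B) (l * r.nX A B) m)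

/-- the output of the theory of the theta series (B1) -/
structure Theta {l : ℕ} (r : Rep q l) (phi : ClassGroup (𝓞 K) → ℤ) : Prop where
  phi_val : ∀ x, phi x = 1 ∨ phi x = -3
  one : ∀ A B, 2 * (r.cr A B 1 : ℤ) = phi A * phi B + 3
  two : ∀ A B, (r.cr A B 2 : ℤ) = 6 - r.cr A B 1

variable {l : ℕ} {r : Rep q l} {phi : ClassGroup (𝓞 K) → ℤ}

theorem double (V : ℕ) (f : ClassGroup (𝓞 K) → ℤ) :
    ∑ A : ClassGroup (𝓞 K), ∑ B : ClassGroup (𝓞 K), chi q V A * chi q V B * (f A * f B) =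
      (∑ A : ClassGroup (𝓞 K), chi q V A * f A) ^ 2 := by
  rw [sq, Finset.sum_mul_sum]
  refine Finset.sum_congr rfl fun A _ => Finset.sum_congr rfl fun B _ => ?_
  ring

/-- field `B1` of `BD` -/
theorem field_B1 (hn : n % 4 = 3) (h17 : ¬ 17 ∣ n) (hn3 : 3 < n) (h : Theta r phi) {V : ℕ}
    (hV : V ∈ D1' n) (hV1 : V ≠ 1) :
    2 ^ n.primeFactors.card * (∑ x, chi q V x * phi x) ^ 2 =
      2 ^ (n.primeFactors.card + 2) * (Fintype.card (ClassGroup (𝓞 K)) : ℤ) + 4 * SA V (n / V) 1 := by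
  obtain ⟨D, hD⟩ := chi_ne q hn hV hV1
  unfold D1' at hV
  rw [Finset.mem_filter, Nat.mem_divisors] at hV
  have hVV := Nat.mul_div_cancel' hV.1.1
  have hW1 : n / V ≠ 1 := by
    have := (compl_mod hn hVV).mp hV.2
    omega
  have h0 := sum_chi q hn hVV hV1 hW1
  have hc := r.count hn h17 hn3 hVV (m := 1) (by norm_num)
  have e1 : ∑ A : ClassGroup (𝓞 K), ∑ B : ClassGroup (𝓞 K), chi q V A * chi q V B *
      (Nat.card (RNs q (r.X A B) (r.Y A B) (r.nX A B) (l * r.nX A B) 1) : ℤ) * 2 =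
      (∑ x, chi q V x * phi x) ^ 2 + 3 * (∑ x, chi q V x * 1) ^ 2 := by
    rw [← double, ← double, Finset.mul_sum, ← Finset.sum_add_distrib]
    refine Finset.sum_congr rfl fun A _ => ?_
    rw [Finset.mul_sum, ← Finset.sum_add_distrib]
    refine Finset.sum_congr rfl fun B _ => ?_
    have := h.one A B
    unfold Rep.cr at this
    linear_combination (chi q V A * chi q V B) * this
  simp only [mul_one] at e1
  rw [h0] at e1
  have e2 : (∑ x, chi q V x * phi x) ^ 2 = 2 * ∑ A : ClassGroup (𝓞 K), ∑ B : ClassGroup (𝓞 K),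
      chi q V A * chi q V B *
      (Nat.card (RNs q (r.X A B) (r.Y A B) (r.nX A B) (l * r.nX A B) 1) : ℤ) := by
    rw [Finset.mul_sum]
    simp only [Finset.mul_sum]
    have e3 : (∑ x, chi q V x * phi x) ^ 2 = ∑ A : ClassGroup (𝓞 K), ∑ B : ClassGroup (𝓞 K),
      chi q V A * chi q V B *
      (Nat.card (RNs q (r.X A B) (r.Y A B) (r.nX A B) (l * r.nX A B) 1) : ℤ) * 2 := by
      rw [e1]; ring
    rw [e3]
    refine Finset.sum_congr rfl fun A _ => Finset.sum_congr rfl fun B _ => ?_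
    ring
  rw [e2]
  have hR : R V (n / V) 1 = 1 := R_one _ _
  rw [hR] at hc
  rw [pow_add]
  linear_combination 2 * hc

/-- field `B2` of `BD` -/
theorem field_B2 (hn : n % 4 = 3) (h17 : ¬ 17 ∣ n) (hn3 : 3 < n) (h : Theta r phi) :
    2 ^ n.primeFactors.card * (∑ x, phi x) ^ 2 =
      2 ^ n.primeFactors.card * (Fintype.card (ClassGroup (𝓞 K)) : ℤ) * (2 - jacobiSym 2 n) +
        3 * SA 1 n 1 - SA 1 n 2 := by
  have hc1 := r.count hn h17 hn3 (one_mul n) (m := 1) (by norm_num)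
  have hc2 := r.count hn h17 hn3 (one_mul n) (m := 2) (by norm_num)
  simp only [chi_V1, one_mul] at hc1 hc2
  have e1 : ∑ A : ClassGroup (𝓞 K), ∑ B : ClassGroup (𝓞 K),
      (Nat.card (RNs q (r.X A B) (r.Y A B) (r.nX A B) (l * r.nX A B) 1) : ℤ) * 2 =
      (∑ x, phi x) ^ 2 + 3 * (Fintype.card (ClassGroup (𝓞 K)) : ℤ) ^ 2 := by
    have e0 : (Fintype.card (ClassGroup (𝓞 K)) : ℤ) = ∑ x : ClassGroup (𝓞 K), (1 : ℤ) := by simp
    rw [e0, sq, sq, Finset.sum_mul_sum, Finset.sum_mul_sum, Finset.mul_sum, ← Finset.sum_add_distrib]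
    refine Finset.sum_congr rfl fun A _ => ?_
    rw [Finset.mul_sum, ← Finset.sum_add_distrib]
    refine Finset.sum_congr rfl fun B _ => ?_
    have := h.one A B
    unfold Rep.cr at this
    linear_combination this
  have e2 : ∑ A : ClassGroup (𝓞 K), ∑ B : ClassGroup (𝓞 K),
      (Nat.card (RNs q (r.X A B) (r.Y A B) (r.nX A B) (l * r.nX A B) 2) : ℤ) =
      6 * (Fintype.card (ClassGroup (𝓞 K)) : ℤ) ^ 2 - ∑ A : ClassGroup (𝓞 K),
        ∑ B : ClassGroup (𝓞 K),
      (Nat.card (RNs q (r.X A B) (r.Y A B) (r.nX A B) (l * r.nX A B) 1) : ℤ) := by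
    have e0 : (Fintype.card (ClassGroup (𝓞 K)) : ℤ) = ∑ x : ClassGroup (𝓞 K), (1 : ℤ) := by simp
    rw [e0, sq, Finset.sum_mul_sum, Finset.mul_sum, ← Finset.sum_sub_distrib]
    refine Finset.sum_congr rfl fun A _ => ?_
    rw [Finset.mul_sum, ← Finset.sum_sub_distrib]
    refine Finset.sum_congr rfl fun B _ => ?_
    have := h.two A B
    unfold Rep.cr at this
    linear_combination this
  simp only [← Finset.sum_mul] at e1
  have hR1 : R 1 n 1 = 1 := R_one _ _
  have hR2 : R 1 n 2 = 1 + jacobiSym 2 n := by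
    unfold R
    rw [show (2 : ℕ).divisorsAntidiagonal = {(1, 2), (2, 1)} by decide]
    rw [Finset.sum_pair (by decide)]
    simp [jacobiSym.one_right, jacobiSym.one_left]
    ring
  rw [hR1] at hc1
  rw [hR2, e2] at hc2
  generalize (∑ A : ClassGroup (𝓞 K), ∑ B : ClassGroup (𝓞 K),
      (Nat.card (RNs q (r.X A B) (r.Y A B) (r.nX A B) (l * r.nX A B) 1) : ℤ)) = T at hc1 hc2 e1
  have h2 : (2 : ℤ) * (2 ^ n.primeFactors.card * (∑ x, phi x) ^ 2) =
      2 * (2 ^ n.primeFactors.card * (Fintype.card (ClassGroup (𝓞 K)) : ℤ) * (2 - jacobiSym 2 n) +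
        3 * SA 1 n 1 - SA 1 n 2) := by
    linear_combination (-(2 * 2 ^ n.primeFactors.card : ℤ)) * e1 + 3 * hc1 - hc2
  exact mul_left_cancel₀ two_ne_zero h2

end Vale.Agent.P014.H581
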