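import Vale.Agent.P014.H581.Asm
import Vale.Agent.P014.H70.Fam3

/-!
# The theta series of the family of all ideal classes
-/

namespace Vale.Agent.P014.H581

open NumberField Vale.Agent.P017.H185 Vale.Agent.P017.H185.QF
open scoped Classical

variable {K : Type*} [Field K] [NumberField K] {n : ℕ} {q : QF K n}

/-- the family of `H70` attached to representatives prime to `17 n` -/
noncomputable def Rep.fam {l : ℕ} (r : Rep q l) (hn : n % 4 = 3)
    (hn17 : ¬ IsSquare ((n : ℕ) : ZMod 17)) (hl : l.Prime) (hl17 : 17 < l)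
    (hco : ∀ C, Nat.Coprime (r.na C) (17 * n)) : H70.Fam q (ClassGroup (𝓞 K)) where
  A := r.a
  na := r.na
  L := r.L
  l := l
  hna C := Nat.pos_of_ne_zero (hasN_ne_zero q (r.ha0 C) (r.hN C))
  hA := r.hN
  hl := hl.pos
  hL := r.hL
  hn4 := hn
  hn17 := hn17
  hcop := r.hco
  hcop17 C h := by
    have h1 := Nat.dvd_gcd h (dvd_mul_right 17 n)
    rw [hco C] at h1
    norm_num at h1
  hl17 h := by
    have := (Nat.prime_dvd_prime_iff_eq (by norm_num) hl).mp h
    omega
  hdl := r.hl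

theorem Rep.cr_eq {l : ℕ} (r : Rep q l) (hn : n % 4 = 3)
    (hn17 : ¬ IsSquare ((n : ℕ) : ZMod 17)) (hl : l.Prime) (hl17 : 17 < l)
    (hco : ∀ C, Nat.Coprime (r.na C) (17 * n)) (A B : ClassGroup (𝓞 K)) (m : ℕ) :
    r.cr A B m = Nat.card (((r.fam hn hn17 hl hl17 hco).E A B).RN m) := by
  unfold Rep.cr
  have h : RNs q (r.X A B) (r.Y A B) (r.nX A B) (l * r.nX A B) m =
      ((r.fam hn hn17 hl hl17 hco).E A B).RN m := by
    ext p
    have hY : r.Y A B = (r.fam hn hn17 hl hl17 hco).Y A B := by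
      show r.L.map q.s * ((r.a A).map q.s * (r.a B).map q.s) =
        r.L.map q.s * (r.a A).map q.s * (r.a B).map q.s
      rw [mul_assoc]
    have hb : l * r.nX A B = l * r.na A * r.na B := by
      show l * (r.na A * r.na B) = _
      rw [mul_assoc]
    unfold RNs H70.Dat.RN
    rw [hY, hb]
    rfl
  rw [h]

/-- **existence of the type function** -/
theorem exists_Theta (hrel : H70.Fam.Rel17) (q : QF K n) (hn : n % 4 = 3)
    (h17 : jacobiSym n 17 = -1) :
    ∃ (l : ℕ) (r : Rep q l) (phi : ClassGroup (𝓞 K) → ℤ), Theta r phi := by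
  obtain ⟨l, r, hl, hl17, hco⟩ := exists_Rep q hn h17
  have hn17 : ¬ IsSquare ((n : ℕ) : ZMod 17) := by
    have : Fact (Nat.Prime 17) := ⟨by norm_num⟩
    rw [← jacobiSym.legendreSym.to_jacobiSym] at h17
    have h := (legendreSym.eq_neg_one_iff 17).mp h17
    rwa [Int.cast_natCast] at h
  obtain ⟨phi, h1, h2⟩ := (r.fam hn hn17 hl hl17 hco).exists_phi hrel
  refine ⟨l, r, phi, ⟨h1, fun A B => ?_, fun A B => ?_⟩⟩
  · rw [r.cr_eq hn hn17 hl hl17 hco, (h2 A B).1]; ring
  · rw [r.cr_eq hn hn17 hl hl17 hco, r.cr_eq hn hn17 hl hl17 hco]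
    have e1 := (h2 A B).1
    have e2 := (h2 A B).2
    have : (2 : ℤ) * (Nat.card (((r.fam hn hn17 hl hl17 hco).E A B).RN 2) : ℤ) =
        2 * (6 - (Nat.card (((r.fam hn hn17 hl hl17 hco).E A B).RN 1) : ℤ)) := by
      rw [e2, mul_sub, e1]; ring
    exact mul_left_cancel₀ two_ne_zero this

end Vale.Agent.P014.H581
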