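import Vale.Agent.P014.H581.Theta3
import Vale.Agent.P014.H581.Glue
import Vale.Agent.P014.H74.E7
import Vale.Agent.P014.H608.CN

/-!
# The input `BD3` of the induction
-/

namespace Vale.Agent.P014.H581

open NumberField Vale.Agent.P017.H185 Vale.Agent.P017.H185.QF
open scoped Classical

variable {K : Type} [Field K] [NumberField K] {n : ℕ} {q : QF K n}

/-- **`BD3` from the formula for the products `y A * y B`** -/
theorem BD3_of_Theta3 (hn : n % 4 = 3) (h17 : jacobiSym n 17 = -1) (hn3 : 3 < n) {l : ℕ}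
    {r : Rep q l} {y : ClassGroup (𝓞 K) → ℤ} (h : Theta3 r y) :
    H74.BD3 n (ClassGroup (𝓞 K)) y (chi q) where
  y_val := h.y_val
  orth x := orth q hn x
  B W hW := by
    rw [H74.D1, Finset.mem_filter, Nat.mem_divisors] at hW
    exact field_B3 hn (not_dvd_17 h17) hn3 h (Nat.mul_div_cancel' hW.1.1)
  CN := H608.CN q hn hn3

end Vale.Agent.P014.H581
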