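import Vale.Agent.P014.H581.Asm
import Vale.Agent.P014.H74.C1
import Vale.Agent.P014.H608.CN

/-!
# The input `BD` of the induction, from the theta series
-/

namespace Vale.Agent.P014.H581

open NumberField Vale.Agent.P017.H185 Vale.Agent.P017.H185.QF
open scoped Classical

variable {K : Type} [Field K] [NumberField K] {n : ℕ} {q : QF K n}

theorem BD_of_Theta (hn : n % 4 = 3) (h17 : jacobiSym n 17 = -1) (hn3 : 3 < n) {l : ℕ}
    {r : Rep q l} {phi : ClassGroup (𝓞 K) → ℤ} (h : Theta r phi) :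
    H74.BD n (ClassGroup (𝓞 K)) phi (chi q) where
  phi_val := h.phi_val
  chi_mul V hV x y := chi_mul q hn (Nat.mem_divisors.mp (Finset.mem_filter.mp hV).1).1 x y
  chi_one x := chi_V1 q x
  chi_val V hV x := chi_pm q hn (Nat.mem_divisors.mp (Finset.mem_filter.mp hV).1).1 x
  chi_ne V hV hV1 := chi_ne q hn hV hV1
  orth x := orth q hn x
  B1 V hV hV1 := field_B1 hn (not_dvd_17 h17) hn3 h hV hV1
  B2 := field_B2 hn (not_dvd_17 h17) hn3 h
  CN := H608.CN q hn hn3

end Vale.Agent.P014.H581
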