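import Vale.Agent.P014.H581.Idl
import Vale.Agent.P014.H74.Iface

/-!
# Genus characters of `ℚ(√-n)`, `n ≡ 3 mod 4`, and the number of ideals of given norm
-/

namespace Vale.Agent.P014.H581

open NumberField Vale.Agent.P017.H185 Vale.Agent.P017.H185.QF
open scoped Classical

variable {K : Type*} [Field K] [NumberField K] {n : ℕ} (q : QF K n)

theorem isPrime_of_hasN {P : Ideal (𝓞 K)} {p : ℕ} (hp : p.Prime) (h : q.HasN P p) : P.IsPrime := by
  have hP0 : P ≠ ⊥ := ne_bot_of_hasN q hp.ne_zero h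
  apply Ideal.isPrime_of_prime
  rw [← irreducible_iff_prime, irreducible_iff]
  constructor
  · intro hu
    rw [Ideal.isUnit_iff] at hu
    rw [hu] at h
    exact hp.one_lt.ne' (q.hasN_unique h (hasN_top q))
  · intro a b hab
    have ha : a ≠ ⊥ := by
      rintro rfl
      exact hP0 (by rw [hab, Ideal.bot_mul])
    have hb : b ≠ ⊥ := by
      rintro rfl
      exact hP0 (by rw [hab, Ideal.mul_bot])
    obtain ⟨m1, -, h1⟩ := q.exists_hasN ha
    obtain ⟨m2, -, h2⟩ := q.exists_hasN hb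
    rw [hab] at h
    have h3 := q.hasN_unique h (h1.mul h2)
    have h4 : Nat.Prime (m1 * m2) := h3 ▸ hp
    rcases Nat.prime_mul_iff.mp h4 with h5 | h5
    · right
      rw [Ideal.isUnit_iff]
      rw [h5.2] at h2
      exact eq_top_of_hasN_one q h2
    · left
      rw [Ideal.isUnit_iff]
      rw [h5.2] at h1
      exact eq_top_of_hasN_one q h1

theorem le_or_le {P I : Ideal (𝓞 K)} {p m : ℕ} (hp : p.Prime) (h : q.HasN P p) (hI : q.HasN I m)
    (hpm : p ∣ m) : I ≤ P ∨ I ≤ P.map q.s := by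
  have hP := isPrime_of_hasN q hp h
  have h1 : I * I.map q.s ≤ P := by
    have h' : I * I.map q.s = Ideal.span {(m : 𝓞 K)} := hI
    rw [h', Ideal.span_singleton_le_iff_mem]
    obtain ⟨c, rfl⟩ := hpm
    push_cast
    exact Ideal.mul_mem_right _ _ (natCast_mem_of_hasN q h)
  rcases hP.mul_le.mp h1 with h | h
  · exact Or.inl h
  · right
    have := Ideal.map_mono (f := q.s) h
    rwa [map_map] at this

theorem jac_norm (hn : n % 4 = 3) : ∀ (m : ℕ) (I : Ideal (𝓞 K)), q.HasN I m → m ≠ 0 →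
    Nat.Coprime m n → jacobiSym m n = 1 := by
  intro m
  induction m using Nat.strong_induction_on with
  | _ m ih =>
    intro I hI hm hco
    have hI0 := ne_bot_of_hasN q hm hI
    by_cases hm1 : m = 1
    · rw [hm1, Nat.cast_one, jacobiSym.one_left]
    have hp := Nat.minFac_prime hm1
    have hpm := Nat.minFac_dvd m
    set p := m.minFac with hpdef
    have hpn : Nat.Coprime p n := Nat.Coprime.coprime_dvd_left hpm hco
    by_cases hj : jacobiSym p n = -1
    · obtain ⟨J, hJ⟩ := Ideal.dvd_iff_le.mpr (inert_le q hn hp hj hI hpm)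
      obtain ⟨m', hm', hmm⟩ := hasN_quot q hI0 hJ hI (q.hasN_span _)
      rw [N_nat] at hmm
      have hm'0 : m' ≠ 0 := by rintro rfl; exact hm (by rw [hmm, mul_zero])
      have hlt : m' < m := by
        rw [hmm]
        exact lt_mul_of_one_lt_left (Nat.pos_of_ne_zero hm'0) (Nat.one_lt_pow two_ne_zero hp.one_lt)
      have h1 := ih m' hlt J hm' hm'0 (Nat.Coprime.coprime_dvd_left ⟨p ^ 2, by rw [hmm]; ring⟩ hco)
      rw [hmm]
      push_cast
      rw [jacobiSym.mul_left, jacobiSym.pow_left, hj, h1]; norm_num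
    · obtain ⟨P, hP⟩ := exists_prime_ideal q hn hp hj
      have hj1 : jacobiSym p n = 1 := by
        rcases jacobiSym.trichotomy (p : ℤ) n with h | h | h
        · exfalso
          rw [jacobiSym.eq_zero_iff] at h
          apply h.2
          rw [Int.gcd_natCast_natCast]
          exact hpn
        · exact h
        · exact absurd h hj
      obtain ⟨P', hP', hle⟩ : ∃ P' : Ideal (𝓞 K), q.HasN P' p ∧ I ≤ P' := by
        rcases le_or_le q hp hP hI hpm with h | h
        · exact ⟨P, hP, h⟩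
        · exact ⟨_, hasN_map q hP, h⟩
      obtain ⟨J, hJ⟩ := Ideal.dvd_iff_le.mpr hle
      obtain ⟨m', hm', hmm⟩ := hasN_quot q hI0 hJ hI hP'
      have hm'0 : m' ≠ 0 := by rintro rfl; exact hm (by rw [hmm, mul_zero])
      have hlt : m' < m := by
        rw [hmm]
        exact lt_mul_of_one_lt_left (Nat.pos_of_ne_zero hm'0) hp.one_lt
      have h1 := ih m' hlt J hm' hm'0 (Nat.Coprime.coprime_dvd_left ⟨p, by rw [hmm]; ring⟩ hco)
      rw [hmm]
      push_cast
      rw [jacobiSym.mul_left, hj1, h1]; norm_num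

theorem odd_V (hn : n % 4 = 3) {V : ℕ} (hV : V ∣ n) : Odd V := by
  rw [← Nat.not_even_iff_odd, even_iff_two_dvd]
  exact odd_of_dvd hn hV

theorem jac_ne_zero {m V : ℕ} (h : Nat.Coprime m V) : jacobiSym m V ≠ 0 := by
  rw [Ne, jacobiSym.eq_zero_iff, not_and_or]
  right
  rw [Int.gcd_natCast_natCast, not_not]
  exact h

theorem jac_sq {m V : ℕ} (h : Nat.Coprime m V) : jacobiSym m V ^ 2 = 1 := by
  rcases jacobiSym.trichotomy (m : ℤ) V with h1 | h1 | h1
  · exact absurd h1 (jac_ne_zero h)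
  · rw [h1]; norm_num
  · rw [h1]; norm_num

/-- the general principle: `4 m = c a² + V b` implies `(m / V) = (c / V)` -/
theorem jac_of_sq {m V c : ℕ} (hV : Odd V) (h : Nat.Coprime m V) {a b : ℤ}
    (hab : 4 * (m : ℤ) = c * a ^ 2 + V * b) : jacobiSym m V = jacobiSym c V := by
  have h1 : jacobiSym (4 * (m : ℤ)) V = jacobiSym (c * a ^ 2) V := by
    apply jacobiSym.mod_left'
    rw [hab, Int.add_mul_emod_self_left]
  have h2 : jacobiSym (2 : ℤ) V ^ 2 = 1 := by
    have : Nat.Coprime 2 V := by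
      rw [Nat.Prime.coprime_iff_not_dvd Nat.prime_two]
      intro h
      rw [← even_iff_two_dvd] at h
      exact (Nat.not_even_iff_odd.mpr hV) h
    exact jac_sq this
  rw [show (4 : ℤ) * m = 2 ^ 2 * m by norm_num, jacobiSym.mul_left, jacobiSym.mul_left,
    jacobiSym.pow_left, jacobiSym.pow_left, h2, one_mul] at h1
  rcases jacobiSym.trichotomy a V with h3 | h3 | h3
  · rw [h3] at h1
    exfalso
    exact jac_ne_zero h (by rw [h1]; ring)
  · rw [h1, h3]; ring
  · rw [h1, h3]; ring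

theorem jac_principal (hn : n % 4 = 3) {x : 𝓞 K} {V : ℕ} (hV : V ∣ n)
    (h : Nat.Coprime (q.N x) V) : jacobiSym (q.N x) V = 1 := by
  obtain ⟨v, -, hv⟩ := exists_coords q x
  obtain ⟨W, hW⟩ := hV
  have hW' : (n : ℤ) = V * W := by exact_mod_cast hW
  have := jac_of_sq (c := 1) (odd_V hn ⟨W, hW⟩) h (a := tr q x) (b := W * v ^ 2)
    (by rw [hv]; push_cast; linear_combination v ^ 2 * hW')
  rw [this, Nat.cast_one, jacobiSym.one_left]

include q in
theorem n_ne_zero : n ≠ 0 := q.hd.ne_zero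

theorem jac_cl (hn : n % 4 = 3) {I J : Ideal (𝓞 K)} {m m' V : ℕ} (hV : V ∣ n) (hI : q.HasN I m)
    (hJ : q.HasN J m') (hm : Nat.Coprime m n) (hm' : Nat.Coprime m' n) (hI0 : I ≠ ⊥) (hJ0 : J ≠ ⊥)
    (h : cl I = cl J) : jacobiSym m V = jacobiSym m' V := by
  obtain ⟨L, l, hL0, hLc, hLN, hlco⟩ := exists_coprime q (cl J)⁻¹ (n_ne_zero q)
  have key : ∀ {T : Ideal (𝓞 K)} {u : ℕ}, T ≠ ⊥ → q.HasN T u → Nat.Coprime u n → cl T = cl J →
      jacobiSym u V * jacobiSym l V = 1 := by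
    intro T u hT hTN hu hTc
    have h1 : cl (T * L) = 1 := by rw [cl_mul hT hL0, hTc, hLc, mul_inv_cancel]
    obtain ⟨x, -, hx⟩ := (cl_eq_one_iff (mul_ne_bot hT hL0)).mp h1
    have h2 := hTN.mul hLN
    rw [hx] at h2
    have h3 := q.hasN_unique h2 (q.hasN_span x)
    have h4 : Nat.Coprime (q.N x) V := by
      rw [← h3]
      exact Nat.Coprime.coprime_dvd_right hV (Nat.Coprime.mul_left hu hlco)
    have h5 := jac_principal q hn hV h4
    rw [← h3] at h5
    push_cast at h5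
    rwa [jacobiSym.mul_left] at h5
  have h1 := key hI0 hI hm h
  have h2 := key hJ0 hJ hm' rfl
  have h3 : jacobiSym l V ≠ 0 := by
    intro h0
    rw [h0, mul_zero] at h1
    norm_num at h1
  exact mul_right_cancel₀ h3 (h1.trans h2.symm)

/-- the norm of an ideal prime to `n` in the class `C` -/
noncomputable def nr (C : ClassGroup (𝓞 K)) : ℕ :=
  (exists_coprime q C (n_ne_zero q)).choose_spec.choose

/-- the genus character attached to the divisor `V` of `n` -/
noncomputable def chi (V : ℕ) (C : ClassGroup (𝓞 K)) : ℤ := jacobiSym (nr q C) V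

theorem chi_cl (hn : n % 4 = 3) {I : Ideal (𝓞 K)} {m V : ℕ} (hV : V ∣ n) (hI0 : I ≠ ⊥)
    (hI : q.HasN I m) (hm : Nat.Coprime m n) : chi q V (cl I) = jacobiSym m V := by
  obtain ⟨h1, h2, h3, h4⟩ := (exists_coprime q (cl I) (n_ne_zero q)).choose_spec.choose_spec
  exact jac_cl q hn hV h3 hI h4 hm h1 hI0 h2

theorem chi_mul (hn : n % 4 = 3) {V : ℕ} (hV : V ∣ n) (C D : ClassGroup (𝓞 K)) :
    chi q V (C * D) = chi q V C * chi q V D := by
  obtain ⟨I, m, h1, rfl, h3, h4⟩ := exists_coprime q C (n_ne_zero q)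
  obtain ⟨J, l, k1, rfl, k3, k4⟩ := exists_coprime q D (n_ne_zero q)
  rw [← cl_mul h1 k1, chi_cl q hn hV (mul_ne_bot h1 k1) (h3.mul k3) (Nat.Coprime.mul_left h4 k4),
    chi_cl q hn hV h1 h3 h4, chi_cl q hn hV k1 k3 k4]
  push_cast
  rw [jacobiSym.mul_left]

theorem chi_one (hn : n % 4 = 3) {V : ℕ} (hV : V ∣ n) : chi q V 1 = 1 := by
  have h : cl (⊤ : Ideal (𝓞 K)) = 1 := by
    rw [← Ideal.span_singleton_one]
    exact cl_span one_ne_zero
  rw [← h, chi_cl q hn hV top_ne_bot (hasN_top q) (Nat.coprime_one_left n), Nat.cast_one,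
    jacobiSym.one_left]

theorem chi_sq (hn : n % 4 = 3) {V : ℕ} (hV : V ∣ n) (C : ClassGroup (𝓞 K)) :
    chi q V C ^ 2 = 1 := by
  obtain ⟨I, m, h1, rfl, h3, h4⟩ := exists_coprime q C (n_ne_zero q)
  rw [chi_cl q hn hV h1 h3 h4]
  exact jac_sq (Nat.Coprime.coprime_dvd_right hV h4)

theorem chi_inv (hn : n % 4 = 3) {V : ℕ} (hV : V ∣ n) (C : ClassGroup (𝓞 K)) :
    chi q V C⁻¹ = chi q V C := by
  have h1 : chi q V C * chi q V C⁻¹ = 1 := by
    rw [← chi_mul q hn hV, mul_inv_cancel, chi_one q hn hV]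
  have h2 := chi_sq q hn hV C
  calc chi q V C⁻¹ = chi q V C ^ 2 * chi q V C⁻¹ := by rw [h2, one_mul]
    _ = chi q V C * (chi q V C * chi q V C⁻¹) := by ring
    _ = chi q V C := by rw [h1, mul_one]

theorem chi_pow (hn : n % 4 = 3) {V : ℕ} (hV : V ∣ n) (C : ClassGroup (𝓞 K)) (k : ℕ) :
    chi q V (C ^ k) = chi q V C ^ k := by
  induction k with
  | zero => rw [pow_zero, pow_zero, chi_one q hn hV]
  | succ k ih => rw [pow_succ, pow_succ, chi_mul q hn hV, ih]

/-- the product formula -/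
theorem chi_compl (hn : n % 4 = 3) {V W : ℕ} (hVW : V * W = n) (C : ClassGroup (𝓞 K)) :
    chi q V C = chi q W C := by
  obtain ⟨I, m, h1, rfl, h3, h4⟩ := exists_coprime q C (n_ne_zero q)
  have hm0 := hasN_ne_zero q h1 h3
  rw [chi_cl q hn ⟨W, hVW.symm⟩ h1 h3 h4, chi_cl q hn ⟨V, by rw [← hVW]; ring⟩ h1 h3 h4]
  have h5 := jac_norm q hn m I h3 hm0 h4
  have hV0 : V ≠ 0 := by rintro rfl; exact n_ne_zero q (by rw [← hVW, zero_mul])
  have hW0 : W ≠ 0 := by rintro rfl; exact n_ne_zero q (by rw [← hVW, mul_zero])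
  rw [← hVW] at h5
  have : NeZero V := ⟨hV0⟩
  have : NeZero W := ⟨hW0⟩
  rw [jacobiSym.mul_right] at h5
  have h6 := jac_sq (m := m) (V := V) (Nat.Coprime.coprime_dvd_right ⟨W, hVW.symm⟩ h4)
  calc jacobiSym m V = jacobiSym m V * (jacobiSym m V * jacobiSym m W) := by rw [h5, mul_one]
    _ = jacobiSym m V ^ 2 * jacobiSym m W := by ring
    _ = _ := by rw [h6, one_mul]

/-- the ramified prime above `p` -/
theorem chi_ram (hn : n % 4 = 3) {V W p : ℕ} (hVW : V * W = n) (hp : p.Prime) (hpW : p ∣ W)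
    {P : Ideal (𝓞 K)} (hP : q.HasN P p) : chi q V (cl P) = jacobiSym p V := by
  have hP0 := ne_bot_of_hasN q hp.ne_zero hP
  have hVn : V ∣ n := ⟨W, hVW.symm⟩
  obtain ⟨J, m, hJ0, hJc, hJN, hJco⟩ := exists_coprime q (cl P)⁻¹ (n_ne_zero q)
  have h1 : cl (P * J) = 1 := by rw [cl_mul hP0 hJ0, hJc, mul_inv_cancel]
  obtain ⟨x, -, hx⟩ := (cl_eq_one_iff (mul_ne_bot hP0 hJ0)).mp h1
  have h2 := hP.mul hJN
  rw [hx] at h2
  have h3 := q.hasN_unique h2 (q.hasN_span x)
  rw [← chi_inv q hn hVn, ← hJc, chi_cl q hn hVn hJ0 hJN hJco]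
  obtain ⟨v, -, hv⟩ := exists_coords q x
  rw [← h3] at hv
  obtain ⟨W', hW'⟩ := hpW
  have hnW : (n : ℤ) = V * (p * W') := by rw [← hVW, hW']; push_cast; ring
  have hpn : (p : ℤ) ∣ n := ⟨V * W', by rw [hnW]; ring⟩
  have hpp : Prime (p : ℤ) := Nat.prime_iff_prime_int.mp hp
  have hpt : (p : ℤ) ∣ tr q x := by
    apply hpp.dvd_of_dvd_pow (n := 2)
    have : tr q x ^ 2 = p * (4 * m) - n * v ^ 2 := by
      push_cast at hv
      linear_combination -hv
    rw [this]
    exact dvd_sub (dvd_mul_right _ _) (Dvd.dvd.mul_right hpn _)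
  obtain ⟨a, ha⟩ := hpt
  have hp0 : (p : ℤ) ≠ 0 := by exact_mod_cast hp.ne_zero
  apply jac_of_sq (odd_V hn hVn) (Nat.Coprime.coprime_dvd_right hVn hJco) (a := a) (b := W' * v ^ 2)
  apply mul_left_cancel₀ hp0
  rw [ha] at hv
  push_cast at hv
  linear_combination hv + v ^ 2 * hnW

end Vale.Agent.P014.H581
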