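import Vale.Agent.P014.H581.Shift

/-!
# The count of the representations
-/

namespace Vale.Agent.P014.H581

open NumberField Vale.Agent.P017.H185 Vale.Agent.P017.H185.QF
open scoped Classical

variable {K : Type*} [Field K] [NumberField K] {n : ℕ} (q : QF K n)

theorem not_dvd_of_coprime {p a n : ℕ} (hp : p.Prime) (hpn : p ∣ n) (h : Nat.Coprime a n) :
    ¬ p ∣ a := fun h' => hp.one_lt.ne' (Nat.dvd_one.mp (h ▸ Nat.dvd_gcd h' hpn))

theorem count_S (hn : n % 4 = 3) {a l : ℕ} (ha : Nat.Coprime a n)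
    (hl : n ∣ 17 * l + 1) {M k m : ℕ} (hMk : M + 17 * k = m * n) {x y : 𝓞 K}
    (hx : q.N x = M * a) (hy : q.N y = k * (l * a)) :
    (n.primeFactors.powerset.filter fun S => Gl q hn S l x y).card =
      2 ^ (n.primeFactors.filter fun p => p ∣ k).card := by
  have hln : Nat.Coprime l n := by
    have h1 : Nat.Coprime (17 * l) n := by
      rw [Nat.coprime_comm]
      have h2 : Nat.Coprime (17 * l + 1) (17 * l) := by simp
      exact Nat.Coprime.coprime_dvd_left hl h2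
    exact Nat.Coprime.coprime_dvd_left ⟨17, by ring⟩ h1
  -- facts at the primes
  have hl17 : ∀ p, p ∣ n → (17 : ZMod p) * l = -1 := by
    intro p hp
    have h1 : (((17 * l + 1 : ℕ)) : ZMod p) = 0 := (ZMod.natCast_eq_zero_iff _ _).mpr (hp.trans hl)
    push_cast at h1
    linear_combination h1
  have hk0 : ∀ p (hp : p ∣ n), p.Prime → p ∣ k → res q hn hp x = 0 ∧ res q hn hp y = 0 := by
    intro p hp hpp hpk
    have hpf : Fact p.Prime := ⟨hpp⟩
    have hpM : p ∣ M := by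
      have h2 : p ∣ M + 17 * k := by rw [hMk]; exact Dvd.dvd.mul_left hp m
      exact (Nat.dvd_add_left (Dvd.dvd.mul_left hpk 17)).mp h2
    constructor
    · have h1 := res_sq q hn hp x
      rw [hx, (ZMod.natCast_eq_zero_iff _ _).mpr (Dvd.dvd.mul_right hpM a)] at h1
      exact pow_eq_zero_iff two_ne_zero |>.mp h1
    · have h1 := res_sq q hn hp y
      rw [hy, (ZMod.natCast_eq_zero_iff _ _).mpr (Dvd.dvd.mul_right hpk _)] at h1
      exact pow_eq_zero_iff two_ne_zero |>.mp h1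
  have hk1 : ∀ p (hp : p ∣ n), p.Prime → ¬ p ∣ k → res q hn hp y ≠ 0 ∧
      (res q hn hp y = l * res q hn hp x ∨ res q hn hp y = -(l * res q hn hp x)) := by
    intro p hp hpp hpk
    have hpf : Fact p.Prime := ⟨hpp⟩
    have h1 := res_sq q hn hp y
    have h2 := res_sq q hn hp x
    rw [hy] at h1
    rw [hx] at h2
    constructor
    · intro h0
      rw [h0, sq, zero_mul] at h1
      have h3 := (ZMod.natCast_eq_zero_iff _ _).mp h1.symm
      rcases (Nat.Prime.dvd_mul hpp).mp h3 with h | h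
      · exact hpk h
      · rcases (Nat.Prime.dvd_mul hpp).mp h with h | h
        · exact not_dvd_of_coprime hpp hp hln h
        · exact not_dvd_of_coprime hpp hp ha h
    · apply sq_eq_sq_iff_eq_or_eq_neg.mp
      have h4 : ((M + 17 * k : ℕ) : ZMod p) = 0 := by
        rw [hMk]
        exact (ZMod.natCast_eq_zero_iff _ _).mpr (Dvd.dvd.mul_left hp m)
      push_cast at h1 h2 h4
      have h5 := hl17 p hp
      rw [mul_pow, h1, h2]
      linear_combination (-(l : ZMod p) ^ 2 * a) * h4 + (l : ZMod p) * k * a * h5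
  obtain ⟨T, hT⟩ : ∃ T, T = n.primeFactors.filter fun p => p ∣ k := ⟨_, rfl⟩
  obtain ⟨S0, hS0⟩ : ∃ S0, S0 = n.primeFactors.filter fun p => ¬ p ∣ k ∧
    ∃ hp : p ∣ n, res q hn hp y = -(l * res q hn hp x) := ⟨_, rfl⟩
  rw [← hT, ← Finset.card_powerset]
  symm
  refine Finset.card_bij (fun S1 _ => S0 ∪ S1) ?_ ?_ ?_
  · intro S1 hS1
    rw [Finset.mem_powerset] at hS1
    rw [Finset.mem_filter, Finset.mem_powerset]
    constructor
    · apply Finset.union_subset
      · rw [hS0]; exact Finset.filter_subset _ _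
      · rw [hT] at hS1; exact hS1.trans (Finset.filter_subset _ _)
    · intro p hp hpp
      by_cases hpk : p ∣ k
      · rw [(hk0 p hp hpp hpk).1, (hk0 p hp hpp hpk).2]; simp
      · have hpn : p ∈ n.primeFactors := Nat.mem_primeFactors.mpr ⟨hpp, hp, n_ne_zero q⟩
        by_cases hneg : res q hn hp y = -(l * res q hn hp x)
        · rw [if_pos, hneg]
          · ring
          · rw [Finset.mem_union, hS0, Finset.mem_filter]
            exact Or.inl ⟨hpn, hpk, hp, hneg⟩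
        · rw [if_neg, one_mul]
          · exact (hk1 p hp hpp hpk).2.resolve_right hneg
          · rw [Finset.mem_union, not_or, hS0, Finset.mem_filter]
            refine ⟨fun h => hneg h.2.2.2, fun h => ?_⟩
            have := hS1 h
            rw [hT, Finset.mem_filter] at this
            exact hpk this.2
  · intro S1 hS1 S2 hS2 h
    rw [Finset.mem_powerset] at hS1 hS2
    have hdis : ∀ p, p ∈ S0 → p ∉ T := by
      intro p hp hpT
      rw [hS0, Finset.mem_filter] at hp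
      rw [hT, Finset.mem_filter] at hpT
      exact hp.2.1 hpT.2
    ext p
    constructor
    · intro hp
      have h1 : p ∈ S0 ∪ S2 := h ▸ Finset.mem_union_right _ hp
      rcases Finset.mem_union.mp h1 with h2 | h2
      · exact absurd (hS1 hp) (hdis p h2)
      · exact h2
    · intro hp
      have h1 : p ∈ S0 ∪ S1 := h.symm ▸ Finset.mem_union_right _ hp
      rcases Finset.mem_union.mp h1 with h2 | h2
      · exact absurd (hS2 hp) (hdis p h2)
      · exact h2
  · intro S hS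
    rw [Finset.mem_filter, Finset.mem_powerset] at hS
    obtain ⟨hS1, hS2⟩ := hS
    refine ⟨S ∩ T, Finset.mem_powerset.mpr Finset.inter_subset_right, ?_⟩
    ext p
    rw [Finset.mem_union, Finset.mem_inter]
    constructor
    · rintro (h | h)
      · rw [hS0, Finset.mem_filter] at h
        obtain ⟨hpn, hpk, hp, hneg⟩ := h
        have hpp := Nat.prime_of_mem_primeFactors hpn
        by_contra hcon
        have h1 := hS2 p hp hpp
        rw [if_neg hcon, one_mul] at h1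
        have hpf : Fact p.Prime := ⟨hpp⟩
        have h2 := (hk1 p hp hpp hpk).1
        have h3 : (2 : ZMod p) * res q hn hp y = 0 := by linear_combination h1 + hneg
        have h4 := two_mul_inv hn hp
        apply h2
        calc res q hn hp y = ((2 : ZMod p) * 2⁻¹) * res q hn hp y := by rw [h4, one_mul]
          _ = 2⁻¹ * (2 * res q hn hp y) := by ring
          _ = 0 := by rw [h3, mul_zero]
      · exact h.1
    · intro h
      have hpn := hS1 h
      obtain ⟨hpp, hp, -⟩ := Nat.mem_primeFactors.mp hpn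
      by_cases hpk : p ∣ k
      · right
        refine ⟨h, ?_⟩
        rw [hT, Finset.mem_filter]
        exact ⟨hpn, hpk⟩
      · left
        rw [hS0, Finset.mem_filter]
        refine ⟨hpn, hpk, hp, ?_⟩
        have h1 := hS2 p hp hpp
        rw [if_pos h] at h1
        rw [h1]; ring

/-- **the sum over all signs is a product set** -/
theorem sum_S (hn : n % 4 = 3) {a l : ℕ} (ha : Nat.Coprime a n)
    (hl : n ∣ 17 * l + 1) {M k m : ℕ} (hMk : M + 17 * k = m * n) (X Y : Ideal (𝓞 K)) :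
    ∑ S ∈ n.primeFactors.powerset, (Zc q hn S l X Y (M * a) (k * (l * a))).card =
      2 ^ (n.primeFactors.filter fun p => p ∣ k).card *
        (((elem q (M * a)).filter fun x => x ∈ X).card *
          ((elem q (k * (l * a))).filter fun y => y ∈ Y).card) := by
  unfold Zc
  simp only [Finset.card_filter (fun p : 𝓞 K × 𝓞 K => Gl q hn _ l p.1 p.2)]
  rw [Finset.sum_comm]
  have h1 : ∀ p ∈ (((elem q (M * a)).filter fun x => x ∈ X) ×ˢ
      ((elem q (k * (l * a))).filter fun y => y ∈ Y)),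
      (∑ S ∈ n.primeFactors.powerset, if Gl q hn S l p.1 p.2 then 1 else 0) =
        2 ^ (n.primeFactors.filter fun p => p ∣ k).card := by
    intro p hp
    rw [Finset.mem_product, Finset.mem_filter, Finset.mem_filter, mem_elem, mem_elem] at hp
    rw [← Finset.card_filter]
    exact count_S q hn ha hl hMk hp.1.1 hp.2.1
  rw [Finset.sum_congr rfl h1, Finset.sum_const, Finset.card_product, smul_eq_mul, mul_comm]

/-- a family of representatives of the classes prime to `n`, and an ideal of norm `l` with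
`17 l ≡ -1 mod n` -/
structure Rep (l : ℕ) where
  a : ClassGroup (𝓞 K) → Ideal (𝓞 K)
  na : ClassGroup (𝓞 K) → ℕ
  ha0 : ∀ C, a C ≠ ⊥
  hcl : ∀ C, cl (a C) = C
  hN : ∀ C, q.HasN (a C) (na C)
  hco : ∀ C, Nat.Coprime (na C) n
  L : Ideal (𝓞 K)
  hL : q.HasN L l
  hl : n ∣ 17 * l + 1
  hl0 : l ≠ 0

variable {l : ℕ} (r : Rep q l)

namespace Rep

variable {q}

/-- the first ideal -/
noncomputable def X (A B : ClassGroup (𝓞 K)) : Ideal (𝓞 K) := (r.a A).map q.s * r.a B
/-- the second ideal -/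
noncomputable def Y (A B : ClassGroup (𝓞 K)) : Ideal (𝓞 K) :=
  r.L.map q.s * ((r.a A).map q.s * (r.a B).map q.s)
/-- the norm of the first ideal -/
noncomputable def nX (A B : ClassGroup (𝓞 K)) : ℕ := r.na A * r.na B

include r in
theorem l_co : Nat.Coprime l n := by
  have h1 : Nat.Coprime (17 * l) n := by
    rw [Nat.coprime_comm]
    have h2 : Nat.Coprime (17 * l + 1) (17 * l) := by simp
    exact Nat.Coprime.coprime_dvd_left r.hl h2
  exact Nat.Coprime.coprime_dvd_left ⟨17, by ring⟩ h1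

theorem L_ne : r.L ≠ ⊥ := ne_bot_of_hasN q r.hl0 r.hL

theorem hX (A B : ClassGroup (𝓞 K)) : q.HasN (r.X A B) (r.nX A B) :=
  (hasN_map q (r.hN A)).mul (r.hN B)

theorem hY (A B : ClassGroup (𝓞 K)) : q.HasN (r.Y A B) (l * r.nX A B) :=
  (hasN_map q r.hL).mul ((hasN_map q (r.hN A)).mul (hasN_map q (r.hN B)))

theorem X_ne (A B : ClassGroup (𝓞 K)) : r.X A B ≠ ⊥ :=
  mul_ne_bot (map_ne_bot q (r.ha0 A)) (r.ha0 B)

theorem Y_ne (A B : ClassGroup (𝓞 K)) : r.Y A B ≠ ⊥ :=
  mul_ne_bot (map_ne_bot q r.L_ne) (mul_ne_bot (map_ne_bot q (r.ha0 A)) (map_ne_bot q (r.ha0 B)))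

theorem cl_X (A B : ClassGroup (𝓞 K)) : cl (r.X A B) = A⁻¹ * B := by
  unfold X
  rw [cl_mul (map_ne_bot q (r.ha0 A)) (r.ha0 B), cl_map q (r.ha0 A), r.hcl, r.hcl]

theorem cl_Y (A B : ClassGroup (𝓞 K)) : cl (r.Y A B) = (cl r.L)⁻¹ * (A⁻¹ * B⁻¹) := by
  unfold Y
  rw [cl_mul (map_ne_bot q r.L_ne) (mul_ne_bot (map_ne_bot q (r.ha0 A)) (map_ne_bot q (r.ha0 B))),
    cl_mul (map_ne_bot q (r.ha0 A)) (map_ne_bot q (r.ha0 B)), cl_map q r.L_ne, cl_map q (r.ha0 A),
    cl_map q (r.ha0 B), r.hcl, r.hcl]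

theorem nX_co (A B : ClassGroup (𝓞 K)) : Nat.Coprime (r.nX A B) n :=
  Nat.Coprime.mul_left (r.hco A) (r.hco B)

theorem nX_ne (A B : ClassGroup (𝓞 K)) : r.nX A B ≠ 0 := hasN_ne_zero q (r.X_ne A B) (r.hX A B)

/-- the number of pairs for given `k` -/
noncomputable def W (hn : n % 4 = 3) (S : Finset ℕ) (M k : ℕ) (A B : ClassGroup (𝓞 K)) : ℕ :=
  (Zc q hn S l (r.X A B) (r.Y A B) (M * r.nX A B) (k * (l * r.nX A B))).card

theorem W_shift (hn : n % 4 = 3) (h17 : ¬ 17 ∣ n) {S : Finset ℕ} (hS : S ⊆ n.primeFactors)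
    {M k m : ℕ} (hMk : M + 17 * k = m * n) (A B : ClassGroup (𝓞 K)) :
    r.W hn ∅ M k (A * cl (am q (∏ p ∈ S, p))) (B * cl (am q (∏ p ∈ S, p))) =
      r.W hn S M k A B := by
  unfold W X Y nX
  refine shift q hn h17 (r.hN _) (r.hN _) (r.hN _) (r.hN _) r.hL (r.ha0 _) (r.ha0 _) (r.ha0 _)
    (r.ha0 _) (r.hco _) (r.hco _) (r.hco _) (r.hco _) hS ?_ ?_ hMk
  · rw [r.hcl, r.hcl]
  · rw [r.hcl, r.hcl]

theorem W_sum (hn : n % 4 = 3) (hn3 : 3 < n) {M k m : ℕ} (hM : M ≠ 0) (hk : k ≠ 0)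
    (hMk : M + 17 * k = m * n) (A B : ClassGroup (𝓞 K)) :
    ∑ S ∈ n.primeFactors.powerset, r.W hn S M k A B =
      2 ^ (n.primeFactors.filter fun p => p ∣ k).card *
        (4 * (rc q (A⁻¹ * B)⁻¹ M * rc q ((cl r.L)⁻¹ * (A⁻¹ * B⁻¹))⁻¹ k)) := by
  unfold W
  rw [sum_S q hn (r.nX_co A B) r.hl hMk, card_el q hn hn3 (r.X_ne A B) (r.hX A B) hM,
    card_el q hn hn3 (r.Y_ne A B) (r.hY A B) hk, r.cl_X, r.cl_Y]
  ring

theorem card_powerset_ne : (2 : ℤ) ^ n.primeFactors.card ≠ 0 := by positivity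

/-- the weighted sum for given `k` -/
noncomputable def Wt (hn : n % 4 = 3) (V M k : ℕ) : ℤ :=
  ∑ A : ClassGroup (𝓞 K), ∑ B : ClassGroup (𝓞 K), chi q V A * chi q V B * r.W hn ∅ M k A B

theorem Wt_eq (hn : n % 4 = 3) (h17 : ¬ 17 ∣ n) (hn3 : 3 < n) {V : ℕ} (hV : V ∣ n) {M k m : ℕ}
    (hM : M ≠ 0) (hk : k ≠ 0) (hMk : M + 17 * k = m * n) :
    2 ^ n.primeFactors.card * r.Wt hn V M k =
      2 ^ (n.primeFactors.filter fun p => p ∣ k).card * (4 *
        ∑ A : ClassGroup (𝓞 K), ∑ B : ClassGroup (𝓞 K), chi q V A * chi q V B *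
          (rc q (A⁻¹ * B)⁻¹ M * rc q ((cl r.L)⁻¹ * (A⁻¹ * B⁻¹))⁻¹ k : ℕ)) := by
  have h1 : ∀ S ∈ n.primeFactors.powerset, r.Wt hn V M k = ∑ A : ClassGroup (𝓞 K),
      ∑ B : ClassGroup (𝓞 K), chi q V A * chi q V B * r.W hn S M k A B := by
    intro S hS
    rw [Finset.mem_powerset] at hS
    unfold Wt
    set e := cl (am q (∏ p ∈ S, p)) with he
    rw [← Fintype.sum_equiv (Equiv.mulRight e) (fun A => ∑ B : ClassGroup (𝓞 K),
      chi q V (A * e) * chi q V B * (r.W hn ∅ M k (A * e) B : ℤ)) _ (fun A => rfl)]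
    refine Finset.sum_congr rfl fun A _ => ?_
    rw [← Fintype.sum_equiv (Equiv.mulRight e) (fun B =>
      chi q V (A * e) * chi q V (B * e) * (r.W hn ∅ M k (A * e) (B * e) : ℤ)) _ (fun B => rfl)]
    refine Finset.sum_congr rfl fun B _ => ?_
    rw [he, r.W_shift hn h17 hS hMk, ← he, chi_mul q hn hV, chi_mul q hn hV]
    have := chi_sq q hn hV e
    linear_combination (chi q V A * chi q V B * (r.W hn S M k A B : ℤ)) * this
  have h2 : 2 ^ n.primeFactors.card * r.Wt hn V M k = ∑ S ∈ n.primeFactors.powerset,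
      r.Wt hn V M k := by
    rw [Finset.sum_const, Finset.card_powerset, nsmul_eq_mul]
    push_cast
    rfl
  rw [h2, Finset.sum_congr rfl h1, Finset.sum_comm, Finset.mul_sum, Finset.mul_sum]
  refine Finset.sum_congr rfl fun A _ => ?_
  rw [Finset.sum_comm, Finset.mul_sum, Finset.mul_sum]
  refine Finset.sum_congr rfl fun B _ => ?_
  rw [← Finset.mul_sum]
  have h3 := r.W_sum hn hn3 hM hk hMk A B
  have h4 : (∑ S ∈ n.primeFactors.powerset, (r.W hn S M k A B : ℤ)) =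
      2 ^ (n.primeFactors.filter fun p => p ∣ k).card *
        (4 * (rc q (A⁻¹ * B)⁻¹ M * rc q ((cl r.L)⁻¹ * (A⁻¹ * B⁻¹))⁻¹ k)) := by
    exact_mod_cast h3
  rw [h4]
  push_cast
  ring

/-- reindexing the double sum -/
theorem reindex (hn : n % 4 = 3) {V : ℕ} (hV : V ∣ n) (f g : ClassGroup (𝓞 K) → ℤ)
    (D : ClassGroup (𝓞 K)) :
    ∑ A : ClassGroup (𝓞 K), ∑ B : ClassGroup (𝓞 K), chi q V A * chi q V B *
      (f (A⁻¹ * B)⁻¹ * g (D⁻¹ * (A⁻¹ * B⁻¹))⁻¹) =
    ∑ C : ClassGroup (𝓞 K), chi q V C * f C * ∑ B : ClassGroup (𝓞 K), g (B * B * (D * C)) := by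
  rw [Finset.sum_comm]
  simp only [Finset.mul_sum]
  rw [Finset.sum_comm (s := (Finset.univ : Finset (ClassGroup (𝓞 K))))
    (t := (Finset.univ : Finset (ClassGroup (𝓞 K))))
    (f := fun C B => chi q V C * f C * g (B * B * (D * C)))]
  refine Finset.sum_congr rfl fun B _ => ?_
  rw [← Fintype.sum_equiv (Equiv.mulRight B) (fun C => chi q V (C * B) * chi q V B *
      (f ((C * B)⁻¹ * B)⁻¹ * g (D⁻¹ * ((C * B)⁻¹ * B⁻¹))⁻¹)) _ (fun C => rfl)]
  refine Finset.sum_congr rfl fun C _ => ?_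
  have e1 : ((C * B)⁻¹ * B)⁻¹ = C := by
    rw [mul_inv, inv_inv, mul_assoc, mul_inv_cancel, mul_one]
  have e2 : (D⁻¹ * ((C * B)⁻¹ * B⁻¹))⁻¹ = B * B * (D * C) := by
    rw [mul_inv, mul_inv, inv_inv, inv_inv, inv_inv]
    rw [mul_comm (B * B), mul_assoc, mul_assoc]
  rw [e1, e2, chi_mul q hn hV]
  have := chi_sq q hn hV B
  linear_combination (chi q V C * f C * g (B * B * (D * C))) * this

theorem cl_L (hn : n % 4 = 3) {V : ℕ} (hV : V ∣ n) : chi q V (cl r.L) = jacobiSym (-17) V := by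
  rw [chi_cl q hn hV r.L_ne r.hL r.l_co]
  have h1 : jacobiSym (17 * l : ℤ) V = jacobiSym (-1) V := by
    apply jacobiSym.mod_left'
    obtain ⟨c, hc⟩ := hV.trans r.hl
    have hc' : (17 * l : ℤ) + 1 = V * c := by exact_mod_cast hc
    rw [show (17 * l : ℤ) = -1 + V * c by linarith, Int.add_mul_emod_self_left]
  rw [jacobiSym.mul_left] at h1
  have h17co : Nat.Coprime 17 V := by
    have h2 : Nat.Coprime (17 * l) n := by
      rw [Nat.coprime_comm]
      have h3 : Nat.Coprime (17 * l + 1) (17 * l) := by simp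
      exact Nat.Coprime.coprime_dvd_left r.hl h3
    exact Nat.Coprime.coprime_dvd_right hV (Nat.Coprime.coprime_dvd_left ⟨l, rfl⟩ h2)
  have h2 : jacobiSym (17 : ℤ) V ^ 2 = 1 := jac_sq h17co
  rw [show (-17 : ℤ) = -1 * 17 by norm_num, jacobiSym.mul_left, ← h1]
  linear_combination (-(jacobiSym l V)) * h2

/-- the divisor sum -/
theorem Wt_SU (hn : n % 4 = 3) (h17 : ¬ 17 ∣ n) (hn3 : 3 < n) {V V' : ℕ} (hVV : V * V' = n)
    {M k m : ℕ} (hM : M ≠ 0) (hk : k ≠ 0) (hMk : M + 17 * k = m * n) :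
    2 ^ n.primeFactors.card * r.Wt hn V M k =
      2 * (2 ^ (n.primeFactors.filter fun p => p ∣ k).card * SU V V' M k) := by
  have hV : V ∣ n := ⟨V', hVV.symm⟩
  have hV' : V' ∣ n := ⟨V, by rw [← hVV]; ring⟩
  rw [r.Wt_eq hn h17 hn3 hV hM hk hMk]
  have h1 := reindex (q := q) hn hV (fun C => (rc q C M : ℤ)) (fun C => (rc q C k : ℤ)) (cl r.L)
  have h2 : ∑ A : ClassGroup (𝓞 K), ∑ B : ClassGroup (𝓞 K), chi q V A * chi q V B *
          (rc q (A⁻¹ * B)⁻¹ M * rc q ((cl r.L)⁻¹ * (A⁻¹ * B⁻¹))⁻¹ k : ℕ) =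
      ∑ C : ClassGroup (𝓞 K), chi q V C * (rc q C M : ℤ) *
        ∑ B : ClassGroup (𝓞 K), (rc q (B * B * (cl r.L * C)) k : ℤ) := by
    rw [← h1]
    push_cast
    rfl
  have h3 : ∀ C : ClassGroup (𝓞 K), 2 * ∑ B : ClassGroup (𝓞 K),
      (rc q (B * B * (cl r.L * C)) k : ℤ) = ∑ U ∈ n.divisors, chi q U (cl r.L * C) * nu q U k := by
    intro C
    rw [sum_sq q hn (fun C => (rc q C k : ℤ)) (cl r.L * C)]
    refine Finset.sum_congr rfl fun U _ => ?_
    rw [nu_eq_sum]
  have h4 : 2 * ∑ C : ClassGroup (𝓞 K), chi q V C * (rc q C M : ℤ) *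
        ∑ B : ClassGroup (𝓞 K), (rc q (B * B * (cl r.L * C)) k : ℤ) =
      ∑ U ∈ n.divisors, chi q U (cl r.L) * nu q U k * nu q (sd U V) M := by
    rw [Finset.mul_sum]
    have e1 : ∀ C : ClassGroup (𝓞 K), 2 * (chi q V C * (rc q C M : ℤ) *
        ∑ B : ClassGroup (𝓞 K), (rc q (B * B * (cl r.L * C)) k : ℤ)) =
        ∑ U ∈ n.divisors, chi q U (cl r.L) * nu q U k * (chi q (sd U V) C * (rc q C M : ℤ)) := by
      intro C
      have : 2 * (chi q V C * (rc q C M : ℤ) *
        ∑ B : ClassGroup (𝓞 K), (rc q (B * B * (cl r.L * C)) k : ℤ)) =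
        chi q V C * (rc q C M : ℤ) * (2 * ∑ B : ClassGroup (𝓞 K),
          (rc q (B * B * (cl r.L * C)) k : ℤ)) := by ring
      rw [this, h3, Finset.mul_sum]
      refine Finset.sum_congr rfl fun U hU => ?_
      have hU' := (Nat.mem_divisors.mp hU).1
      rw [chi_mul q hn hU', chi_sd q hn hU' hV]
      ring
    rw [Finset.sum_congr rfl fun C _ => e1 C, Finset.sum_comm]
    refine Finset.sum_congr rfl fun U _ => ?_
    rw [← Finset.mul_sum, ← nu_eq_sum]
  rw [h2]
  have h5 : SU V V' M k = ∑ U ∈ n.divisors, chi q U (cl r.L) * nu q U k * nu q (sd U V) M := by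
    unfold SU
    rw [hVV]
    refine Finset.sum_bij' (fun U _ => sd U V) (fun U _ => sd U V) ?_ ?_ ?_ ?_ ?_
    · intro U hU
      rw [Nat.mem_divisors] at hU ⊢
      exact ⟨sd_dvd q.hd hU.1 hV, hU.2⟩
    · intro U hU
      rw [Nat.mem_divisors] at hU ⊢
      exact ⟨sd_dvd q.hd hU.1 hV, hU.2⟩
    · intro U hU
      exact sd_sd q.hd (Nat.mem_divisors.mp hU).1 hV
    · intro U hU
      exact sd_sd q.hd (Nat.mem_divisors.mp hU).1 hV
    · intro U hU
      have hU' := (Nat.mem_divisors.mp hU).1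
      have hs := sd_dvd q.hd hU' hV
      have hc := sd_compl q.hd hU' hVV
      have e1 : nu q (sd U V) k = R (sd U V') (sd U V) k := by
        rw [← nu_eq q hn (by rw [mul_comm]; exact hc) hk]
        unfold nu
        refine Finset.sum_congr rfl fun I _ => ?_
        exact chi_compl q hn hc _
      have e2 : nu q U M = R U (n / U) M := nu_eq q hn (Nat.mul_div_cancel' hU') hM
      rw [sd_sd q.hd hU' hV, r.cl_L hn hs, e1, e2]
      ring
  rw [h5, ← h4]
  ring

end Rep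

end Vale.Agent.P014.H581
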