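import Vale.Agent.P014.H581.Sq

/-!
# Elements of given norm in an ideal
-/

namespace Vale.Agent.P014.H581

open NumberField Vale.Agent.P017.H185 Vale.Agent.P017.H185.QF
open scoped Classical

variable {K : Type*} [Field K] [NumberField K] {n : ℕ} (q : QF K n)

theorem tr_sq_le (x : 𝓞 K) : tr q x ^ 2 ≤ 4 * q.N x := by
  obtain ⟨v, -, hv⟩ := exists_coords q x
  rw [hv]
  have : 0 ≤ (n : ℤ) * v ^ 2 := by positivity
  linarith

theorem tr_abs_le {x : 𝓞 K} {c : ℕ} (h : q.N x = c) : -(4 * c : ℤ) ≤ tr q x ∧ tr q x ≤ 4 * c := by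
  have h1 := tr_sq_le q x
  rw [h] at h1
  constructor
  · nlinarith
  · nlinarith

theorem tr_inj {x y : 𝓞 K} (h1 : tr q x = tr q y) (h2 : tr q (q.t * x) = tr q (q.t * y)) : x = y := by
  have e1 : x + q.s x = y + q.s y := by rw [add_s, add_s, h1]
  have e2 : q.t * x + q.s (q.t * x) = q.t * y + q.s (q.t * y) := by rw [add_s, add_s, h2]
  rw [map_mul, map_mul, q.s_t] at e2
  have e3 : x - q.s x = y - q.s y := by
    apply mul_left_cancel₀ q.t_ne_zero
    linear_combination e2
  have e4 : (2 : 𝓞 K) * x = 2 * y := by linear_combination e1 + e3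
  exact mul_left_cancel₀ two_ne_zero e4

theorem finite_N (c : ℕ) : {x : 𝓞 K | q.N x = c}.Finite := by
  apply Set.Finite.of_finite_image (f := fun x => (tr q x, tr q (q.t * x)))
  · refine Set.Finite.subset ((Set.finite_Icc (-(4 * c : ℤ)) (4 * c)).prod
      (Set.finite_Icc (-(4 * (n * c : ℕ) : ℤ)) (4 * (n * c : ℕ)))) ?_
    rintro _ ⟨x, hx, rfl⟩
    have hx' : q.N x = c := hx
    have h2 : q.N (q.t * x) = n * c := by rw [N_mul, N_t, hx']
    exact ⟨tr_abs_le q hx', tr_abs_le q h2⟩
  · intro x _ y _ h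
    exact tr_inj q (congrArg Prod.fst h) (congrArg Prod.snd h)

/-- the elements of norm `c` -/
noncomputable def elem (c : ℕ) : Finset (𝓞 K) := (finite_N q c).toFinset

theorem mem_elem {c : ℕ} {x : 𝓞 K} : x ∈ elem q c ↔ q.N x = c := by
  unfold elem
  rw [Set.Finite.mem_toFinset]
  rfl

theorem unit_pm (hn : n % 4 = 3) (hn3 : 3 < n) {u : 𝓞 K} (hu : q.N u = 1) : u = 1 ∨ u = -1 := by
  obtain ⟨v, hv, hv4⟩ := exists_coords q u
  rw [hu] at hv4
  have hn7 : (7 : ℤ) ≤ n := by
    have : 7 ≤ n := by omega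
    exact_mod_cast this
  have hv0 : v = 0 := by
    by_contra h
    have h1 : 1 ≤ v ^ 2 := by
      have : 0 < v ^ 2 := by positivity
      linarith
    have h3 : (7 : ℤ) * 1 ≤ n * v ^ 2 := mul_le_mul hn7 h1 (by norm_num) (by positivity)
    push_cast at hv4
    have := sq_nonneg (tr q u)
    linarith
  rw [hv0] at hv hv4
  have h2 : (tr q u - 2) * (tr q u + 2) = 0 := by
    push_cast at hv4
    linear_combination -hv4
  rcases mul_eq_zero.mp h2 with h | h
  · left
    have h3 : tr q u = 2 := by linarith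
    rw [h3] at hv
    have : (2 : 𝓞 K) * u = 2 * 1 := by rw [hv]; push_cast; ring
    exact mul_left_cancel₀ two_ne_zero this
  · right
    have h3 : tr q u = -2 := by linarith
    rw [h3] at hv
    have : (2 : 𝓞 K) * u = 2 * (-1) := by rw [hv]; push_cast; ring
    exact mul_left_cancel₀ two_ne_zero this

include q in
theorem span_eq_iff (hn : n % 4 = 3) (hn3 : 3 < n) {x y : 𝓞 K} (hx : x ≠ 0) :
    Ideal.span {y} = Ideal.span {x} ↔ y = x ∨ y = -x := by
  constructor
  · intro h
    have h1 : y ∈ Ideal.span {x} := by rw [← h]; exact Ideal.mem_span_singleton_self _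
    obtain ⟨u, hu⟩ := Ideal.mem_span_singleton.mp h1
    have hN : q.N y = q.N x := by
      have h2 := q.hasN_span y
      rw [h] at h2
      exact (q.hasN_unique h2 (q.hasN_span x))
    have hN1 : q.N u = 1 := by
      rw [hu, N_mul] at hN
      have h0 := q.N_ne_zero hx
      exact Nat.eq_of_mul_eq_mul_left (Nat.pos_of_ne_zero h0) (by rw [hN, mul_one])
    rcases unit_pm q hn hn3 hN1 with h2 | h2
    · left; rw [hu, h2, mul_one]
    · right; rw [hu, h2]; ring
  · rintro (rfl | rfl)
    · rfl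
    · exact Ideal.span_singleton_neg x

/-- the number of ideals of norm `k` in the class `C` -/
noncomputable def rc (C : ClassGroup (𝓞 K)) (k : ℕ) : ℕ := ((idl q k).filter fun I => cl I = C).card

theorem nu_eq_sum (V k : ℕ) : nu q V k = ∑ C : ClassGroup (𝓞 K), chi q V C * rc q C k := by
  unfold nu rc
  rw [← Finset.sum_fiberwise (idl q k) (fun I => cl I)]
  refine Finset.sum_congr rfl fun C _ => ?_
  rw [mul_comm, ← nsmul_eq_mul, ← Finset.sum_const]
  refine Finset.sum_congr rfl fun I hI => ?_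
  rw [(Finset.mem_filter.mp hI).2]

/-- **elements of norm `k N X` in `X` correspond to ideals of norm `k` in the inverse class** -/
theorem card_el (hn : n % 4 = 3) (hn3 : 3 < n) {X : Ideal (𝓞 K)} {a : ℕ} (hX0 : X ≠ ⊥)
    (hX : q.HasN X a) {k : ℕ} (hk : k ≠ 0) :
    ((elem q (k * a)).filter fun x => x ∈ X).card = 2 * rc q (cl X)⁻¹ k := by
  have ha0 := hasN_ne_zero q hX0 hX
  set g : 𝓞 K → Ideal (𝓞 K) := fun x => if h : X ∣ Ideal.span {x} then h.choose else ⊥ with hg
  have hgs : ∀ x ∈ X, Ideal.span {x} = X * g x := by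
    intro x hx
    have h : X ∣ Ideal.span {x} := Ideal.dvd_iff_le.mpr ((Ideal.span_singleton_le_iff_mem X).mpr hx)
    rw [hg]
    simp only
    rw [dif_pos h]
    exact h.choose_spec
  have hne : ∀ {x : 𝓞 K}, q.N x = k * a → x ≠ 0 := by
    intro x hx h0
    rw [h0, (N_eq_zero q).mpr rfl] at hx
    exact mul_ne_zero hk ha0 hx.symm
  have hmaps : Set.MapsTo g (((elem q (k * a)).filter fun x => x ∈ X : Finset (𝓞 K)) : Set (𝓞 K))
      (((idl q k).filter fun I => cl I = (cl X)⁻¹ : Finset (Ideal (𝓞 K))) : Set (Ideal (𝓞 K))) := by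
    intro x hx
    have hx' := Finset.mem_filter.mp (Finset.mem_coe.mp hx)
    rw [mem_elem] at hx'
    obtain ⟨h1, h2⟩ := hx'
    have h3 := hgs x h2
    have hx0 := hne h1
    have hg0 : g x ≠ ⊥ := by
      intro h
      rw [h, Ideal.mul_bot] at h3
      exact span_ne_bot hx0 h3
    obtain ⟨m', hm', hmm⟩ := hasN_quot q (span_ne_bot hx0) h3 (q.hasN_span x) hX
    rw [h1] at hmm
    have hmk : m' = k := by
      apply Nat.eq_of_mul_eq_mul_left (Nat.pos_of_ne_zero ha0)
      rw [← hmm, mul_comm]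
    rw [hmk] at hm'
    rw [Finset.mem_coe, Finset.mem_filter, mem_idl]
    refine ⟨hm', ?_⟩
    have h4 := cl_mul hX0 hg0
    rw [← h3, cl_span hx0] at h4
    exact (inv_eq_of_mul_eq_one_right h4.symm).symm
  rw [Finset.card_eq_sum_card_fiberwise hmaps]
  unfold rc
  refine (Finset.sum_congr rfl (g := fun _ => 2) fun I hI => ?_).trans (by
    rw [Finset.sum_const, smul_eq_mul, mul_comm])
  rw [Finset.mem_filter, mem_idl] at hI
  have hI0 := ne_bot_of_hasN q hk hI.1
  obtain ⟨x, hx, hxI⟩ := (cl_eq_one_iff (mul_ne_bot hX0 hI0)).mp (by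
    rw [cl_mul hX0 hI0, hI.2, mul_inv_cancel])
  have hxX : x ∈ X := by
    have : Ideal.span {x} ≤ X := by rw [← hxI]; exact Ideal.mul_le_left
    exact (Ideal.span_singleton_le_iff_mem X).mp this
  have hNx : q.N x = k * a := by
    have h1 := hX.mul hI.1
    rw [hxI] at h1
    rw [mul_comm k a]
    exact (q.hasN_unique h1 (q.hasN_span x)).symm
  have hne2 : x ≠ -x := by
    intro h
    have h2 : (2 : 𝓞 K) * x = 2 * 0 := by linear_combination h
    exact hx (mul_left_cancel₀ two_ne_zero h2)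
  have hset : (((elem q (k * a)).filter fun x => x ∈ X).filter fun y => g y = I) = {x, -x} := by
    ext y
    rw [Finset.mem_filter, Finset.mem_filter, mem_elem, Finset.mem_insert, Finset.mem_singleton,
      ← span_eq_iff q hn hn3 hx]
    constructor
    · rintro ⟨⟨h1, h2⟩, h3⟩
      rw [hgs y h2, h3, hxI]
    · intro h
      have hyX : y ∈ X := by
        have : Ideal.span {y} ≤ X := by rw [h, ← hxI]; exact Ideal.mul_le_left
        exact (Ideal.span_singleton_le_iff_mem X).mp this
      have hNy : q.N y = k * a := by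
        rw [← hNx]
        have h2 := q.hasN_span y
        rw [h] at h2
        exact q.hasN_unique h2 (q.hasN_span x)
      refine ⟨⟨hNy, hyX⟩, ?_⟩
      have h3 := hgs y hyX
      rw [h, ← hxI] at h3
      exact (mul_left_cancel₀ hX0 h3).symm
  rw [hset, Finset.card_pair hne2]

end Vale.Agent.P014.H581
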