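import Vale.Agent.P014.H581.Fin

/-!
# Existence of the representatives; the axioms of the genus characters
-/

namespace Vale.Agent.P014.H581

open NumberField Vale.Agent.P017.H185 Vale.Agent.P017.H185.QF
open scoped Classical

variable {K : Type*} [Field K] [NumberField K] {n : ℕ} (q : QF K n)

theorem not_dvd_17 (h17 : jacobiSym n 17 = -1) : ¬ 17 ∣ n := by
  rintro ⟨c, rfl⟩
  have : jacobiSym ((17 * c : ℕ) : ℤ) 17 = 0 := by
    rw [jacobiSym.eq_zero_iff]
    refine ⟨by norm_num, ?_⟩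
    rw [Int.gcd_natCast_natCast]
    intro h
    have h2 : 17 ∣ Nat.gcd (17 * c) 17 := Nat.dvd_gcd (dvd_mul_right _ _) dvd_rfl
    rw [h] at h2
    norm_num at h2
  rw [this] at h17
  norm_num at h17

/-- an ideal `L` of prime norm `l > 17`, `17 l ≡ -1 mod n` -/
theorem exists_L (hn : n % 4 = 3) (h17 : jacobiSym n 17 = -1) :
    ∃ (l : ℕ) (L : Ideal (𝓞 K)), l.Prime ∧ 17 < l ∧ q.HasN L l ∧ n ∣ 17 * l + 1 := by
  have hn0 := n_ne_zero q
  have : NeZero n := ⟨hn0⟩
  have hco : Nat.Coprime 17 n := (Nat.Prime.coprime_iff_not_dvd (by norm_num)).mpr (not_dvd_17 h17)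
  obtain ⟨l, hl, hlp, hlc⟩ := Nat.forall_exists_prime_gt_and_eq_mod
    (-(ZMod.unitOfCoprime 17 hco)⁻¹).isUnit 17
  have h1 : ((17 * l + 1 : ℕ) : ZMod n) = 0 := by
    push_cast
    rw [hlc]
    have h2 : ((ZMod.unitOfCoprime 17 hco : (ZMod n)ˣ) : ZMod n) *
        (((ZMod.unitOfCoprime 17 hco)⁻¹ : (ZMod n)ˣ) : ZMod n) = 1 := Units.mul_inv _
    have h3 : ((ZMod.unitOfCoprime 17 hco : (ZMod n)ˣ) : ZMod n) = 17 := by
      rw [ZMod.coe_unitOfCoprime]; norm_num
    rw [h3] at h2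
    push_cast
    linear_combination -h2
  have hdvd : n ∣ 17 * l + 1 := (ZMod.natCast_eq_zero_iff _ _).mp h1
  have h2 : jacobiSym (17 * l : ℤ) n = jacobiSym (-1) n := by
    apply jacobiSym.mod_left'
    obtain ⟨c, hc⟩ := hdvd
    have hc' : (17 * l : ℤ) + 1 = n * c := by exact_mod_cast hc
    rw [show (17 * l : ℤ) = -1 + n * c by linarith, Int.add_mul_emod_self_left]
  have hodd : Odd n := Nat.odd_iff.mpr (by omega)
  have h3 : jacobiSym (-1) n = -1 := by
    rw [jacobiSym.at_neg_one hodd, ZMod.χ₄_nat_three_mod_four hn]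
  have h4 : jacobiSym (17 : ℕ) n = -1 := by
    rw [jacobiSym.quadratic_reciprocity_one_mod_four (by norm_num) hodd, ← h17]
  rw [jacobiSym.mul_left, h3] at h2
  have h5 : jacobiSym l n = 1 := by
    have h4' : jacobiSym (17 : ℤ) n = -1 := h4
    rw [h4'] at h2
    linarith
  obtain ⟨L, hL⟩ := exists_prime_ideal q hn hlp (by rw [h5]; norm_num)
  exact ⟨l, L, hlp, hl, hL, hdvd⟩

/-- **Existence of the data.** -/
theorem exists_Rep (hn : n % 4 = 3) (h17 : jacobiSym n 17 = -1) :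
    ∃ (l : ℕ) (r : Rep q l), l.Prime ∧ 17 < l ∧ ∀ C, Nat.Coprime (r.na C) (17 * n) := by
  obtain ⟨l, L, hlp, hl17, hL, hl⟩ := exists_L q hn h17
  have hM : 17 * n ≠ 0 := mul_ne_zero (by norm_num) (n_ne_zero q)
  choose a na ha0 hcl hN hco using fun C : ClassGroup (𝓞 K) => exists_coprime q C hM
  exact ⟨l, ⟨a, na, ha0, hcl, hN, fun C => Nat.Coprime.coprime_dvd_right ⟨17, by ring⟩ (hco C),
    L, hL, hl, hlp.ne_zero⟩, hlp, hl17, hco⟩

/-! ### half of the divisors -/

theorem card_divisors_sqf {n : ℕ} (hn : Squarefree n) :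
    n.divisors.card = 2 ^ n.primeFactors.card := by
  rw [Nat.card_divisors hn.ne_zero, Finset.prod_congr rfl (g := fun _ => 2), Finset.prod_const]
  intro p hp
  rw [Nat.factorization_eq_one_of_squarefree hn (Nat.prime_of_mem_primeFactors hp)
    (Nat.dvd_of_mem_primeFactors hp)]

theorem compl_mod {n V W : ℕ} (hn : n % 4 = 3) (hVW : V * W = n) : V % 4 = 1 ↔ W % 4 = 3 := by
  have h : (V % 4) * (W % 4) % 4 = 3 := by rw [← Nat.mul_mod, hVW, hn]
  have h1 : V % 4 < 4 := Nat.mod_lt _ (by norm_num)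
  have h2 : W % 4 < 4 := Nat.mod_lt _ (by norm_num)
  interval_cases V % 4 <;> interval_cases W % 4 <;> simp_all

/-- the divisors which are `1` modulo `4` -/
def D1' (n : ℕ) : Finset ℕ := n.divisors.filter (fun V => V % 4 = 1)

theorem sum_D1 (hn : n % 4 = 3) (x : ClassGroup (𝓞 K)) :
    2 * ∑ V ∈ D1' n, chi q V x = Tt q x := by
  have hn0 := n_ne_zero q
  unfold Tt D1'
  rw [← Finset.sum_filter_add_sum_filter_not n.divisors (fun V => V % 4 = 1), two_mul]
  congr 1
  refine Finset.sum_bij' (fun V _ => n / V) (fun V _ => n / V) ?_ ?_ ?_ ?_ ?_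
  · intro V hV
    rw [Finset.mem_filter, Nat.mem_divisors] at hV ⊢
    have h1 := Nat.mul_div_cancel' hV.1.1
    refine ⟨⟨Nat.div_dvd_of_dvd hV.1.1, hn0⟩, ?_⟩
    have := (compl_mod hn h1).mp hV.2
    omega
  · intro V hV
    rw [Finset.mem_filter, Nat.mem_divisors] at hV ⊢
    have h1 := Nat.mul_div_cancel' hV.1.1
    refine ⟨⟨Nat.div_dvd_of_dvd hV.1.1, hn0⟩, ?_⟩
    rw [compl_mod hn (by rw [mul_comm]; exact h1 : n / V * V = n)]
    have h2 := odd_V hn hV.1.1
    rw [Nat.odd_iff] at h2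
    have h3 := hV.2
    omega
  · intro V hV
    rw [Finset.mem_filter, Nat.mem_divisors] at hV
    exact Nat.div_div_self hV.1.1 hn0
  · intro V hV
    rw [Finset.mem_filter, Nat.mem_divisors] at hV
    exact Nat.div_div_self hV.1.1 hn0
  · intro V hV
    rw [Finset.mem_filter, Nat.mem_divisors] at hV
    exact chi_compl q hn (Nat.mul_div_cancel' hV.1.1) x

theorem mem_Sqs {x : ClassGroup (𝓞 K)} : x ∈ Sqs (K := K) ↔ IsSquare x := by
  unfold Sqs
  rw [Finset.mem_image]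
  constructor
  · rintro ⟨y, -, h⟩; exact ⟨y, h.symm⟩
  · rintro ⟨y, h⟩; exact ⟨y, Finset.mem_univ _, h.symm⟩

/-- field `orth` of `BD` -/
theorem orth (hn : n % 4 = 3) (x : ClassGroup (𝓞 K)) :
    ∑ V ∈ D1' n, chi q V x = if IsSquare x then 2 ^ (n.primeFactors.card - 1) else 0 := by
  have h1 := sum_D1 q hn x
  obtain ⟨g1, g2⟩ := genus q hn
  have ht : 0 < n.primeFactors.card := by
    rw [Finset.card_pos, Nat.nonempty_primeFactors]
    omega
  rcases Tt_cases q hn x with ⟨h2, h3⟩ | h2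
  · rw [if_pos (mem_Sqs.mp ((g2 x).mp h3))]
    rw [h2, card_divisors_sqf q.hd] at h1
    obtain ⟨t, ht'⟩ : ∃ t, n.primeFactors.card = t + 1 := ⟨n.primeFactors.card - 1, by omega⟩
    rw [ht'] at h1 ⊢
    push_cast at h1
    rw [pow_succ] at h1
    simp only [Nat.add_sub_cancel]
    linarith
  · rw [h2] at h1
    rw [if_neg]
    · linarith
    · intro hsq
      have h3 := (g2 x).mpr (mem_Sqs.mpr hsq)
      have h4 : Tt q x = n.divisors.card := by
        unfold Tt
        rw [Finset.sum_congr rfl fun V hV => h3 V (Nat.mem_divisors.mp hV).1]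
        simp
      rw [h2] at h4
      have h5 : 0 < n.divisors.card := Finset.card_pos.mpr ⟨1, Nat.one_mem_divisors.mpr (n_ne_zero q)⟩
      have h6 : (0 : ℤ) < n.divisors.card := by exact_mod_cast h5
      omega

/-- field `chi_ne` of `BD` -/
theorem chi_ne (hn : n % 4 = 3) {V : ℕ} (hV : V ∈ D1' n) (hV1 : V ≠ 1) :
    ∃ x : ClassGroup (𝓞 K), chi q V x = -1 := by
  unfold D1' at hV
  rw [Finset.mem_filter, Nat.mem_divisors] at hV
  have h1 := Nat.mul_div_cancel' hV.1.1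
  apply exists_chi_neg q hn h1 hV1
  have := (compl_mod hn h1).mp hV.2
  omega

end Vale.Agent.P014.H581
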