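import Mathlib

/-!
# The field with nine elements
-/

namespace Vale.Agent.P014

/-- the field with nine elements, `re + im * i` with `i ^ 2 = -1` -/
@[ext]
structure F9 where
  re : ZMod 3
  im : ZMod 3
deriving DecidableEq

namespace F9

/-- pairs -/
def equivProd : F9 ≃ ZMod 3 × ZMod 3 where
  toFun z := (z.re, z.im)
  invFun p := ⟨p.1, p.2⟩
  left_inv _ := rfl
  right_inv _ := rfl

instance : Fintype F9 := Fintype.ofEquiv _ equivProd.symm

instance : Zero F9 := ⟨⟨0, 0⟩⟩
instance : One F9 := ⟨⟨1, 0⟩⟩
instance : Add F9 := ⟨fun a b => ⟨a.re + b.re, a.im + b.im⟩⟩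
instance : Neg F9 := ⟨fun a => ⟨-a.re, -a.im⟩⟩
instance : Sub F9 := ⟨fun a b => ⟨a.re - b.re, a.im - b.im⟩⟩
instance : Mul F9 := ⟨fun a b => ⟨a.re * b.re - a.im * b.im, a.re * b.im + a.im * b.re⟩⟩

@[simp] theorem zero_re : (0 : F9).re = 0 := rfl
@[simp] theorem zero_im : (0 : F9).im = 0 := rfl
@[simp] theorem one_re : (1 : F9).re = 1 := rfl
@[simp] theorem one_im : (1 : F9).im = 0 := rfl
@[simp] theorem add_re (a b : F9) : (a + b).re = a.re + b.re := rfl
@[simp] theorem add_im (a b : F9) : (a + b).im = a.im + b.im := rfl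
@[simp] theorem neg_re (a : F9) : (-a).re = -a.re := rfl
@[simp] theorem neg_im (a : F9) : (-a).im = -a.im := rfl
@[simp] theorem sub_re (a b : F9) : (a - b).re = a.re - b.re := rfl
@[simp] theorem sub_im (a b : F9) : (a - b).im = a.im - b.im := rfl
@[simp] theorem mul_re (a b : F9) : (a * b).re = a.re * b.re - a.im * b.im := rfl
@[simp] theorem mul_im (a b : F9) : (a * b).im = a.re * b.im + a.im * b.re := rfl

instance : CommRing F9 where
  add_assoc a b c := by ext <;> simp [add_assoc]
  zero_add a := by ext <;> simp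
  add_zero a := by ext <;> simp
  add_comm a b := by ext <;> simp [add_comm]
  left_distrib a b c := by ext <;> simp <;> ring
  right_distrib a b c := by ext <;> simp <;> ring
  zero_mul a := by ext <;> simp
  mul_zero a := by ext <;> simp
  mul_assoc a b c := by ext <;> simp <;> ring
  one_mul a := by ext <;> simp
  mul_one a := by ext <;> simp
  neg_add_cancel a := by ext <;> simp
  sub_eq_add_neg a b := by ext <;> simp [sub_eq_add_neg]
  mul_comm a b := by ext <;> simp <;> ring
  nsmul := nsmulRec
  zsmul := zsmulRec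

/-- conjugation -/
def conj (a : F9) : F9 := ⟨a.re, -a.im⟩

@[simp] theorem conj_re (a : F9) : (conj a).re = a.re := rfl
@[simp] theorem conj_im (a : F9) : (conj a).im = -a.im := rfl

/-- the norm -/
def N (a : F9) : ZMod 3 := a.re ^ 2 + a.im ^ 2

/-- the quadratic character -/
def eta (a : F9) : ℤ := if a.N = 1 then 1 else if a.N = 2 then -1 else 0

/-- the generator -/
def i : F9 := ⟨0, 1⟩

theorem three : (3 : F9) = 0 := by decide

theorem N_mul (a b : F9) : (a * b).N = a.N * b.N := by revert a b; decide

theorem N_eq_zero {a : F9} : a.N = 0 ↔ a = 0 := by revert a; decide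

theorem eta_mul (a b : F9) : (a * b).eta = a.eta * b.eta := by revert a b; decide

theorem conj_mul (a b : F9) : (a * b).conj = a.conj * b.conj := by revert a b; decide

theorem conj_add (a b : F9) : (a + b).conj = a.conj + b.conj := by revert a b; decide

theorem conj_conj (a : F9) : a.conj.conj = a := by revert a; decide

theorem mul_conj (a : F9) : a * a.conj = ⟨a.N, 0⟩ := by revert a; decide

end F9

end Vale.Agent.P014
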