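import Vale.Agent.P014.H581.Cnt

/-!
# The final count
-/

namespace Vale.Agent.P014.H581

open NumberField Vale.Agent.P017.H185 Vale.Agent.P017.H185.QF
open scoped Classical

variable {K : Type*} [Field K] [NumberField K] {n : ℕ} {q : QF K n}

theorem Gl_iff (hn : n % 4 = 3) {l : ℕ} (hl : n ∣ 17 * l + 1) (x y : 𝓞 K) :
    Gl q hn ∅ l x y ↔ q.t ∣ x + 17 * y := by
  rw [t_dvd_iff q hn]
  unfold Gl
  refine forall_congr' fun p => forall_congr' fun hp => forall_congr' fun _ => ?_
  have h17 : (17 : ZMod p) * l = -1 := by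
    have h1 : (((17 * l + 1 : ℕ)) : ZMod p) = 0 := (ZMod.natCast_eq_zero_iff _ _).mpr (hp.trans hl)
    push_cast at h1
    linear_combination h1
  rw [if_neg (Finset.notMem_empty p), one_mul, map_add, map_mul, map_ofNat]
  constructor
  · intro h
    rw [h]
    linear_combination (res q hn hp x) * h17
  · intro h
    linear_combination (-(l : ZMod p)) * h + (res q hn hp y) * h17

/-- the representations of `m` by the lattice attached to a pair of ideals -/
def RNs (q : QF K n) (X Y : Ideal (𝓞 K)) (a b m : ℕ) : Set (𝓞 K × 𝓞 K) :=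
  {p | p.1 ∈ X ∧ p.2 ∈ Y ∧ q.t ∣ p.1 + 17 * p.2 ∧ b * q.N p.1 + 17 * (a * q.N p.2) = n * a * b * m}

namespace Rep

variable {l : ℕ} (r : Rep q l)

/-- the splitting of the representations according to the second norm -/
theorem card_RN (hn : n % 4 = 3) (h17 : ¬ 17 ∣ n) {m : ℕ} (hm : ¬ 17 ∣ m)
    (A B : ClassGroup (𝓞 K)) :
    Nat.card (RNs q (r.X A B) (r.Y A B) (r.nX A B) (l * r.nX A B) m) =
      ∑ k ∈ (Finset.range (m * n)).filter (fun k => 17 * k < m * n),
        r.W hn ∅ (m * n - 17 * k) k A B := by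
  have ha0 := r.nX_ne A B
  have hl0 := r.hl0
  have h1 : RNs q (r.X A B) (r.Y A B) (r.nX A B) (l * r.nX A B) m =
      (((Finset.range (m * n)).filter (fun k => 17 * k < m * n)).biUnion fun k =>
        Zc q hn ∅ l (r.X A B) (r.Y A B) ((m * n - 17 * k) * r.nX A B) (k * (l * r.nX A B)) :
          Finset (𝓞 K × 𝓞 K)) := by
    ext ⟨x, y⟩
    rw [Finset.coe_biUnion, Set.mem_iUnion₂]
    constructor
    · rintro ⟨h1, h2, h3, h4⟩
      simp only at h1 h2 h3 h4
      obtain ⟨k, hk⟩ := dvd_N_of_mem q (r.hY A B) h2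
      have h5 : q.N x + 17 * k * r.nX A B = m * n * r.nX A B := by
        have h6 : 0 < l * r.nX A B := Nat.pos_of_ne_zero (mul_ne_zero hl0 ha0)
        apply Nat.eq_of_mul_eq_mul_left h6
        rw [hk] at h4
        linarith [h4]
      have h6 : 17 * k ≤ m * n := by
        apply Nat.le_of_mul_le_mul_right _ (Nat.pos_of_ne_zero ha0)
        rw [← h5]
        exact Nat.le_add_left _ _
      have h7 : 17 * k ≠ m * n := by
        intro h
        rcases (Nat.Prime.dvd_mul (by norm_num : Nat.Prime 17)).mp ⟨k, h.symm⟩ with h | h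
        · exact hm h
        · exact h17 h
      have h8 : 17 * k < m * n := lt_of_le_of_ne h6 h7
      refine ⟨k, ?_, ?_⟩
      · rw [Finset.mem_coe, Finset.mem_filter, Finset.mem_range]
        exact ⟨by omega, h8⟩
      · rw [Finset.mem_coe, mem_Zc]
        refine ⟨⟨⟨?_, h1⟩, ?_, h2⟩, (Gl_iff hn r.hl x y).mpr h3⟩
        · show q.N x = _
          rw [Nat.sub_mul]
          omega
        · show q.N y = _
          rw [hk]; ring
    · rintro ⟨k, hk, h⟩
      rw [Finset.mem_coe, Finset.mem_filter, Finset.mem_range] at hk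
      rw [Finset.mem_coe, mem_Zc] at h
      obtain ⟨⟨⟨h1, h2⟩, h3, h4⟩, h5⟩ := h
      refine ⟨h2, h4, (Gl_iff hn r.hl x y).mp h5, ?_⟩
      simp only at h1 h3 ⊢
      rw [h1, h3]
      have h6 : (m * n - 17 * k) + 17 * k = m * n := Nat.sub_add_cancel hk.2.le
      calc l * r.nX A B * ((m * n - 17 * k) * r.nX A B) + 17 * (r.nX A B * (k * (l * r.nX A B)))
          = l * r.nX A B * r.nX A B * ((m * n - 17 * k) + 17 * k) := by ring
        _ = _ := by rw [h6]; ring
  rw [h1]
  rw [Nat.card_coe_set_eq, Set.ncard_coe_finset, Finset.card_biUnion]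
  · rfl
  · intro k _ k' _ hkk
    rw [Function.onFun, Finset.disjoint_left]
    rintro p hp hp'
    rw [mem_Zc] at hp hp'
    apply hkk
    have h2 := hp.1.2.1.symm.trans hp'.1.2.1
    exact Nat.eq_of_mul_eq_mul_right (Nat.pos_of_ne_zero (mul_ne_zero hl0 ha0)) h2

/-- the term `k = 0` -/
theorem W_zero (hn : n % 4 = 3) (hn3 : 3 < n) {m : ℕ} (hm : m ≠ 0) (A B : ClassGroup (𝓞 K)) :
    r.W hn ∅ (m * n - 17 * 0) 0 A B = 2 * rc q (A⁻¹ * B)⁻¹ m := by
  rw [← r.cl_X A B, ← card_el q hn hn3 (r.X_ne A B) (r.hX A B) hm]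
  unfold W
  rw [mul_zero, Nat.sub_zero, zero_mul]
  symm
  refine Finset.card_bij (fun x _ => (q.t * x, 0)) ?_ ?_ ?_
  · intro x hx
    rw [Finset.mem_filter, mem_elem] at hx
    rw [mem_Zc]
    refine ⟨⟨⟨?_, Ideal.mul_mem_left _ _ hx.2⟩, (N_eq_zero q).mpr rfl, Ideal.zero_mem _⟩, ?_⟩
    · show q.N (q.t * x) = _
      rw [N_mul, N_t, hx.1]; ring
    · rw [Gl_iff hn r.hl]
      show q.t ∣ q.t * x + 17 * 0
      rw [mul_zero, add_zero]
      exact dvd_mul_right _ _
  · intro x _ y _ h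
    exact mul_left_cancel₀ q.t_ne_zero (congrArg Prod.fst h)
  · rintro ⟨x, y⟩ hp
    rw [mem_Zc] at hp
    obtain ⟨⟨⟨h1, h2⟩, h3, h4⟩, h5⟩ := hp
    simp only at h1 h2 h3 h4
    have hy : y = 0 := (N_eq_zero q).mp h3
    rw [Gl_iff hn r.hl] at h5
    simp only at h5
    rw [hy, mul_zero, add_zero] at h5
    obtain ⟨x0, rfl⟩ := h5
    refine ⟨x0, ?_, by rw [hy]⟩
    rw [Finset.mem_filter, mem_elem]
    constructor
    · rw [N_mul, N_t] at h1
      apply Nat.eq_of_mul_eq_mul_left (Nat.pos_of_ne_zero (n_ne_zero q))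
      rw [h1]; ring
    · -- `n x0` and `a x0` are in the ideal
      have e1 : (n : 𝓞 K) * x0 ∈ r.X A B := by
        have h6 := Ideal.mul_mem_left _ (-q.t) h2
        convert h6 using 1
        linear_combination x0 * q.t_sq
      have e2 : (r.nX A B : 𝓞 K) * x0 ∈ r.X A B :=
        Ideal.mul_mem_right _ _ (natCast_mem_of_hasN q (r.hX A B))
      obtain ⟨u, v, huv⟩ := Nat.isCoprime_iff_coprime.mpr (r.nX_co A B)
      have huv' : (u : 𝓞 K) * r.nX A B + v * n = 1 := by
        exact_mod_cast congrArg (Int.cast : ℤ → 𝓞 K) huv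
      have e3 := Ideal.add_mem _ (Ideal.mul_mem_left _ (u : 𝓞 K) e2)
        (Ideal.mul_mem_left _ (v : 𝓞 K) e1)
      convert e3 using 1
      linear_combination (-x0) * huv'

/-- **The count.** -/
theorem count (hn : n % 4 = 3) (h17 : ¬ 17 ∣ n) (hn3 : 3 < n) {V V' : ℕ} (hVV : V * V' = n)
    {m : ℕ} (hm : ¬ 17 ∣ m) :
    2 ^ n.primeFactors.card * ∑ A : ClassGroup (𝓞 K), ∑ B : ClassGroup (𝓞 K),
        chi q V A * chi q V B *
          (Nat.card (RNs q (r.X A B) (r.Y A B) (r.nX A B) (l * r.nX A B) m) : ℤ) =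
      2 ^ n.primeFactors.card * (2 * Fintype.card (ClassGroup (𝓞 K)) * R V V' m) +
        2 * SA V V' m := by
  have hm0 : m ≠ 0 := by rintro rfl; exact hm (dvd_zero _)
  have hV : V ∣ n := ⟨V', hVV.symm⟩
  have hmn : 0 < m * n := Nat.mul_pos (Nat.pos_of_ne_zero hm0) (by omega)
  -- the splitting
  have h1 : ∑ A : ClassGroup (𝓞 K), ∑ B : ClassGroup (𝓞 K), chi q V A * chi q V B *
          (Nat.card (RNs q (r.X A B) (r.Y A B) (r.nX A B) (l * r.nX A B) m) : ℤ) =
      ∑ k ∈ (Finset.range (m * n)).filter (fun k => 17 * k < m * n),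
        r.Wt hn V (m * n - 17 * k) k := by
    unfold Wt
    symm
    rw [Finset.sum_comm]
    refine Finset.sum_congr rfl fun A _ => ?_
    rw [Finset.sum_comm]
    refine Finset.sum_congr rfl fun B _ => ?_
    rw [r.card_RN hn h17 hm A B]
    push_cast
    rw [Finset.mul_sum]
  have h2 : (Finset.range (m * n)).filter (fun k => 17 * k < m * n) =
      insert 0 ((Finset.Ico 1 (m * n)).filter (fun k => 17 * k < m * n)) := by
    ext k
    rw [Finset.mem_insert, Finset.mem_filter, Finset.mem_filter, Finset.mem_range, Finset.mem_Ico]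
    omega
  have h3 : (0 : ℕ) ∉ (Finset.Ico 1 (m * n)).filter (fun k => 17 * k < m * n) := by
    rw [Finset.mem_filter, Finset.mem_Ico]
    omega
  rw [h1, h2, Finset.sum_insert h3, mul_add]
  congr 1
  · -- `k = 0`
    congr 1
    unfold Wt
    have e1 : ∀ A B : ClassGroup (𝓞 K), chi q V A * chi q V B *
        (r.W hn ∅ (m * n - 17 * 0) 0 A B : ℤ) =
        2 * (chi q V A * chi q V B * ((rc q (A⁻¹ * B)⁻¹ m : ℤ) * 1)) := by
      intro A B
      rw [r.W_zero hn hn3 hm0]
      push_cast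
      ring
    simp only [e1, ← Finset.mul_sum]
    rw [reindex (q := q) hn hV (fun C => (rc q C m : ℤ)) (fun _ => 1) 1]
    rw [← nu_eq q hn hVV hm0, nu_eq_sum]
    simp only [Finset.sum_const, Finset.card_univ, nsmul_eq_mul, mul_one]
    rw [← Finset.sum_mul]
    ring
  · unfold SA
    rw [hVV, Finset.mul_sum, Finset.mul_sum]
    refine Finset.sum_congr rfl fun k hk => ?_
    rw [Finset.mem_filter, Finset.mem_Ico] at hk
    exact r.Wt_SU hn h17 hn3 hVV (by omega) (by omega) (m := m) (by omega)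

end Rep

end Vale.Agent.P014.H581
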