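import Vale.Agent.P014.H581.Res

/-!
# Ideals of `ℚ(√-n)`, `n ≡ 3 mod 4`: classes, norms, splitting of the rational primes
-/

namespace Vale.Agent.P014.H581

open NumberField Vale.Agent.P017.H185 Vale.Agent.P017.H185.QF
open scoped Classical

variable {K : Type*} [Field K] [NumberField K] {n : ℕ} (q : QF K n)

/-- the class of an ideal -/
noncomputable def cl (I : Ideal (𝓞 K)) : ClassGroup (𝓞 K) :=
  if h : I ≠ ⊥ then ClassGroup.mk0 ⟨I, mem_nonZeroDivisors_of_ne_zero h⟩ else 1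

theorem cl_of_ne {I : Ideal (𝓞 K)} (h : I ≠ ⊥) :
    cl I = ClassGroup.mk0 ⟨I, mem_nonZeroDivisors_of_ne_zero h⟩ := dif_pos h

omit [NumberField K] in
theorem mul_ne_bot {I J : Ideal (𝓞 K)} (hI : I ≠ ⊥) (hJ : J ≠ ⊥) : I * J ≠ ⊥ := by
  intro h
  rcases Ideal.mul_eq_bot.mp h with h | h
  · exact hI h
  · exact hJ h

theorem cl_mul {I J : Ideal (𝓞 K)} (hI : I ≠ ⊥) (hJ : J ≠ ⊥) : cl (I * J) = cl I * cl J := by
  rw [cl_of_ne hI, cl_of_ne hJ, cl_of_ne (mul_ne_bot hI hJ), ← map_mul]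
  rfl

theorem cl_eq_iff {I J : Ideal (𝓞 K)} (hI : I ≠ ⊥) (hJ : J ≠ ⊥) :
    cl I = cl J ↔ ∃ x y : 𝓞 K, x ≠ 0 ∧ y ≠ 0 ∧ Ideal.span {x} * I = Ideal.span {y} * J := by
  rw [cl_of_ne hI, cl_of_ne hJ, ClassGroup.mk0_eq_mk0_iff]
  constructor
  · rintro ⟨x, y, hx, hy, h⟩
    exact ⟨x, y, hx, hy, h⟩
  · rintro ⟨x, y, hx, hy, h⟩
    exact ⟨x, y, hx, hy, h⟩

theorem cl_eq_one_iff {I : Ideal (𝓞 K)} (hI : I ≠ ⊥) : cl I = 1 ↔ ∃ x : 𝓞 K, x ≠ 0 ∧ I = Ideal.span {x} := by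
  rw [cl_of_ne hI, ClassGroup.mk0_eq_one_iff]
  constructor
  · intro h
    obtain ⟨x, hx⟩ := h.principal
    have hx' : I = Ideal.span {x} := hx
    refine ⟨x, ?_, hx'⟩
    rintro rfl
    apply hI
    rw [hx']; simp
  · rintro ⟨x, -, hx⟩
    exact ⟨⟨x, hx⟩⟩

theorem cl_span {x : 𝓞 K} (hx : x ≠ 0) : cl (Ideal.span {x}) = 1 :=
  (cl_eq_one_iff (span_ne_bot hx)).mpr ⟨x, hx, rfl⟩

theorem exists_cl (C : ClassGroup (𝓞 K)) : ∃ I : Ideal (𝓞 K), I ≠ ⊥ ∧ cl I = C := by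
  obtain ⟨⟨I, hI⟩, rfl⟩ := ClassGroup.mk0_surjective C
  have hI0 : I ≠ ⊥ := nonZeroDivisors.ne_zero hI
  exact ⟨I, hI0, cl_of_ne hI0⟩

theorem map_ne_bot {I : Ideal (𝓞 K)} (hI : I ≠ ⊥) : I.map q.s ≠ ⊥ := by
  rw [Ne, Ideal.map_eq_bot_iff_of_injective q.s.injective]; exact hI

theorem map_map (I : Ideal (𝓞 K)) : (I.map q.s).map q.s = I := by
  apply le_antisymm
  · rw [Ideal.map_le_iff_le_comap, Ideal.map_le_iff_le_comap]
    intro x hx
    show q.s (q.s x) ∈ I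
    rwa [q.s_s]
  · intro x hx
    have h := Ideal.mem_map_of_mem q.s (Ideal.mem_map_of_mem q.s hx)
    rwa [q.s_s] at h

theorem mem_map_iff {I : Ideal (𝓞 K)} {x : 𝓞 K} : x ∈ I.map q.s ↔ q.s x ∈ I := by
  constructor
  · intro h
    have := Ideal.mem_map_of_mem q.s h
    rwa [map_map] at this
  · intro h
    have := Ideal.mem_map_of_mem q.s h
    rwa [q.s_s] at this

/-! ### Norms -/

theorem ne_bot_of_hasN {I : Ideal (𝓞 K)} {m : ℕ} (hm : m ≠ 0) (h : q.HasN I m) : I ≠ ⊥ :=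
  ne_zero_of_hasN hm h

theorem hasN_ne_zero {I : Ideal (𝓞 K)} (hI : I ≠ ⊥) {m : ℕ} (h : q.HasN I m) : m ≠ 0 := by
  rintro rfl
  unfold HasN at h
  rw [Nat.cast_zero, Ideal.span_singleton_eq_bot.mpr rfl] at h
  exact mul_ne_bot hI (map_ne_bot q hI) h

theorem hasN_map {I : Ideal (𝓞 K)} {m : ℕ} (h : q.HasN I m) : q.HasN (I.map q.s) m := by
  unfold HasN at *
  rw [map_map, mul_comm, h]

theorem cl_map {I : Ideal (𝓞 K)} (hI : I ≠ ⊥) : cl (I.map q.s) = (cl I)⁻¹ := by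
  obtain ⟨m, hm, h⟩ := q.exists_hasN hI
  rw [eq_inv_iff_mul_eq_one, mul_comm, ← cl_mul hI (map_ne_bot q hI)]
  have h' : I * I.map q.s = Ideal.span {(m : 𝓞 K)} := h
  rw [h']
  exact cl_span (by exact_mod_cast hm)

theorem hasN_top : q.HasN ⊤ 1 := by
  unfold HasN
  rw [Ideal.map_top]
  simp

theorem eq_top_of_hasN_one {I : Ideal (𝓞 K)} (h : q.HasN I 1) : I = ⊤ := by
  unfold HasN at h
  rw [Nat.cast_one, Ideal.span_singleton_one] at h
  exact top_le_iff.mp (h ▸ Ideal.mul_le_left)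

theorem dvd_N_of_mem {I : Ideal (𝓞 K)} {m : ℕ} (h : q.HasN I m) {x : 𝓞 K} (hx : x ∈ I) :
    m ∣ q.N x := by
  have h1 : x * q.s x ∈ I * I.map q.s := Ideal.mul_mem_mul hx (Ideal.mem_map_of_mem q.s hx)
  have h' : I * I.map q.s = Ideal.span {(m : 𝓞 K)} := h
  rw [h', Ideal.mem_span_singleton, q.mul_s] at h1
  exact natCast_dvd h1

theorem natCast_mem_of_hasN {I : Ideal (𝓞 K)} {m : ℕ} (h : q.HasN I m) : (m : 𝓞 K) ∈ I := by
  have h' : I * I.map q.s = Ideal.span {(m : 𝓞 K)} := h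
  have : (m : 𝓞 K) ∈ I * I.map q.s := by rw [h']; exact Ideal.mem_span_singleton_self _
  exact Ideal.mul_le_left this

theorem hasN_quot {I P J : Ideal (𝓞 K)} {m p : ℕ} (hI : I ≠ ⊥) (h : I = P * J) (hm : q.HasN I m)
    (hp : q.HasN P p) : ∃ m', q.HasN J m' ∧ m = p * m' := by
  have hJ : J ≠ ⊥ := by
    rintro rfl
    apply hI
    rw [h, Ideal.mul_bot]
  obtain ⟨m', -, hm'⟩ := q.exists_hasN hJ
  refine ⟨m', hm', ?_⟩
  rw [h] at hm
  exact q.hasN_unique hm (hp.mul hm')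

/-- **every class contains an ideal of norm prime to `M`** -/
theorem exists_coprime (C : ClassGroup (𝓞 K)) {M : ℕ} (hM : M ≠ 0) :
    ∃ (I : Ideal (𝓞 K)) (m : ℕ), I ≠ ⊥ ∧ cl I = C ∧ q.HasN I m ∧ Nat.Coprime m M := by
  obtain ⟨I0, hI0, hC⟩ := exists_cl C⁻¹
  have hM0 : (M : 𝓞 K) ≠ 0 := by exact_mod_cast hM
  obtain ⟨x, hxI, hx⟩ := Submodule.exists_mem_ne_zero_of_ne_bot (mul_ne_bot hI0 (span_ne_bot hM0))
  have hxI0 : x ∈ I0 := Ideal.mul_le_left hxI
  obtain ⟨y0, hy0⟩ := IsDedekindDomain.exists_eq_span_pair hxI0 hx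
  obtain ⟨y, hy, hyI⟩ : ∃ y : 𝓞 K, y ≠ 0 ∧ I0 = Ideal.span {x, y} := by
    by_cases h0 : y0 = 0
    · refine ⟨x, hx, ?_⟩
      rw [hy0, h0]
      simp
    · exact ⟨y0, h0, hy0⟩
  have hyI0 : y ∈ I0 := by rw [hyI]; exact Ideal.subset_span (by simp)
  obtain ⟨J, hJ⟩ := Ideal.dvd_iff_le.mpr ((Ideal.span_singleton_le_iff_mem I0).mpr hyI0)
  have hJ0 : J ≠ ⊥ := by
    rintro rfl
    rw [Ideal.mul_bot] at hJ
    exact span_ne_bot hy hJ
  obtain ⟨m, hm, hJm⟩ := q.exists_hasN hJ0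
  refine ⟨J, m, hJ0, ?_, hJm, ?_⟩
  · have h1 := cl_mul hI0 hJ0
    rw [← hJ, cl_span hy, hC] at h1
    exact (inv_mul_eq_one.mp h1.symm).symm
  · have h1 : I0 * ⊤ = I0 * (Ideal.span {(M : 𝓞 K)} ⊔ J) := by
      apply le_antisymm
      · rw [Ideal.mul_top, Ideal.mul_sup, ← hJ]
        conv_lhs => rw [hyI]
        rw [Ideal.span_le]
        intro z hz
        rcases hz with rfl | rfl
        · exact Ideal.mem_sup_left hxI
        · exact Ideal.mem_sup_right (Ideal.mem_span_singleton_self _)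
      · exact Ideal.mul_mono_right le_top
    have h2 := mul_left_cancel₀ hI0 h1
    have h3 : (1 : 𝓞 K) ∈ Ideal.span {(M : 𝓞 K)} ⊔ J := by rw [← h2]; trivial
    obtain ⟨a, ha, j, hj, haj⟩ := Submodule.mem_sup.mp h3
    obtain ⟨b, rfl⟩ := Ideal.mem_span_singleton.mp ha
    have h4 := dvd_N_of_mem q hJm hj
    have h5 : (q.N j : ℤ) = 1 - M * tr q b + M ^ 2 * q.N b := by
      apply intCast_inj' (K := K)
      push_cast
      rw [← q.mul_s, ← q.mul_s, ← add_s]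
      have h6 : j = 1 - M * b := by linear_combination haj
      rw [h6, map_sub, map_one, map_mul, map_natCast]
      ring
    rw [← Nat.isCoprime_iff_coprime]
    obtain ⟨c, hc⟩ := h4
    refine ⟨c, tr q b - M * q.N b, ?_⟩
    have : (q.N j : ℤ) = m * c := by exact_mod_cast hc
    rw [this] at h5
    linear_combination h5

theorem finite_hasN (m : ℕ) : {I : Ideal (𝓞 K) | q.HasN I m}.Finite := by
  by_cases hm : m = 0
  · subst hm
    refine Set.Finite.subset (Set.finite_singleton ⊥) ?_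
    intro I hI
    by_contra h
    exact hasN_ne_zero q h hI rfl
  · refine Set.Finite.subset (Ideal.finite_setOfPred_absNorm_le (S := 𝓞 K)
      (Ideal.absNorm (Ideal.span {(m : 𝓞 K)}))) ?_
    intro I hI
    have hI' : I * I.map q.s = Ideal.span {(m : 𝓞 K)} := hI
    have h0 : Ideal.absNorm (Ideal.span {(m : 𝓞 K)}) ≠ 0 := by
      rw [Ne, Ideal.absNorm_eq_zero_iff]
      exact span_ne_bot (by exact_mod_cast hm)
    show Ideal.absNorm I ≤ _
    apply Nat.le_of_dvd (Nat.pos_of_ne_zero h0)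
    rw [← hI', map_mul]
    exact dvd_mul_right _ _

/-- the ideals of norm `m` -/
noncomputable def idl (m : ℕ) : Finset (Ideal (𝓞 K)) := (finite_hasN q m).toFinset

theorem mem_idl {m : ℕ} {I : Ideal (𝓞 K)} : I ∈ idl q m ↔ q.HasN I m := by
  unfold idl
  rw [Set.Finite.mem_toFinset]
  rfl

/-! ### Quadratic reciprocity -/

theorem recip {n : ℕ} (hn : n % 4 = 3) {p : ℕ} (hp2 : Odd p) :
    jacobiSym p n = jacobiSym (-n) p := by
  have hnodd : Odd n := Nat.odd_iff.mpr (by omega)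
  rw [jacobiSym.quadratic_reciprocity hp2 hnodd, jacobiSym.neg _ hp2]
  have h1 : (-1 : ℤ) ^ (p / 2 * (n / 2)) = ZMod.χ₄ p := by
    rw [ZMod.χ₄_eq_neg_one_pow (Nat.odd_iff.mp hp2), pow_mul]
    have : Odd (n / 2) := by rw [Nat.odd_iff]; omega
    rcases neg_one_pow_eq_or ℤ (p / 2) with h | h
    · rw [h, one_pow]
    · rw [h, this.neg_one_pow]
  rw [h1]

theorem dvd_of_dvd_N (hn : n % 4 = 3) {p : ℕ} (hp : p.Prime) (hj : jacobiSym p n = -1) {z : 𝓞 K}
    (h : p ∣ q.N z) : (p : 𝓞 K) ∣ z := by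
  obtain ⟨v, hv, hv4⟩ := exists_coords q z
  have hpn : ¬ p ∣ n := by
    intro hpn
    have : jacobiSym p n = 0 := by
      rw [jacobiSym.eq_zero_iff]
      refine ⟨by omega, ?_⟩
      rw [Int.gcd_natCast_natCast, Nat.gcd_eq_left hpn]
      exact hp.one_lt.ne'
    rw [this] at hj
    norm_num at hj
  have hpp : Prime (p : ℤ) := Nat.prime_iff_prime_int.mp hp
  have key : ∃ a b : ℤ, tr q z = p * a ∧ v = p * b ∧ (4 : ℤ) ∣ a ^ 2 + n * b ^ 2 := by
    by_cases hp2 : p = 2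
    · subst hp2
      have hn8 : n % 8 = 3 := by
        have h1 := jacobiSym.at_two (Nat.odd_iff.mpr (by omega : n % 2 = 1))
        rw [show ((2 : ℕ) : ℤ) = 2 from rfl, h1, ZMod.χ₈_nat_eq_if_mod_eight] at hj
        by_contra h8
        have : n % 8 = 7 := by omega
        rw [if_neg (by omega), if_pos (Or.inr this)] at hj
        norm_num at hj
      obtain ⟨c, hc⟩ := h
      obtain ⟨e, he⟩ : ∃ e : ℤ, (n : ℤ) = 8 * e + 3 := ⟨n / 8, by omega⟩
      rw [hc, he] at hv4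
      push_cast at hv4
      generalize tr q z = a at hv4 ⊢
      rcases Int.even_or_odd' a with ⟨x, hx | hx⟩ <;> rcases Int.even_or_odd' v with ⟨y, hy | hy⟩
      · refine ⟨x, y, by rw [hx]; rfl, by rw [hy]; rfl, ?_⟩
        rw [hx, hy] at hv4
        have h8 : x ^ 2 + (8 * e + 3) * y ^ 2 = 2 * c := by nlinarith
        rw [he]
        rcases Int.even_or_odd' x with ⟨x', hx' | hx'⟩ <;>
          rcases Int.even_or_odd' y with ⟨y', hy' | hy'⟩
        · rw [hx', hy']; exact ⟨x' ^ 2 + (8 * e + 3) * y' ^ 2, by ring⟩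
        · exfalso; rw [hx', hy'] at h8; ring_nf at h8; omega
        · exfalso; rw [hx', hy'] at h8; ring_nf at h8; omega
        · rw [hx', hy']
          exact ⟨x' ^ 2 + x' + (8 * e + 3) * (y' ^ 2 + y') + 2 * e + 1, by ring⟩
      · exfalso; rw [hx, hy] at hv4; ring_nf at hv4; omega
      · exfalso; rw [hx, hy] at hv4; ring_nf at hv4; omega
      · exfalso
        obtain ⟨f, hf⟩ : (2 : ℤ) ∣ x ^ 2 + x := by
          rcases Int.even_or_odd' x with ⟨x', hx' | hx'⟩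
          · rw [hx']; exact ⟨2 * x' ^ 2 + x', by ring⟩
          · rw [hx']; exact ⟨2 * x' ^ 2 + 3 * x' + 1, by ring⟩
        obtain ⟨g, hg⟩ : (2 : ℤ) ∣ y ^ 2 + y := by
          rcases Int.even_or_odd' y with ⟨x', hx' | hx'⟩
          · rw [hx']; exact ⟨2 * x' ^ 2 + x', by ring⟩
          · rw [hx']; exact ⟨2 * x' ^ 2 + 3 * x' + 1, by ring⟩
        have e1 : a ^ 2 = 8 * f + 1 := by rw [hx]; linear_combination 4 * hf
        have e2 : v ^ 2 = 8 * g + 1 := by rw [hy]; linear_combination 4 * hg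
        rw [e1, e2] at hv4
        ring_nf at hv4
        omega
    · have hodd : Odd p := hp.odd_of_ne_two hp2
      have hpN : (p : ℤ) ∣ tr q z ^ 2 + n * v ^ 2 := by
        rw [← hv4]
        exact Dvd.dvd.mul_left (by exact_mod_cast h) 4
      have hpv : (p : ℤ) ∣ v := by
        by_contra hpv
        have : Fact p.Prime := ⟨hp⟩
        have h1 : jacobiSym (-n) p = 1 := by
          have h3 : ((-(n : ℤ) * v ^ 2 : ℤ) : ZMod p) = ((tr q z ^ 2 : ℤ) : ZMod p) := by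
            rw [ZMod.intCast_eq_intCast_iff_dvd_sub]
            obtain ⟨c, hc⟩ := hpN
            exact ⟨c, by linear_combination hc⟩
          have h4 : (v : ZMod p) ≠ 0 := by
            rw [Ne, ZMod.intCast_zmod_eq_zero_iff_dvd]; exact hpv
          have h5 : (((-(n : ℤ)) : ℤ) : ZMod p) ≠ 0 := by
            rw [Ne, ZMod.intCast_zmod_eq_zero_iff_dvd, dvd_neg]
            exact fun h => hpn (by exact_mod_cast h)
          rw [← jacobiSym.legendreSym.to_jacobiSym, legendreSym.eq_one_iff p h5]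
          refine ⟨(tr q z : ZMod p) * (v : ZMod p)⁻¹, ?_⟩
          push_cast at h3 ⊢
          field_simp
          linear_combination h3
        rw [← recip hn hodd, hj] at h1
        norm_num at h1
      have hpa : (p : ℤ) ∣ tr q z := by
        apply hpp.dvd_of_dvd_pow (n := 2)
        have : tr q z ^ 2 = (tr q z ^ 2 + n * v ^ 2) - n * v ^ 2 := by ring
        rw [this]
        exact dvd_sub hpN (Dvd.dvd.mul_left (Dvd.dvd.pow hpv two_ne_zero) _)
      obtain ⟨a, ha⟩ := hpa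
      obtain ⟨b, hb⟩ := hpv
      refine ⟨a, b, ha, hb, ?_⟩
      have h5 : (4 : ℤ) ∣ (p : ℤ) ^ 2 * (a ^ 2 + n * b ^ 2) := ⟨q.N z, by
        rw [ha, hb] at hv4; rw [hv4]; ring⟩
      have hcop : IsCoprime (4 : ℤ) ((p : ℤ) ^ 2) := by
        have : Nat.Coprime 4 (p ^ 2) := by
          have : Nat.Coprime (2 ^ 2) (p ^ 2) := Nat.Coprime.pow _ _
            ((Nat.coprime_primes Nat.prime_two hp).mpr (Ne.symm hp2))
          simpa using this
        have := Nat.isCoprime_iff_coprime.mpr this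
        exact_mod_cast this
      exact hcop.dvd_of_dvd_mul_left h5
  obtain ⟨a, b, ha, hb, h4⟩ := key
  obtain ⟨y, hy, hy2⟩ := q.of_coords h4
  obtain ⟨z', hz'⟩ := exists_of_isInt hy
  refine ⟨z', ?_⟩
  apply ext'
  rw [map_mul, map_natCast, hz']
  have h6 := congrArg (algebraMap (𝓞 K) K) hv
  rw [map_mul, map_add, map_mul, map_intCast, map_intCast, coe_t, map_ofNat, ha, hb] at h6
  push_cast at h6
  have : (2 : K) * algebraMap (𝓞 K) K z = 2 * (p * y) := by
    rw [h6]; linear_combination (-(p : K)) * hy2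
  exact mul_left_cancel₀ two_ne_zero this

/-- inert primes -/
theorem inert_le (hn : n % 4 = 3) {p : ℕ} (hp : p.Prime) (hj : jacobiSym p n = -1)
    {I : Ideal (𝓞 K)} {m : ℕ} (hI : q.HasN I m) (hpm : p ∣ m) : I ≤ Ideal.span {(p : 𝓞 K)} := by
  have hprime : (Ideal.span {(p : 𝓞 K)}).IsPrime := by
    rw [Ideal.span_singleton_prime (by exact_mod_cast hp.ne_zero)]
    refine ⟨by exact_mod_cast hp.ne_zero, ?_, ?_⟩
    · intro hu
      have h1 : (p : 𝓞 K) ∣ ((1 : ℕ) : 𝓞 K) := by rw [Nat.cast_one]; exact hu.dvd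
      exact hp.one_lt.ne' (Nat.dvd_one.mp (natCast_dvd h1))
    · intro a b hab
      have h1 : p ^ 2 ∣ q.N a * q.N b := by
        obtain ⟨c, hc⟩ := hab
        rw [← N_mul, hc, N_mul, N_nat]
        exact dvd_mul_right _ _
      have h2 : p ∣ q.N a * q.N b := dvd_trans (dvd_pow_self p two_ne_zero) h1
      rcases (Nat.Prime.dvd_mul hp).mp h2 with h | h
      · exact Or.inl (dvd_of_dvd_N q hn hp hj h)
      · exact Or.inr (dvd_of_dvd_N q hn hp hj h)
  have h1 : I * I.map q.s ≤ Ideal.span {(p : 𝓞 K)} := by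
    have h' : I * I.map q.s = Ideal.span {(m : 𝓞 K)} := hI
    rw [h', Ideal.span_singleton_le_span_singleton]
    exact_mod_cast Nat.cast_dvd_cast hpm
  rcases hprime.mul_le.mp h1 with h | h
  · exact h
  · intro x hx
    have h2 := h (Ideal.mem_map_of_mem q.s hx)
    rw [Ideal.mem_span_singleton] at h2 ⊢
    obtain ⟨c, hc⟩ := h2
    refine ⟨q.s c, ?_⟩
    have h3 := congrArg q.s hc
    rwa [q.s_s, map_mul, map_natCast] at h3

/-- `(1 + √-n)/2` -/
theorem exists_omega (hn : n % 4 = 3) : ∃ w : 𝓞 K, 2 * w = 1 + q.t := by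
  have h4 : (4 : ℤ) ∣ 1 ^ 2 + n * 1 ^ 2 := by
    obtain ⟨e, he⟩ : ∃ e : ℤ, (n : ℤ) = 4 * e + 3 := ⟨n / 4, by omega⟩
    rw [he]; exact ⟨e + 1, by ring⟩
  obtain ⟨y, hy, hy2⟩ := q.of_coords h4
  obtain ⟨z', hz'⟩ := exists_of_isInt hy
  refine ⟨z', ?_⟩
  apply ext'
  rw [map_mul, map_add, map_one, coe_t, map_ofNat, hz', hy2]
  simp

/-- the other primes -/
theorem exists_prime_ideal (hn : n % 4 = 3) {p : ℕ} (hp : p.Prime) (hj : jacobiSym p n ≠ -1) :
    ∃ P : Ideal (𝓞 K), q.HasN P p := by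
  by_cases hpn : p ∣ n
  · refine ⟨Ideal.span {(p : 𝓞 K), q.t}, ?_⟩
    unfold HasN
    rw [q.amb_ideal_map, q.amb_ideal hpn]
  have hj1 : jacobiSym p n = 1 := by
    rcases jacobiSym.trichotomy (p : ℤ) n with h | h | h
    · exfalso
      rw [jacobiSym.eq_zero_iff] at h
      apply h.2
      rw [Int.gcd_natCast_natCast]
      exact (Nat.Prime.coprime_iff_not_dvd hp).mpr hpn
    · exact h
    · exact absurd h hj
  by_cases hp2 : p = 2
  · subst hp2
    have hn8 : n % 8 = 7 := by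
      have h1 := jacobiSym.at_two (Nat.odd_iff.mpr (by omega : n % 2 = 1))
      rw [show ((2 : ℕ) : ℤ) = 2 from rfl, h1, ZMod.χ₈_nat_eq_if_mod_eight] at hj1
      by_contra h8
      rw [if_neg (by omega), if_neg (by omega)] at hj1
      norm_num at hj1
    obtain ⟨w, hw⟩ := exists_omega q hn
    have hw' := congrArg q.s hw
    rw [map_mul, map_add, map_one, map_ofNat, q.s_t] at hw'
    obtain ⟨e, he⟩ : ∃ e : ℕ, n = 8 * e + 7 := ⟨n / 8, by omega⟩
    have hne : (n : 𝓞 K) = 8 * e + 7 := by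
      conv_lhs => rw [he]
      push_cast; ring
    have hww : w * q.s w = 2 * (e + 1) := by
      have h1 : (4 : 𝓞 K) * (w * q.s w) = 4 * (2 * (e + 1)) := by
        linear_combination (2 * q.s w) * hw + (1 + q.t) * hw' - q.t_sq + hne
      exact mul_left_cancel₀ (by norm_num) h1
    have hws : w + q.s w = 1 := by
      have h1 : (2 : 𝓞 K) * (w + q.s w) = 2 * 1 := by linear_combination hw + hw'
      exact mul_left_cancel₀ two_ne_zero h1
    refine ⟨Ideal.span {(2 : 𝓞 K), w}, ?_⟩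
    unfold HasN
    rw [Ideal.map_span, Set.image_pair, map_ofNat, Ideal.span_pair_mul_span_pair]
    apply le_antisymm
    · rw [Ideal.span_le]
      intro z hz
      rw [SetLike.mem_coe, Ideal.mem_span_singleton, Nat.cast_ofNat]
      rcases hz with rfl | rfl | rfl | rfl
      · exact dvd_mul_right _ _
      · exact dvd_mul_right _ _
      · exact dvd_mul_left _ _
      · exact ⟨_, hww⟩
    · rw [Ideal.span_singleton_le_iff_mem, Nat.cast_ofNat]
      have h1 : (2 : 𝓞 K) * q.s w ∈ Ideal.span {(2 : 𝓞 K) * 2, 2 * q.s w, w * 2, w * q.s w} :=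
        Ideal.subset_span (by simp)
      have h2 : w * 2 ∈ Ideal.span {(2 : 𝓞 K) * 2, 2 * q.s w, w * 2, w * q.s w} :=
        Ideal.subset_span (by simp)
      have h3 := Ideal.add_mem _ h1 h2
      convert h3 using 1
      linear_combination (-2 : 𝓞 K) * hws
  · have hodd : Odd p := hp.odd_of_ne_two hp2
    have : Fact p.Prime := ⟨hp⟩
    rw [recip hn hodd] at hj1
    have h5 : (((-(n : ℤ)) : ℤ) : ZMod p) ≠ 0 := by
      rw [Ne, ZMod.intCast_zmod_eq_zero_iff_dvd, dvd_neg]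
      exact fun h => hpn (by exact_mod_cast h)
    rw [← jacobiSym.legendreSym.to_jacobiSym, legendreSym.eq_one_iff p h5] at hj1
    obtain ⟨c, hc⟩ := hj1
    obtain ⟨c', rfl⟩ := ZMod.intCast_surjective c
    have hdiv : (p : ℤ) ∣ c' ^ 2 + n := by
      rw [← ZMod.intCast_zmod_eq_zero_iff_dvd]
      push_cast at hc ⊢
      linear_combination -hc
    refine ⟨_, q.hasN_split hdiv ?_⟩
    have hpp : Prime (p : ℤ) := Nat.prime_iff_prime_int.mp hp
    rw [isCoprime_comm, hpp.irreducible.coprime_iff_not_dvd]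
    intro h
    rcases hpp.dvd_or_dvd h with h | h
    · have : p ∣ 2 := by exact_mod_cast h
      exact hp2 ((Nat.prime_dvd_prime_iff_eq hp Nat.prime_two).mp this)
    · apply hpn
      have h6 : (p : ℤ) ∣ n := by
        have : (n : ℤ) = (c' ^ 2 + n) - c' ^ 2 := by ring
        rw [this]
        exact dvd_sub hdiv (Dvd.dvd.pow h two_ne_zero)
      exact_mod_cast h6

end Vale.Agent.P014.H581
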