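import Vale.Agent.P014.H581.Sd

/-!
# The number of ideals of given absolute norm
-/

namespace Vale.Agent.P014.H581

open NumberField Vale.Agent.P017.H185 Vale.Agent.P017.H185.QF
open scoped Classical

variable {K : Type*} [Field K] [NumberField K] {n : ℕ} (q : QF K n)

theorem absNorm_map (I : Ideal (𝓞 K)) : Ideal.absNorm (I.map q.s) = Ideal.absNorm I := by
  rw [Ideal.absNorm_apply, Ideal.absNorm_apply, Submodule.cardQuot_apply, Submodule.cardQuot_apply]
  exact Nat.card_congr (Ideal.quotientEquiv I (I.map q.s) q.s rfl).symm.toEquiv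

theorem absNorm_of_hasN {I : Ideal (𝓞 K)} {m : ℕ} (h : q.HasN I m) : Ideal.absNorm I = m := by
  have h' : I * I.map q.s = Ideal.span {(m : 𝓞 K)} := h
  have h1 := congrArg Ideal.absNorm h'
  rw [map_mul, absNorm_map] at h1
  have h2 : (Ideal.span {(m : 𝓞 K)}).map q.s = Ideal.span {(m : 𝓞 K)} := by
    rw [Ideal.map_span, Set.image_singleton, map_natCast]
  have h3 : Module.finrank ℤ (𝓞 K) = 2 := by
    rw [RingOfIntegers.rank]
    have : Module.finrank ℚ K = 2 := by
      have hli : LinearIndependent ℚ ![(1 : K), q.θ] := by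
        rw [LinearIndependent.pair_iff]
        intro u v huv
        have : (u : K) + v * q.θ = 0 := by
          rw [← huv]
          simp [Algebra.smul_def]
        exact q.uniq this
      have hsp : ⊤ ≤ Submodule.span ℚ (Set.range ![(1 : K), q.θ]) := by
        intro z _
        obtain ⟨u, v, huv⟩ := q.hspan z
        rw [huv, Matrix.range_cons, Matrix.range_cons, Matrix.range_empty]
        rw [Set.union_empty, Set.singleton_union, Submodule.mem_span_pair]
        exact ⟨u, v, by simp [Algebra.smul_def]⟩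
      have := Module.finrank_eq_card_basis (Module.Basis.mk hli hsp)
      simpa using this
    exact this
  have h4 : Ideal.absNorm (Ideal.span {(m : 𝓞 K)}) = m ^ 2 := by
    rw [Ideal.absNorm_span_singleton]
    have : (m : 𝓞 K) = algebraMap ℤ (𝓞 K) (m : ℤ) := by simp
    rw [this, Algebra.norm_algebraMap, h3, Int.natAbs_pow, Int.natAbs_natCast]
  rw [h4, ← sq] at h1
  exact Nat.pow_left_injective two_ne_zero h1

theorem hasN_iff_absNorm {I : Ideal (𝓞 K)} {m : ℕ} (hm : m ≠ 0) :
    q.HasN I m ↔ Ideal.absNorm I = m := by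
  constructor
  · exact absNorm_of_hasN q
  · intro h
    have hI : I ≠ ⊥ := by
      rintro rfl
      rw [Ideal.absNorm_bot] at h
      exact hm h.symm
    obtain ⟨m', -, h'⟩ := q.exists_hasN hI
    have := absNorm_of_hasN q h'
    rw [← h, this]
    exact h'

include q in
/-- **the number of ideals of norm `m`** -/
theorem card_absNorm (hn : n % 4 = 3) {m : ℕ} (hm : m ≠ 0) :
    (Nat.card {I : Ideal (𝓞 K) // Ideal.absNorm I = m} : ℤ) = R 1 n m := by
  rw [← nu_eq q hn (one_mul n) hm]
  unfold nu
  simp only [chi_V1, Finset.sum_const, nsmul_eq_mul, mul_one]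
  congr 1
  have h1 : {I : Ideal (𝓞 K) | Ideal.absNorm I = m} = (idl q m : Set (Ideal (𝓞 K))) := by
    ext I
    rw [Finset.mem_coe, mem_idl, hasN_iff_absNorm q hm]
    rfl
  have h2 : Nat.card {I : Ideal (𝓞 K) // Ideal.absNorm I = m} =
      Set.ncard {I : Ideal (𝓞 K) | Ideal.absNorm I = m} := rfl
  rw [h2, h1, Set.ncard_coe_finset]

end Vale.Agent.P014.H581
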