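import Vale.Agent.P014.H581.Chi

/-!
# The number of ideals of given norm weighted by a genus character
-/

namespace Vale.Agent.P014.H581

open NumberField Vale.Agent.P017.H185 Vale.Agent.P017.H185.QF
open scoped Classical

variable {K : Type*} [Field K] [NumberField K] {n : ℕ} (q : QF K n)

/-! ### multiplicativity -/

theorem coprime_sup {a b : ℕ} (h : Nat.Coprime a b) :
    Ideal.span {(a : 𝓞 K)} ⊔ Ideal.span {(b : 𝓞 K)} = ⊤ := by
  rw [Ideal.eq_top_iff_one]
  obtain ⟨u, v, huv⟩ := Nat.isCoprime_iff_coprime.mpr h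
  have huv' : (u : 𝓞 K) * a + v * b = 1 := by exact_mod_cast congrArg (Int.cast : ℤ → 𝓞 K) huv
  rw [← huv']
  exact Ideal.add_mem _ (Ideal.mem_sup_left (Ideal.mul_mem_left _ _ (Ideal.mem_span_singleton_self _)))
    (Ideal.mem_sup_right (Ideal.mul_mem_left _ _ (Ideal.mem_span_singleton_self _)))

theorem join_sup {a b : ℕ} (h : Nat.Coprime a b) {I J : Ideal (𝓞 K)} (hI : q.HasN I a)
    (hJ : q.HasN J b) : I * J ⊔ Ideal.span {(a : 𝓞 K)} = I := by
  have hI' : I * I.map q.s = Ideal.span {(a : 𝓞 K)} := hI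
  rw [← hI', ← Ideal.mul_sup]
  have h1 : J ⊔ I.map q.s = ⊤ := by
    rw [eq_top_iff, ← coprime_sup h (K := K), sup_le_iff]
    constructor
    · rw [Ideal.span_singleton_le_iff_mem]
      exact Ideal.mem_sup_right (natCast_mem_of_hasN q (hasN_map q hI))
    · rw [Ideal.span_singleton_le_iff_mem]
      exact Ideal.mem_sup_left (natCast_mem_of_hasN q hJ)
  rw [h1, Ideal.mul_top]

theorem split_mul {a b : ℕ} (h : Nat.Coprime a b) {T : Ideal (𝓞 K)} (hT : q.HasN T (a * b)) :
    (T ⊔ Ideal.span {(a : 𝓞 K)}) * (T ⊔ Ideal.span {(b : 𝓞 K)}) = T := by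
  have hT' : T * T.map q.s = Ideal.span {((a * b : ℕ) : 𝓞 K)} := hT
  have h1 : Ideal.span {(a : 𝓞 K)} * Ideal.span {(b : 𝓞 K)} ≤ T := by
    rw [Ideal.span_singleton_mul_span_singleton, Ideal.span_singleton_le_iff_mem]
    have := natCast_mem_of_hasN q hT
    push_cast at this
    exact this
  apply le_antisymm
  · rw [Ideal.sup_mul, Ideal.mul_sup, Ideal.mul_sup]
    refine sup_le (sup_le Ideal.mul_le_left Ideal.mul_le_left) (sup_le Ideal.mul_le_right h1)
  · calc T = T * ⊤ := (Ideal.mul_top T).symm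
      _ = T * (Ideal.span {(b : 𝓞 K)} ⊔ Ideal.span {(a : 𝓞 K)}) := by
          rw [sup_comm, coprime_sup h]
      _ = T * Ideal.span {(b : 𝓞 K)} ⊔ Ideal.span {(a : 𝓞 K)} * T := by
          rw [Ideal.mul_sup, mul_comm T (Ideal.span {(a : 𝓞 K)})]
      _ ≤ _ := sup_le (Ideal.mul_mono le_sup_left le_sup_right)
          (Ideal.mul_mono le_sup_right le_sup_left)

theorem split_hasN {a b : ℕ} (h : Nat.Coprime a b) (ha : a ≠ 0) (hb : b ≠ 0) {T : Ideal (𝓞 K)}
    (hT : q.HasN T (a * b)) : q.HasN (T ⊔ Ideal.span {(a : 𝓞 K)}) a ∧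
      q.HasN (T ⊔ Ideal.span {(b : 𝓞 K)}) b := by
  have hT0 := ne_bot_of_hasN q (mul_ne_zero ha hb) hT
  have hA0 : T ⊔ Ideal.span {(a : 𝓞 K)} ≠ ⊥ := fun h => hT0 (le_bot_iff.mp (h ▸ le_sup_left))
  have hB0 : T ⊔ Ideal.span {(b : 𝓞 K)} ≠ ⊥ := fun h => hT0 (le_bot_iff.mp (h ▸ le_sup_left))
  obtain ⟨a', -, ha'⟩ := q.exists_hasN hA0
  obtain ⟨b', -, hb'⟩ := q.exists_hasN hB0
  have h1 := ha'.mul hb'
  rw [split_mul q h hT] at h1
  have h2 := q.hasN_unique hT h1
  have h3 : a' ∣ a ^ 2 := by
    rw [← N_nat q]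
    exact dvd_N_of_mem q ha' (Ideal.mem_sup_right (Ideal.mem_span_singleton_self _))
  have h4 : b' ∣ b ^ 2 := by
    rw [← N_nat q]
    exact dvd_N_of_mem q hb' (Ideal.mem_sup_right (Ideal.mem_span_singleton_self _))
  have h5 : Nat.Coprime a' b := Nat.Coprime.coprime_dvd_left h3 (Nat.Coprime.pow_left 2 h)
  have h6 : Nat.Coprime b' a := Nat.Coprime.coprime_dvd_left h4 (Nat.Coprime.pow_left 2 h.symm)
  have h7 : a' ∣ a := h5.dvd_of_dvd_mul_right ⟨b', h2⟩
  have h8 : b' ∣ b := h6.dvd_of_dvd_mul_left ⟨a', by rw [h2]; ring⟩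
  have h9 : a' = a := by
    apply Nat.dvd_antisymm h7
    have : Nat.Coprime a b' := h6.symm
    exact this.dvd_of_dvd_mul_right ⟨b, h2.symm⟩
  have h10 : b' = b := by
    rw [h9] at h2
    exact (Nat.eq_of_mul_eq_mul_left (Nat.pos_of_ne_zero ha) h2).symm
  rw [h9] at ha'
  rw [h10] at hb'
  exact ⟨ha', hb'⟩

/-- the weighted number of ideals of norm `m` -/
noncomputable def nu (V m : ℕ) : ℤ := ∑ I ∈ idl q m, chi q V (cl I)

theorem nu_mul (hn : n % 4 = 3) {V : ℕ} (hV : V ∣ n) {a b : ℕ} (h : Nat.Coprime a b) (ha : a ≠ 0)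
    (hb : b ≠ 0) : nu q V (a * b) = nu q V a * nu q V b := by
  unfold nu
  rw [Finset.sum_mul_sum, ← Finset.sum_product']
  refine Finset.sum_bij' (fun T _ => (T ⊔ Ideal.span {(a : 𝓞 K)}, T ⊔ Ideal.span {(b : 𝓞 K)}))
    (fun p _ => p.1 * p.2) ?_ ?_ ?_ ?_ ?_
  · intro T hT
    rw [mem_idl] at hT
    obtain ⟨h1, h2⟩ := split_hasN q h ha hb hT
    rw [Finset.mem_product, mem_idl, mem_idl]
    exact ⟨h1, h2⟩
  · rintro ⟨I, J⟩ hp
    rw [Finset.mem_product, mem_idl, mem_idl] at hp
    rw [mem_idl]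
    exact hp.1.mul hp.2
  · intro T hT
    rw [mem_idl] at hT
    exact split_mul q h hT
  · rintro ⟨I, J⟩ hp
    rw [Finset.mem_product, mem_idl, mem_idl] at hp
    have h1 := join_sup q h hp.1 hp.2
    have h2 := join_sup q h.symm hp.2 hp.1
    rw [mul_comm J I] at h2
    show (I * J ⊔ Ideal.span {(a : 𝓞 K)}, I * J ⊔ Ideal.span {(b : 𝓞 K)}) = (I, J)
    rw [h1, h2]
  · intro T hT
    rw [mem_idl] at hT
    obtain ⟨h1, h2⟩ := split_hasN q h ha hb hT
    conv_lhs => rw [← split_mul q h hT]
    rw [cl_mul (ne_bot_of_hasN q ha h1) (ne_bot_of_hasN q hb h2), chi_mul q hn hV]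

theorem nu_one (hn : n % 4 = 3) {V : ℕ} (hV : V ∣ n) : nu q V 1 = 1 := by
  have h1 : idl q 1 = {⊤} := by
    ext I
    rw [mem_idl, Finset.mem_singleton]
    constructor
    · exact eq_top_of_hasN_one q
    · rintro rfl; exact hasN_top q
  have h : cl (⊤ : Ideal (𝓞 K)) = 1 := by
    rw [← Ideal.span_singleton_one]
    exact cl_span one_ne_zero
  unfold nu
  rw [h1, Finset.sum_singleton, h, chi_one q hn hV]

/-! ### prime powers -/

/-- dividing by a fixed ideal -/
theorem sum_div {f : Ideal (𝓞 K) → ℤ} {P : Ideal (𝓞 K)} {p m : ℕ} (hp : p ≠ 0) (hP : q.HasN P p)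
    (hm : m ≠ 0) : ∑ I ∈ (idl q (p * m)).filter (fun I => I ≤ P), f I = ∑ J ∈ idl q m, f (P * J) := by
  have hP0 := ne_bot_of_hasN q hp hP
  symm
  refine Finset.sum_bij (fun J _ => P * J) ?_ ?_ ?_ ?_
  · intro J hJ
    rw [mem_idl] at hJ
    rw [Finset.mem_filter, mem_idl]
    exact ⟨hP.mul hJ, Ideal.mul_le_left⟩
  · intro J _ J' _ h
    exact mul_left_cancel₀ hP0 h
  · intro I hI
    rw [Finset.mem_filter, mem_idl] at hI
    obtain ⟨J, hJ⟩ := Ideal.dvd_iff_le.mpr hI.2
    have hI0 := ne_bot_of_hasN q (mul_ne_zero hp hm) hI.1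
    obtain ⟨m', hm', hmm⟩ := hasN_quot q hI0 hJ hI.1 hP
    have : m' = m := (Nat.eq_of_mul_eq_mul_left (Nat.pos_of_ne_zero hp) hmm).symm
    rw [this] at hm'
    exact ⟨J, (mem_idl q).mpr hm', hJ.symm⟩
  · intro J _
    rfl

theorem nu_inert (hn : n % 4 = 3) {V : ℕ} {p : ℕ} (hp : p.Prime)
    (hj : jacobiSym p n = -1) (k : ℕ) : nu q V (p ^ (k + 2)) = nu q V (p ^ k) ∧ nu q V p = 0 := by
  constructor
  · have hN : q.HasN (Ideal.span {(p : 𝓞 K)}) (p ^ 2) := by
      have := q.hasN_span (p : 𝓞 K)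
      rwa [N_nat] at this
    unfold nu
    have h1 := sum_div q (f := fun I => chi q V (cl I)) (pow_ne_zero 2 hp.ne_zero) hN
      (m := p ^ k) (pow_ne_zero k hp.ne_zero)
    have h2 : (idl q (p ^ 2 * p ^ k)).filter (fun I => I ≤ Ideal.span {(p : 𝓞 K)}) =
        idl q (p ^ 2 * p ^ k) := by
      rw [Finset.filter_eq_self]
      intro I hI
      rw [mem_idl] at hI
      exact inert_le q hn hp hj hI (Dvd.dvd.mul_right (dvd_pow_self p two_ne_zero) _)
    rw [h2] at h1
    rw [show p ^ (k + 2) = p ^ 2 * p ^ k by ring, h1]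
    refine Finset.sum_congr rfl fun J hJ => ?_
    rw [mem_idl] at hJ
    have hp0 : (p : 𝓞 K) ≠ 0 := by exact_mod_cast hp.ne_zero
    rw [cl_mul (span_ne_bot hp0) (ne_bot_of_hasN q (pow_ne_zero k hp.ne_zero) hJ), cl_span hp0,
      one_mul]
  · unfold nu
    rw [Finset.sum_eq_zero]
    intro I hI
    exfalso
    rw [mem_idl] at hI
    have hI0 := ne_bot_of_hasN q hp.ne_zero hI
    obtain ⟨J, hJ⟩ := Ideal.dvd_iff_le.mpr (inert_le q hn hp hj hI dvd_rfl)
    obtain ⟨m', hm', hmm⟩ := hasN_quot q hI0 hJ hI (q.hasN_span _)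
    rw [N_nat] at hmm
    have : p * m' = 1 := by
      apply Nat.eq_of_mul_eq_mul_left hp.pos
      rw [mul_one]
      nlinarith
    exact hp.one_lt.ne' (Nat.dvd_one.mp ⟨m', this.symm⟩)

/-- a power of the conjugate prime -/
theorem eq_pow_of_not_le {P : Ideal (𝓞 K)} {p : ℕ} (hp : p.Prime) (hP : q.HasN P p) :
    ∀ (k : ℕ) (I : Ideal (𝓞 K)), q.HasN I (p ^ k) → ¬ I ≤ P → I = (P.map q.s) ^ k := by
  intro k
  induction k with
  | zero =>
    intro I hI _
    rw [pow_zero] at hI ⊢
    rw [eq_top_of_hasN_one q hI, Ideal.one_eq_top]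
  | succ k ih =>
    intro I hI hle
    have h1 := (le_or_le q hp hP hI (dvd_pow_self p (Nat.succ_ne_zero k))).resolve_left hle
    obtain ⟨J, hJ⟩ := Ideal.dvd_iff_le.mpr h1
    obtain ⟨m', hm', hmm⟩ := hasN_quot q (ne_bot_of_hasN q (pow_ne_zero _ hp.ne_zero) hI) hJ hI
      (hasN_map q hP)
    have hmk : m' = p ^ k := by
      rw [pow_succ'] at hmm
      exact (Nat.eq_of_mul_eq_mul_left hp.pos hmm).symm
    rw [hmk] at hm'
    have h2 : ¬ J ≤ P := by
      intro h
      apply hle
      rw [hJ]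
      exact Ideal.mul_le_right.trans h
    rw [hJ, ih J hm' h2, pow_succ']

theorem hasN_pow {P : Ideal (𝓞 K)} {p : ℕ} (hP : q.HasN P p) (k : ℕ) : q.HasN (P ^ k) (p ^ k) := by
  induction k with
  | zero => rw [pow_zero, pow_zero, Ideal.one_eq_top]; exact hasN_top q
  | succ k ih => rw [pow_succ, pow_succ]; exact ih.mul hP

omit [NumberField K] in
theorem pow_ne_bot {P : Ideal (𝓞 K)} (hP : P ≠ ⊥) (k : ℕ) : P ^ k ≠ ⊥ := pow_ne_zero k hP

theorem cl_pow {P : Ideal (𝓞 K)} (hP : P ≠ ⊥) (k : ℕ) : cl (P ^ k) = cl P ^ k := by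
  induction k with
  | zero =>
    rw [pow_zero, pow_zero, Ideal.one_eq_top, ← Ideal.span_singleton_one]
    exact cl_span one_ne_zero
  | succ k ih => rw [pow_succ, pow_succ, cl_mul (pow_ne_bot hP k) hP, ih]

theorem nu_split (hn : n % 4 = 3) {V : ℕ} (hV : V ∣ n) {P : Ideal (𝓞 K)} {p : ℕ} (hp : p.Prime)
    (hP : q.HasN P p) (hne : ¬ P.map q.s ≤ P) (k : ℕ) :
    nu q V (p ^ (k + 1)) = chi q V (cl P) * nu q V (p ^ k) + chi q V (cl P) ^ (k + 1) := by
  have hP0 := ne_bot_of_hasN q hp.ne_zero hP
  unfold nu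
  rw [← Finset.sum_filter_add_sum_filter_not (idl q (p ^ (k + 1))) (fun I => I ≤ P)]
  congr 1
  · have h1 := sum_div q (f := fun I => chi q V (cl I)) hp.ne_zero hP
      (m := p ^ k) (pow_ne_zero k hp.ne_zero)
    rw [show p ^ (k + 1) = p * p ^ k by ring, h1, Finset.mul_sum]
    refine Finset.sum_congr rfl fun J hJ => ?_
    rw [mem_idl] at hJ
    rw [cl_mul hP0 (ne_bot_of_hasN q (pow_ne_zero k hp.ne_zero) hJ), chi_mul q hn hV]
  · have h2 : (idl q (p ^ (k + 1))).filter (fun I => ¬ I ≤ P) = {(P.map q.s) ^ (k + 1)} := by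
      ext I
      rw [Finset.mem_filter, mem_idl, Finset.mem_singleton]
      constructor
      · rintro ⟨h1, h2⟩
        exact eq_pow_of_not_le q hp hP _ I h1 h2
      · rintro rfl
        refine ⟨hasN_pow q (hasN_map q hP) _, ?_⟩
        intro h
        have hPp := isPrime_of_hasN q hp hP
        exact hne ((Ideal.IsPrime.pow_le_iff (Nat.succ_ne_zero k)).mp h)
    rw [h2, Finset.sum_singleton, cl_pow (map_ne_bot q hP0), cl_map q hP0, chi_pow q hn hV,
      chi_inv q hn hV]

theorem nu_ram (hn : n % 4 = 3) {V : ℕ} (hV : V ∣ n) {P : Ideal (𝓞 K)} {p : ℕ} (hp : p.Prime)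
    (hP : q.HasN P p) (he : P.map q.s = P) (k : ℕ) :
    nu q V (p ^ (k + 1)) = chi q V (cl P) * nu q V (p ^ k) := by
  have hP0 := ne_bot_of_hasN q hp.ne_zero hP
  unfold nu
  have h1 := sum_div q (f := fun I => chi q V (cl I)) hp.ne_zero hP
    (m := p ^ k) (pow_ne_zero k hp.ne_zero)
  have h2 : (idl q (p * p ^ k)).filter (fun I => I ≤ P) = idl q (p * p ^ k) := by
    rw [Finset.filter_eq_self]
    intro I hI
    rw [mem_idl] at hI
    rcases le_or_le q hp hP hI (dvd_mul_right _ _) with h | h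
    · exact h
    · rwa [he] at h
  rw [h2] at h1
  rw [show p ^ (k + 1) = p * p ^ k by ring, h1, Finset.mul_sum]
  refine Finset.sum_congr rfl fun J hJ => ?_
  rw [mem_idl] at hJ
  rw [cl_mul hP0 (ne_bot_of_hasN q (pow_ne_zero k hp.ne_zero) hJ), chi_mul q hn hV]

/-! ### the arithmetic side -/

/-- the sum `∑_{i+j=k} a^i b^j` -/
def gs (a b : ℤ) (k : ℕ) : ℤ := ∑ i ∈ Finset.range (k + 1), a ^ i * b ^ (k - i)

theorem gs_zero (a b : ℤ) : gs a b 0 = 1 := by simp [gs]

theorem gs_succ (a b : ℤ) (k : ℕ) : gs a b (k + 1) = a * gs a b k + b ^ (k + 1) := by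
  unfold gs
  rw [Finset.sum_range_succ', Finset.mul_sum]
  congr 1
  · refine Finset.sum_congr rfl fun i _ => ?_
    rw [Nat.add_sub_add_right]; ring
  · simp

theorem R_pow (A B : ℕ) {p : ℕ} (hp : p.Prime) (k : ℕ) :
    R A B (p ^ k) = gs (jacobiSym p A) (jacobiSym p B) k := by
  unfold R gs
  rw [Nat.sum_divisorsAntidiagonal (fun x y => jacobiSym (x : ℤ) A * jacobiSym (y : ℤ) B),
    Nat.divisors_prime_pow hp, Finset.sum_map]
  refine Finset.sum_congr rfl fun i hi => ?_
  have hi' : i ≤ k := Nat.lt_succ_iff.mp (Finset.mem_range.mp hi)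
  simp only [Function.Embedding.coeFn_mk]
  rw [Nat.pow_div hi' hp.pos]
  push_cast
  rw [jacobiSym.pow_left, jacobiSym.pow_left]

/-- the character as an arithmetic function -/
def ja (A : ℕ) : ArithmeticFunction ℤ := ⟨fun m => if m = 0 then 0 else jacobiSym m A, by simp⟩

theorem ja_mult (A : ℕ) : (ja A).IsMultiplicative := by
  constructor
  · show (if (1 : ℕ) = 0 then (0 : ℤ) else jacobiSym (1 : ℕ) A) = 1
    rw [if_neg one_ne_zero, Nat.cast_one, jacobiSym.one_left]
  · intro m n _
    show (if m * n = 0 then (0 : ℤ) else jacobiSym ((m * n : ℕ) : ℤ) A) =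
      (if m = 0 then (0 : ℤ) else jacobiSym m A) * (if n = 0 then (0 : ℤ) else jacobiSym n A)
    by_cases hm : m = 0
    · simp [hm]
    by_cases hn : n = 0
    · simp [hn]
    rw [if_neg (mul_ne_zero hm hn), if_neg hm, if_neg hn]
    push_cast
    rw [jacobiSym.mul_left]

theorem ja_mul (A B m : ℕ) : (ja A * ja B) m = R A B m := by
  rw [ArithmeticFunction.mul_apply]
  unfold R
  refine Finset.sum_congr rfl fun x hx => ?_
  obtain ⟨h1, h2⟩ := Nat.mem_divisorsAntidiagonal.mp hx
  have ha : x.1 ≠ 0 := by rintro h; apply h2; rw [← h1, h, zero_mul]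
  have hb : x.2 ≠ 0 := by rintro h; apply h2; rw [← h1, h, mul_zero]
  show (if x.1 = 0 then (0 : ℤ) else jacobiSym x.1 A) * (if x.2 = 0 then (0 : ℤ) else jacobiSym x.2 B) = _
  rw [if_neg ha, if_neg hb]

theorem R_mul (A B : ℕ) {a b : ℕ} (h : Nat.Coprime a b) : R A B (a * b) = R A B a * R A B b := by
  rw [← ja_mul, ← ja_mul, ← ja_mul]
  exact ((ja_mult A).mul (ja_mult B)).map_mul_of_coprime h

theorem R_one (A B : ℕ) : R A B 1 = 1 := by simp [R]

theorem nu_pow (hn : n % 4 = 3) {V W : ℕ} (hVW : V * W = n) {p : ℕ} (hp : p.Prime) (k : ℕ) :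
    nu q V (p ^ k) = R V W (p ^ k) := by
  have hV : V ∣ n := ⟨W, hVW.symm⟩
  have hn0 := n_ne_zero q
  have hV0 : V ≠ 0 := by rintro rfl; exact hn0 (by rw [← hVW, zero_mul])
  have hW0 : W ≠ 0 := by rintro rfl; exact hn0 (by rw [← hVW, mul_zero])
  have hVne : NeZero V := ⟨hV0⟩
  have hWne : NeZero W := ⟨hW0⟩
  have hprod : jacobiSym p n = jacobiSym p V * jacobiSym p W := by
    conv_lhs => rw [← hVW]
    rw [jacobiSym.mul_right]
  rw [R_pow V W hp k]
  by_cases hj : jacobiSym p n = -1
  · -- inert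
    have hab : jacobiSym p V + jacobiSym p W = 0 ∧ jacobiSym p V ^ 2 = 1 := by
      rw [hprod] at hj
      rcases jacobiSym.trichotomy (p : ℤ) V with h1 | h1 | h1 <;>
        rcases jacobiSym.trichotomy (p : ℤ) W with h2 | h2 | h2 <;>
        rw [h1, h2] at hj ⊢ <;> first | (exfalso; revert hj; norm_num; done) | norm_num
    obtain ⟨h1, h2⟩ := hab
    have h3 : jacobiSym p W = -jacobiSym p V := by linarith
    have hrec : ∀ k, gs (jacobiSym p V) (jacobiSym p W) (k + 2) =
        gs (jacobiSym p V) (jacobiSym p W) k := by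
      intro k
      rw [gs_succ, gs_succ, h3]
      ring_nf
      rw [h2]
      ring
    have hrec1 : gs (jacobiSym p V) (jacobiSym p W) 1 = 0 := by
      rw [gs_succ, gs_zero, h3]; ring
    induction k using Nat.strong_induction_on with
    | _ k ih =>
      match k with
      | 0 => rw [pow_zero, nu_one q hn hV, gs_zero]
      | 1 => rw [pow_one, (nu_inert q hn hp hj 0).2, hrec1]
      | k + 2 => rw [(nu_inert q hn hp hj k).1, hrec, ih k (by omega)]
  · obtain ⟨P, hP⟩ := exists_prime_ideal q hn hp hj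
    have hP0 := ne_bot_of_hasN q hp.ne_zero hP
    by_cases hpn : p ∣ n
    · -- ramified
      have hP' : q.HasN (Ideal.span {(p : 𝓞 K), q.t}) p := by
        unfold HasN
        rw [q.amb_ideal_map, q.amb_ideal hpn]
      have hpVW : p ∣ V * W := hVW.symm ▸ hpn
      rcases (Nat.Prime.dvd_mul hp).mp hpVW with h | h
      · have h1 : jacobiSym p V = 0 := by
          rw [jacobiSym.eq_zero_iff]
          refine ⟨hV0, ?_⟩
          rw [Int.gcd_natCast_natCast, Nat.gcd_eq_left h]
          exact hp.one_lt.ne'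
        have h2 : chi q V (cl (Ideal.span {(p : 𝓞 K), q.t})) = jacobiSym p W := by
          rw [chi_compl q hn hVW]
          exact chi_ram q hn (by rw [mul_comm]; exact hVW) hp h hP'
        induction k with
        | zero => rw [pow_zero, nu_one q hn hV, gs_zero]
        | succ k ih =>
          rw [nu_ram q hn hV hp hP' (q.amb_ideal_map p), ih, h2, gs_succ, h1]
          clear ih
          cases k with
          | zero => rw [gs_zero]; ring
          | succ k => rw [gs_succ]; ring
      · have h1 : jacobiSym p W = 0 := by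
          rw [jacobiSym.eq_zero_iff]
          refine ⟨hW0, ?_⟩
          rw [Int.gcd_natCast_natCast, Nat.gcd_eq_left h]
          exact hp.one_lt.ne'
        have h2 := chi_ram q hn hVW hp h hP'
        induction k with
        | zero => rw [pow_zero, nu_one q hn hV, gs_zero]
        | succ k ih =>
          rw [nu_ram q hn hV hp hP' (q.amb_ideal_map p), ih, h2, gs_succ, h1]
          ring
    · -- split
      have hco : Nat.Coprime p n := (Nat.Prime.coprime_iff_not_dvd hp).mpr hpn
      have hne : ¬ P.map q.s ≤ P := by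
        intro hle
        -- then `P` divides the different
        have h1 : q.t ∈ P := by
          by_cases hp2 : p = 2
          · obtain ⟨w, hw⟩ := exists_omega q hn
            have hw' := congrArg q.s hw
            rw [map_mul, map_add, map_one, map_ofNat, q.s_t] at hw'
            -- one of `w`, `s w` lies in `P`
            have hPp := isPrime_of_hasN q hp hP
            have hnn := n_ne_zero q
            have hn8 : n % 8 = 7 := by
              subst hp2
              have hj1 : jacobiSym (2 : ℕ) n ≠ 0 := jac_ne_zero hco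
              have h1 := jacobiSym.at_two (Nat.odd_iff.mpr (by omega : n % 2 = 1))
              rw [show ((2 : ℕ) : ℤ) = 2 from rfl, h1, ZMod.χ₈_nat_eq_if_mod_eight] at hj hj1
              by_contra h8
              rw [if_neg (by omega), if_neg (by omega)] at hj
              exact hj rfl
            obtain ⟨e, he⟩ : ∃ e : ℕ, n = 8 * e + 7 := ⟨n / 8, by omega⟩
            have hne : (n : 𝓞 K) = 8 * e + 7 := by
              conv_lhs => rw [he]
              push_cast; ring
            have hww : w * q.s w = 2 * (e + 1) := by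
              have h1 : (4 : 𝓞 K) * (w * q.s w) = 4 * (2 * (e + 1)) := by
                linear_combination (2 * q.s w) * hw + (1 + q.t) * hw' - q.t_sq + hne
              exact mul_left_cancel₀ (by norm_num) h1
            have h2P : (2 : 𝓞 K) ∈ P := by
              have := natCast_mem_of_hasN q hP
              rw [hp2] at this
              exact_mod_cast this
            have h3 : w * q.s w ∈ P := by rw [hww]; exact Ideal.mul_mem_right _ _ h2P
            have hwP : w ∈ P ∧ q.s w ∈ P := by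
              rcases hPp.mem_or_mem h3 with h | h
              · exact ⟨h, hle (Ideal.mem_map_of_mem q.s h)⟩
              · refine ⟨?_, h⟩
                have := hle (Ideal.mem_map_of_mem q.s h)
                rwa [q.s_s] at this
            have h4 : w - q.s w = q.t := by
              have : (2 : 𝓞 K) * (w - q.s w) = 2 * q.t := by linear_combination hw - hw'
              exact mul_left_cancel₀ two_ne_zero this
            rw [← h4]
            exact Ideal.sub_mem _ hwP.1 hwP.2
          · have hPp := isPrime_of_hasN q hp hP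
            have hodd : Odd p := hp.odd_of_ne_two hp2
            -- choose `c` with `p ∣ c² + n`
            have : Fact p.Prime := ⟨hp⟩
            have hj1 : jacobiSym p n = 1 := by
              rcases jacobiSym.trichotomy (p : ℤ) n with h | h | h
              · exact absurd h (jac_ne_zero hco)
              · exact h
              · exact absurd h hj
            rw [recip hn hodd] at hj1
            have h5 : (((-(n : ℤ)) : ℤ) : ZMod p) ≠ 0 := by
              rw [Ne, ZMod.intCast_zmod_eq_zero_iff_dvd, dvd_neg]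
              exact fun h => hpn (by exact_mod_cast h)
            rw [← jacobiSym.legendreSym.to_jacobiSym, legendreSym.eq_one_iff p h5] at hj1
            obtain ⟨c, hc⟩ := hj1
            obtain ⟨c', rfl⟩ := ZMod.intCast_surjective c
            obtain ⟨g, hg⟩ : (p : ℤ) ∣ c' ^ 2 + n := by
              rw [← ZMod.intCast_zmod_eq_zero_iff_dvd]
              push_cast at hc ⊢
              linear_combination -hc
            have hg' : (c' : 𝓞 K) ^ 2 + n = p * g := by
              exact_mod_cast congrArg (Int.cast : ℤ → 𝓞 K) hg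
            have h3 : (q.t - c') * (q.t + c') ∈ P := by
              have : (q.t - c') * (q.t + c') = p * (-g) := by
                linear_combination q.t_sq - hg'
              rw [this]
              exact Ideal.mul_mem_right _ _ (natCast_mem_of_hasN q hP)
            have hs1 : q.s (q.t - c') = -(q.t + c') := by
              rw [map_sub, q.s_t, map_intCast]; ring
            have hs2 : q.s (q.t + c') = -(q.t - c') := by
              rw [map_add, q.s_t, map_intCast]; ring
            have hP2 : q.t - c' ∈ P ∧ q.t + c' ∈ P := by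
              rcases hPp.mem_or_mem h3 with h | h
              · refine ⟨h, ?_⟩
                have := hle (Ideal.mem_map_of_mem q.s h)
                rw [hs1] at this
                exact (Ideal.neg_mem_iff _).mp this
              · refine ⟨?_, h⟩
                have := hle (Ideal.mem_map_of_mem q.s h)
                rw [hs2] at this
                exact (Ideal.neg_mem_iff _).mp this
            have h4 : (2 : 𝓞 K) * q.t ∈ P := by
              have := Ideal.add_mem _ hP2.1 hP2.2
              convert this using 1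
              ring
            rcases hPp.mem_or_mem h4 with h | h
            · exfalso
              have h6 := dvd_N_of_mem q hP h
              have h7 : q.N (2 : 𝓞 K) = 2 ^ 2 := by
                have := N_nat q 2
                exact_mod_cast this
              rw [h7] at h6
              exact hp2 ((Nat.prime_dvd_prime_iff_eq hp Nat.prime_two).mp (hp.dvd_of_dvd_pow h6))
            · exact h
        have h2 := dvd_N_of_mem q hP h1
        rw [N_t] at h2
        exact hpn h2
      have h2 := chi_cl q hn hV hP0 hP hco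
      have h3 : jacobiSym p W = jacobiSym p V := by
        rw [← h2, chi_compl q hn hVW]
        exact (chi_cl q hn ⟨V, by rw [← hVW]; ring⟩ hP0 hP hco).symm
      induction k with
      | zero => rw [pow_zero, nu_one q hn hV, gs_zero]
      | succ k ih =>
        rw [nu_split q hn hV hp hP hne, ih, h2, gs_succ, h3]

/-- **the weighted number of ideals of norm `m`** -/
theorem nu_eq (hn : n % 4 = 3) {V W : ℕ} (hVW : V * W = n) {m : ℕ} (hm : m ≠ 0) :
    nu q V m = R V W m := by
  have hV : V ∣ n := ⟨W, hVW.symm⟩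
  induction m using Nat.recOnPosPrimePosCoprime with
  | zero => exact absurd rfl hm
  | one => rw [nu_one q hn hV, R_one]
  | prime_pow p k hp _ => exact nu_pow q hn hVW hp k
  | coprime a b ha hb hco iha ihb =>
    have ha0 : a ≠ 0 := by omega
    have hb0 : b ≠ 0 := by omega
    rw [nu_mul q hn hV hco ha0 hb0, iha ha0, ihb hb0, R_mul _ _ hco]

end Vale.Agent.P014.H581
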