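import Vale.Agent.P014.H581.RedK
import Vale.Agent.P014.H581.BD3Cl

/-!
# The system with a reduction modulo `3` attached to a family of ideals
-/

namespace Vale.Agent.P014.H581

open NumberField Vale.Agent.P017.H185 Vale.Agent.P017.H185.QF Vale.Agent.P014.H70
open scoped Classical

set_option linter.unusedSectionVars false

variable {K : Type*} [Field K] [NumberField K] {n : ℕ} {q : QF K n} {J : Type*} {F : Fam q J}

theorem Rep.RNc_fam {l : ℕ} (r : Rep q l) (hn : n % 4 = 3)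
    (hn17 : ¬ IsSquare ((n : ℕ) : ZMod 17)) (hl : l.Prime) (hl17 : 17 < l)
    (hco : ∀ C, Nat.Coprime (r.na C) (17 * n)) (A B : ClassGroup (𝓞 K)) (m : ℕ) :
    r.RNc A B m = ((r.fam hn hn17 hl hl17 hco).E A B).RN m := by
  ext p
  have hY : r.Y A B = (r.fam hn hn17 hl hl17 hco).Y A B := by
    show r.L.map q.s * ((r.a A).map q.s * (r.a B).map q.s) =
      r.L.map q.s * (r.a A).map q.s * (r.a B).map q.s
    rw [mul_assoc]
  have hb : l * r.nX A B = l * r.na A * r.na B := by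
    show l * (r.na A * r.na B) = _
    rw [mul_assoc]
  unfold Rep.RNc RNs H70.Dat.RN
  rw [hY, hb]
  rfl

/-- **the reduction modulo `3` of the system** -/
noncomputable def At3.r3 (h : At3 F) (hrel : Fam.Rel17)
    (rep3 : ∀ a b, (F.sys hrel).rep a b 3 = 6)
    (rep9 : ∀ a b, (F.sys hrel).rep a b 9 + 3 * (F.sys hrel).rep a b 1 = 24) :
    H698.R3 (F.sys hrel) where
  red := h.red
  kap i := (F.na i : ZMod 3)
  kap_ne i := by
    rw [Ne, ZMod.natCast_eq_zero_iff]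
    exact h.na3 i
  one := h.red_one
  add hu hv := h.red_add hu hv
  mul hu hv := h.red_mul hu hv
  conj hv := h.red_conj hv
  nrm hv hm := h.red_nrm hv hm
  zer hv h0 := h.red_zer hv h0
  rep3 := rep3
  rep9 := rep9

/-- sums over the elements of given norm -/
theorem sum_E (hrel : Fam.Rel17) (a b : J) (m : ℕ) (f : F.Q → ℤ) :
    ∑ v ∈ H698.E (F.sys hrel) a b m, f v = ∑ᶠ p ∈ (F.E a b).RN m, f (F.emb a p) := by
  rw [← finsum_mem_coe_finset]
  have e : ((H698.E (F.sys hrel) a b m : Finset F.Q) : Set F.Q) = F.emb a '' ((F.E a b).RN m) := by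
    ext v
    rw [Finset.mem_coe, H698.mem_E, Set.mem_image]
    constructor
    · rintro ⟨h1, h2⟩
      obtain ⟨p, hp, rfl⟩ := F.mem_I.mp h1
      exact ⟨p, (F.mem_RN m).mpr ⟨hp, (F.kn_iff m).mp h2⟩, rfl⟩
    · rintro ⟨p, hp, rfl⟩
      obtain ⟨h1, h2⟩ := (F.mem_RN m).mp hp
      exact ⟨F.emb_mem.mpr h1, (F.kn_iff m).mpr h2⟩
  rw [e, finsum_mem_image (F.emb_inj a).injOn]

theorem w9_sgn (k : ℕ) : w9 k = H698.sgn (k : ZMod 3) := by
  have h : (k : ZMod 3) = ((k % 3 : ℕ) : ZMod 3) := by rw [ZMod.natCast_mod]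
  unfold w9
  rw [h]
  have h3 : k % 3 < 3 := Nat.mod_lt _ (by norm_num)
  interval_cases k % 3 <;> rfl

/-- the second weight as a function on residues -/
def w1r (c : ZMod 3) : ℤ := if c = 0 then 4 else if c = 2 then -4 else 0

theorem w1_w1r (k : ℕ) : w1 k = w1r (k : ZMod 3) := by
  have h : (k : ZMod 3) = ((k % 3 : ℕ) : ZMod 3) := by rw [ZMod.natCast_mod]
  unfold w1
  rw [h]
  have h3 : k % 3 < 3 := Nat.mod_lt _ (by norm_num)
  interval_cases k % 3 <;> rfl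

theorem fin9 : ∀ c x y : ZMod 3, c * c = 1 → x - y = 0 → H698.sgn (c * y) =
    H698.sgn c * H698.sgn x := by decide

theorem fin1 : ∀ c x y : ZMod 3, c * c = 1 → x - y = c → w1r (c * y) =
    H698.sgn c * (4 * (H698.sgn x + H698.sgn y)) := by decide

theorem sgn_mul' : ∀ c x : ZMod 3, H698.sgn (c * x) = H698.sgn c * H698.sgn x := by decide

theorem sgn_cases : ∀ c : ZMod 3, c ≠ 0 → H698.sgn c = 1 ∨ H698.sgn c = -1 := by decide

/-- residues for an element of the set of representations -/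
theorem At3.resid (h : At3 F) {a b : J} {m : ℕ} {p : 𝓞 K × 𝓞 K} (hp : p ∈ (F.E a b).RN m) :
    (q.N p.1 : ZMod 3) - (q.N p.2 : ZMod 3) = (F.na a : ZMod 3) * (F.na b : ZMod 3) * m := by
  have h2 := ((F.mem_RN m).mp hp).2
  have h3 := congrArg (Nat.cast : ℕ → ZMod 3) h2
  push_cast at h3
  rw [n_zmod3 h.n3, n_zmod3 h.l3] at h3
  have e17 : (17 : ZMod 3) = -1 := by decide
  rw [e17] at h3
  linear_combination h3

theorem At3.kk_res (h : At3 F) {a b : J} {m : ℕ} {p : 𝓞 K × 𝓞 K} (hp : p ∈ (F.E a b).RN m) :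
    ((q.N p.2 / (F.l * F.na a * F.na b) : ℕ) : ZMod 3) =
      (F.na a : ZMod 3) * (F.na b : ZMod 3) * (q.N p.2 : ZMod 3) := by
  have h1 := ((F.mem_RN m).mp hp).1.2.1
  obtain ⟨k, hk⟩ := N_dvd q (F.hY a b) h1
  have hpos : 0 < F.l * F.na a * F.na b :=
    Nat.mul_pos (Nat.mul_pos F.hl (F.hna a)) (F.hna b)
  rw [hk, Nat.mul_div_cancel_left _ hpos]
  push_cast
  rw [n_zmod3 h.l3]
  have e1 := sq_na h a
  have e2 := sq_na h b
  linear_combination (-(k : ZMod 3)) * e1 * 1 - (k : ZMod 3) * ((F.na a : ZMod 3) * F.na a) * e2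

theorem At3.eta_x (h : At3 F) (a : J) (p : 𝓞 K × 𝓞 K) :
    H698.eta (h.red (F.emb a p)).1 = H698.sgn (q.N p.1 : ZMod 3) := by
  unfold H698.eta At3.red
  simp only
  rw [toP_N, h.N_x]

theorem At3.eta_y (h : At3 F) (a : J) (p : 𝓞 K × 𝓞 K) :
    H698.eta (h.red (F.emb a p)).2 = H698.sgn (q.N p.2 : ZMod 3) := by
  unfold H698.eta At3.red
  simp only
  rw [toP_N, h.N_y]

theorem sq_ab (h : At3 F) (a b : J) : ((F.na a : ZMod 3) * (F.na b : ZMod 3)) *
    ((F.na a : ZMod 3) * (F.na b : ZMod 3)) = 1 := by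
  have e1 := sq_na h a
  have e2 := sq_na h b
  linear_combination e1 + (F.na a : ZMod 3) * F.na a * e2

theorem At3.w9_eq (h : At3 F) {a b : J} {p : 𝓞 K × 𝓞 K} (hp : p ∈ (F.E a b).RN 9) :
    w9 (q.N p.2 / (F.l * F.na a * F.na b)) =
      H698.sgn ((F.na a : ZMod 3) * (F.na b : ZMod 3)) * H698.eta (h.red (F.emb a p)).1 := by
  rw [w9_sgn, h.kk_res hp, h.eta_x]
  apply fin9 _ _ _ (sq_ab h a b)
  rw [h.resid hp]
  have : ((9 : ℕ) : ZMod 3) = 0 := by decide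
  rw [this, mul_zero]

theorem At3.w1_eq (h : At3 F) {a b : J} {p : 𝓞 K × 𝓞 K} (hp : p ∈ (F.E a b).RN 1) :
    w1 (q.N p.2 / (F.l * F.na a * F.na b)) =
      H698.sgn ((F.na a : ZMod 3) * (F.na b : ZMod 3)) * (4 * H698.hh (h.red (F.emb a p))) := by
  rw [w1_w1r, h.kk_res hp]
  unfold H698.hh
  rw [h.eta_x, h.eta_y]
  apply fin1 _ _ _ (sq_ab h a b)
  rw [h.resid hp]
  push_cast
  rw [mul_one]

/-- **the formula for the products** -/
theorem At3.prod (h : At3 F) (hrel : Fam.Rel17) {e : J → ℤ}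
    (hmain : ∀ a b, ∑ w ∈ H698.E (F.sys hrel) a b 9, H698.eta (h.red w).1 +
      4 * ∑ u ∈ H698.E (F.sys hrel) a b 1, H698.hh (h.red u) = 8 * (e a * e b)) (a b : J) :
    (4 * H698.sgn (F.na a : ZMod 3) * e a) * (4 * H698.sgn (F.na b : ZMod 3) * e b) =
      2 * (∑ᶠ p ∈ (F.E a b).RN 9, w9 (q.N p.2 / (F.l * F.na a * F.na b)) +
        ∑ᶠ p ∈ (F.E a b).RN 1, w1 (q.N p.2 / (F.l * F.na a * F.na b))) := by
  have e9 : ∑ᶠ p ∈ (F.E a b).RN 9, w9 (q.N p.2 / (F.l * F.na a * F.na b)) =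
      H698.sgn ((F.na a : ZMod 3) * (F.na b : ZMod 3)) *
        ∑ w ∈ H698.E (F.sys hrel) a b 9, H698.eta (h.red w).1 := by
    rw [Finset.mul_sum, sum_E hrel a b 9
      (fun w => H698.sgn ((F.na a : ZMod 3) * (F.na b : ZMod 3)) * H698.eta (h.red w).1)]
    exact finsum_mem_congr rfl fun p hp => h.w9_eq hp
  have e1 : ∑ᶠ p ∈ (F.E a b).RN 1, w1 (q.N p.2 / (F.l * F.na a * F.na b)) =
      H698.sgn ((F.na a : ZMod 3) * (F.na b : ZMod 3)) *
        (4 * ∑ u ∈ H698.E (F.sys hrel) a b 1, H698.hh (h.red u)) := by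
    rw [Finset.mul_sum, Finset.mul_sum, sum_E hrel a b 1
      (fun w => H698.sgn ((F.na a : ZMod 3) * (F.na b : ZMod 3)) * (4 * H698.hh (h.red w)))]
    exact finsum_mem_congr rfl fun p hp => h.w1_eq hp
  rw [e9, e1, ← mul_add, hmain a b, sgn_mul']
  ring

end Vale.Agent.P014.H581
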