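import Vale.Agent.P014.H581.Rho
import Vale.Agent.P014.H70.Fam3
import Vale.Agent.P014.H698.R3

/-!
# The reduction modulo `3` of the quaternion algebra
-/

namespace Vale.Agent.P014.H581

open NumberField Vale.Agent.P017.H185 Vale.Agent.P017.H185.QF Vale.Agent.P014.H70
open scoped Classical

set_option linter.unusedSectionVars false

variable {K : Type*} [Field K] [NumberField K] {n : ℕ} (q : QF K n)

/-- elements with denominator prime to `3` -/
def D3 (x : K) : Prop := ∃ (m : ℕ) (z : 𝓞 K), m % 3 = 1 ∧ (m : K) * x = algebraMap (𝓞 K) K z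

theorem cast_one_of {m : ℕ} (hm : m % 3 = 1) : (m : F9) = 1 := by
  have h : m = 3 * (m / 3) + 1 := by omega
  rw [h]
  push_cast
  rw [F9.three]
  ring

/-- the reduction -/
noncomputable def redK (h3 : n % 3 = 1) (x : K) : F9 :=
  if h : D3 x then rho q h3 h.choose_spec.choose else 0

theorem redK_eq (h3 : n % 3 = 1) {x : K} {m : ℕ} {z : 𝓞 K} (hm : m % 3 = 1)
    (h : (m : K) * x = algebraMap (𝓞 K) K z) : redK q h3 x = rho q h3 z := by
  have hD : D3 x := ⟨m, z, hm, h⟩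
  unfold redK
  rw [dif_pos hD]
  obtain ⟨h1, h2⟩ := hD.choose_spec.choose_spec
  set m' := hD.choose
  set z' := hD.choose_spec.choose
  have h5 : (m : 𝓞 K) * z' = (m' : 𝓞 K) * z := by
    apply QF.ext'
    rw [map_mul, map_mul, map_natCast, map_natCast, ← h, ← h2]
    ring
  have h6 := congrArg (rho q h3) h5
  rw [map_mul, map_mul, map_natCast, map_natCast, cast_one_of hm, cast_one_of h1, one_mul,
    one_mul] at h6
  exact h6

theorem D3.add {x y : K} (hx : D3 x) (hy : D3 y) : D3 (x + y) := by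
  obtain ⟨m, z, hm, h⟩ := hx
  obtain ⟨m', z', hm', h'⟩ := hy
  refine ⟨m * m', m' * z + m * z', by rw [Nat.mul_mod, hm, hm'], ?_⟩
  rw [map_add, map_mul, map_mul, ← h, ← h', map_natCast, map_natCast]
  push_cast
  ring

theorem redK_add (h3 : n % 3 = 1) {x y : K} (hx : D3 x) (hy : D3 y) :
    redK q h3 (x + y) = redK q h3 x + redK q h3 y := by
  obtain ⟨m, z, hm, h⟩ := hx
  obtain ⟨m', z', hm', h'⟩ := hy
  rw [redK_eq q h3 hm h, redK_eq q h3 hm' h', redK_eq q h3 (m := m * m') (z := m' * z + m * z')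
    (by rw [Nat.mul_mod, hm, hm']) (by
      rw [map_add, map_mul, map_mul, ← h, ← h', map_natCast, map_natCast]
      push_cast
      ring)]
  rw [map_add, map_mul, map_mul, map_natCast, map_natCast, cast_one_of hm, cast_one_of hm']
  ring

theorem D3.neg {x : K} (hx : D3 x) : D3 (-x) := by
  obtain ⟨m, z, hm, h⟩ := hx
  exact ⟨m, -z, hm, by rw [map_neg, ← h]; ring⟩

theorem redK_neg (h3 : n % 3 = 1) {x : K} (hx : D3 x) : redK q h3 (-x) = -redK q h3 x := by
  obtain ⟨m, z, hm, h⟩ := hx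
  rw [redK_eq q h3 hm h, redK_eq q h3 (m := m) (z := -z) hm (by rw [map_neg, ← h]; ring), map_neg]

theorem D3.mul {x y : K} (hx : D3 x) (hy : D3 y) : D3 (x * y) := by
  obtain ⟨m, z, hm, h⟩ := hx
  obtain ⟨m', z', hm', h'⟩ := hy
  refine ⟨m * m', z * z', by rw [Nat.mul_mod, hm, hm'], ?_⟩
  rw [map_mul, ← h, ← h']
  push_cast
  ring

theorem redK_mul (h3 : n % 3 = 1) {x y : K} (hx : D3 x) (hy : D3 y) :
    redK q h3 (x * y) = redK q h3 x * redK q h3 y := by
  obtain ⟨m, z, hm, h⟩ := hx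
  obtain ⟨m', z', hm', h'⟩ := hy
  rw [redK_eq q h3 hm h, redK_eq q h3 hm' h', redK_eq q h3 (m := m * m') (z := z * z')
    (by rw [Nat.mul_mod, hm, hm']) (by
      rw [map_mul, ← h, ← h']
      push_cast
      ring), map_mul]

theorem D3.sigma {x : K} (hx : D3 x) : D3 (q.σ x) := by
  obtain ⟨m, z, hm, h⟩ := hx
  refine ⟨m, q.s z, hm, ?_⟩
  rw [QF.coe_s, ← h, map_mul, map_natCast]

theorem redK_sigma (h3 : n % 3 = 1) {x : K} (hx : D3 x) :
    redK q h3 (q.σ x) = (redK q h3 x).conj := by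
  obtain ⟨m, z, hm, h⟩ := hx
  rw [redK_eq q h3 hm h, redK_eq q h3 (m := m) (z := q.s z) hm (by
    rw [QF.coe_s, ← h, map_mul, map_natCast]), rho_s]

theorem D3_int (z : 𝓞 K) : D3 (algebraMap (𝓞 K) K z) := ⟨1, z, rfl, by simp⟩

theorem redK_int (h3 : n % 3 = 1) (z : 𝓞 K) : redK q h3 (algebraMap (𝓞 K) K z) = rho q h3 z :=
  redK_eq q h3 (m := 1) rfl (by simp)

theorem D3_nat (c : ℕ) : D3 (c : K) := ⟨1, c, rfl, by simp⟩

theorem redK_nat (h3 : n % 3 = 1) (c : ℕ) : redK q h3 (c : K) = c := by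
  rw [redK_eq q h3 (m := 1) (z := (c : 𝓞 K)) rfl (by simp), map_natCast]

/-- multiplication by `a / b` -/
theorem D3_div {a b : ℕ} (hb : ¬ 3 ∣ b) : D3 ((a : K) / b) := by
  have hb0 : (b : K) ≠ 0 := by
    have : b ≠ 0 := by rintro rfl; exact hb (dvd_zero 3)
    exact_mod_cast this
  refine ⟨b * b, (a * b : ℕ), ?_, ?_⟩
  · have : b % 3 = 1 ∨ b % 3 = 2 := by omega
    rcases this with h | h <;> rw [Nat.mul_mod, h]
  · rw [map_natCast]
    push_cast
    field_simp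

theorem redK_div (h3 : n % 3 = 1) {a b : ℕ} (hb : ¬ 3 ∣ b) :
    redK q h3 ((a : K) / b) = a * b := by
  have hb0 : (b : K) ≠ 0 := by
    have : b ≠ 0 := by rintro rfl; exact hb (dvd_zero 3)
    exact_mod_cast this
  rw [redK_eq q h3 (m := b * b) (z := (a * b : ℕ)) (by
    have : b % 3 = 1 ∨ b % 3 = 2 := by omega
    rcases this with h | h <;> rw [Nat.mul_mod, h]) (by
    rw [map_natCast]
    push_cast
    field_simp), map_natCast]
  push_cast
  rfl

/-- the quotient by `θ` -/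
theorem D3_theta (h3 : n % 3 = 1) {a : ℕ} (ha : ¬ 3 ∣ a) (p : 𝓞 K) :
    D3 ((algebraMap (𝓞 K) K p) / (q.θ * a)) := by
  have ha0 : (a : K) ≠ 0 := by
    have : a ≠ 0 := by rintro rfl; exact ha (dvd_zero 3)
    exact_mod_cast this
  have hθ := Fam.theta_ne q
  have hθ2 := q.hθ
  refine ⟨n * (a * a), -(q.t * a * p), ?_, ?_⟩
  · have : a % 3 = 1 ∨ a % 3 = 2 := by omega
    rcases this with h | h <;> rw [Nat.mul_mod, Nat.mul_mod a a, h, h3]
  · rw [map_neg, map_mul, map_mul, map_natCast, QF.coe_t]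
    push_cast
    field_simp
    linear_combination (algebraMap (𝓞 K) K p) * hθ2

theorem redK_theta (h3 : n % 3 = 1) {a : ℕ} (ha : ¬ 3 ∣ a) (p : 𝓞 K) :
    redK q h3 ((algebraMap (𝓞 K) K p) / (q.θ * a)) = -(F9.i * a * rho q h3 p) := by
  have ha0 : (a : K) ≠ 0 := by
    have : a ≠ 0 := by rintro rfl; exact ha (dvd_zero 3)
    exact_mod_cast this
  have hθ := Fam.theta_ne q
  have hθ2 := q.hθ
  rw [redK_eq q h3 (m := n * (a * a)) (z := -(q.t * a * p)) (by
    have : a % 3 = 1 ∨ a % 3 = 2 := by omega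
    rcases this with h | h <;> rw [Nat.mul_mod, Nat.mul_mod a a, h, h3]) (by
    rw [map_neg, map_mul, map_mul, map_natCast, QF.coe_t]
    push_cast
    field_simp
    linear_combination (algebraMap (𝓞 K) K p) * hθ2)]
  rw [map_neg, map_mul, map_mul, map_natCast, rho_t]

/-- pairs -/
def toP (z : F9) : ZMod 3 × ZMod 3 := (z.re, z.im)

theorem toP_add (z w : F9) : toP (z + w) = toP z + toP w := rfl

theorem toP_mul (z w : F9) : toP (z * w) = H698.m9 (toP z) (toP w) := rfl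

theorem toP_conj (z : F9) : toP z.conj = H698.c9 (toP z) := rfl

theorem toP_neg (z : F9) : toP (-z) = -toP z := rfl

theorem toP_one : toP 1 = (1, 0) := rfl

theorem toP_zero : toP 0 = (0, 0) := rfl

theorem toP_inj {z w : F9} (h : toP z = toP w) : z = w := by
  ext
  · exact congrArg Prod.fst h
  · exact congrArg Prod.snd h

theorem toP_N (z : F9) : H698.n9 (toP z) = z.N := by
  unfold H698.n9 F9.N toP
  ring

theorem natCast_F9 (c : ℕ) : (c : F9) = ⟨(c : ZMod 3), 0⟩ := by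
  induction c with
  | zero => rfl
  | succ c ih =>
    push_cast
    rw [ih]
    ext <;> simp

theorem toP_natCast (c : ℕ) (z : F9) : toP (c * z) = (c : ZMod 3) • toP z := by
  rw [natCast_F9]
  unfold toP
  ext
  · simp
  · simp

section Inst

variable {q} {J : Type*} (F : Fam q J)

/-- the hypotheses at `3` -/
structure At3 : Prop where
  n3 : n % 3 = 1
  l3 : F.l % 3 = 1
  na3 : ∀ i, ¬ 3 ∣ F.na i

variable {F}

theorem At3.nal (h : At3 F) (i : J) : ¬ 3 ∣ F.l * F.na i := by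
  intro h1
  rcases (Nat.Prime.dvd_mul Nat.prime_three).mp h1 with h2 | h2
  · have := h.l3; omega
  · exact h.na3 i h2

theorem At3.Dx (h : At3 F) {i j : J} {v : F.Q} (hv : v ∈ F.I i j) : D3 v.x := by
  rw [F.mem_I] at hv
  obtain ⟨p, hp, rfl⟩ := hv
  rw [F.emb_x]
  exact D3_theta q h.n3 (h.na3 i) p.1

theorem At3.Dy (h : At3 F) {i j : J} {v : F.Q} (hv : v ∈ F.I i j) : D3 v.y := by
  rw [F.mem_I] at hv
  obtain ⟨p, hp, rfl⟩ := hv
  rw [F.emb_y]
  have e : q.θ * (F.l : K) * F.na i = q.θ * ((F.l * F.na i : ℕ) : K) := by push_cast; ring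
  rw [e]
  exact D3_theta q h.n3 (h.nal i) p.2

theorem At3.red_x (h : At3 F) (i : J) (p : 𝓞 K × 𝓞 K) :
    redK q h.n3 (F.emb i p).x = -(F9.i * F.na i * rho q h.n3 p.1) := by
  rw [F.emb_x]
  exact redK_theta q h.n3 (h.na3 i) p.1

theorem At3.red_y (h : At3 F) (i : J) (p : 𝓞 K × 𝓞 K) :
    redK q h.n3 (F.emb i p).y = -(F9.i * F.na i * rho q h.n3 p.2) := by
  rw [F.emb_y]
  have e : q.θ * (F.l : K) * F.na i = q.θ * ((F.l * F.na i : ℕ) : K) := by push_cast; ring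
  rw [e, redK_theta q h.n3 (h.nal i) p.2]
  push_cast
  rw [cast_one_of h.l3, one_mul]

/-- the reduction -/
noncomputable def At3.red (h : At3 F) (v : F.Q) : H698.M9 :=
  (toP (redK q h.n3 v.x), toP (redK q h.n3 v.y))

theorem c17 (h : At3 F) : ((17 * F.l : ℕ) : F9) = -1 := by
  push_cast
  rw [cast_one_of h.l3]
  decide

theorem At3.red_mul (h : At3 F) {a b c : J} {u v : F.Q} (hu : u ∈ F.I a b) (hv : v ∈ F.I b c) :
    h.red (u * v) = H698.mm (h.red u) (h.red v) := by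
  have ux := h.Dx hu
  have uy := h.Dy hu
  have vx := h.Dx hv
  have vy := h.Dy hv
  have sx := D3.sigma q vx
  have sy := D3.sigma q vy
  unfold At3.red H698.mm
  rw [BB.mul_x, BB.mul_y]
  refine Prod.ext ?_ ?_
  · show toP (redK q h.n3 (u.x * v.x - ((17 * F.l : ℕ) : K) * (u.y * q.σ v.y))) = _
    rw [sub_eq_add_neg, redK_add q h.n3 (ux.mul vx) (D3.neg ((D3_nat _).mul (uy.mul sy))),
      redK_neg q h.n3 ((D3_nat _).mul (uy.mul sy)), redK_mul q h.n3 ux vx,
      redK_mul q h.n3 (D3_nat _) (uy.mul sy), redK_mul q h.n3 uy sy, redK_sigma q h.n3 vy,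
      redK_nat, c17 h]
    have e : ∀ A B C D : F9, A * B + -(-1 * (C * D)) = A * B + C * D := by intro A B C D; ring
    rw [e]
    rfl
  · show toP (redK q h.n3 (u.x * v.y + u.y * q.σ v.x)) = _
    rw [redK_add q h.n3 (ux.mul vy) (uy.mul sx), redK_mul q h.n3 ux vy, redK_mul q h.n3 uy sx,
      redK_sigma q h.n3 vx]
    rfl

theorem At3.red_add (h : At3 F) {a b : J} {u v : F.Q} (hu : u ∈ F.I a b) (hv : v ∈ F.I a b) :
    h.red (u + v) = h.red u + h.red v := by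
  unfold At3.red
  rw [BB.add_x, BB.add_y, redK_add q h.n3 (h.Dx hu) (h.Dx hv), redK_add q h.n3 (h.Dy hu) (h.Dy hv)]
  rfl

theorem At3.red_conj (h : At3 F) {a b : J} {v : F.Q} (hv : v ∈ F.I a b) :
    h.red (algebraMap ℚ F.Q ((F.na a : ℚ) / (F.na b : ℚ)) * star v) =
      ((F.na a : ZMod 3) * (F.na b : ZMod 3)) • H698.st (h.red v) := by
  have vx := h.Dx hv
  have vy := h.Dy hv
  have sx := D3.sigma q vx
  have hd : D3 ((F.na a : K) / F.na b) := D3_div (h.na3 b)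
  unfold At3.red H698.st
  rw [BB.algebraMap_eq, BB.mul_x, BB.mul_y, BB.star_x, BB.star_y, BB.mk_x, BB.mk_y]
  refine Prod.ext ?_ ?_
  · show toP (redK q h.n3 (_ * q.σ v.x - _ * (0 * _))) = _
    rw [zero_mul, mul_zero, sub_zero]
    push_cast
    rw [redK_mul q h.n3 hd sx, redK_sigma q h.n3 vx, redK_div q h.n3 (h.na3 b)]
    rw [← Nat.cast_mul, toP_natCast, toP_conj]
    push_cast
    rfl
  · show toP (redK q h.n3 (_ * -v.y + 0 * _)) = _
    rw [zero_mul, add_zero]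
    push_cast
    rw [redK_mul q h.n3 hd vy.neg, redK_neg q h.n3 vy, redK_div q h.n3 (h.na3 b)]
    rw [← Nat.cast_mul, toP_natCast, toP_neg]
    push_cast
    rfl

theorem At3.red_one (h : At3 F) : h.red (1 : F.Q) = ((1, 0), (0, 0)) := by
  unfold At3.red
  rw [BB.one_x, BB.one_y]
  have e1 : redK q h.n3 (1 : K) = 1 := by
    have := redK_nat q h.n3 1
    push_cast at this
    exact this
  have e0 : redK q h.n3 (0 : K) = 0 := by
    have := redK_nat q h.n3 0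
    push_cast at this
    exact this
  rw [e1, e0]
  rfl

theorem sq_na (h : At3 F) (i : J) : ((F.na i : ℕ) : ZMod 3) * (F.na i : ZMod 3) = 1 := by
  have h1 := h.na3 i
  have h2 : ((F.na i : ℕ) : ZMod 3) ≠ 0 := by
    rwa [Ne, ZMod.natCast_eq_zero_iff]
  generalize ((F.na i : ℕ) : ZMod 3) = x at h2 ⊢
  revert x
  decide

theorem N_i_mul (a w : F9) (c : ZMod 3) (hc : c * c = 1) (ha : a = ⟨c, 0⟩) :
    (-(F9.i * a * w)).N = w.N := by
  subst ha
  revert c w
  decide +kernel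

theorem At3.N_x (h : At3 F) (i : J) (p : 𝓞 K × 𝓞 K) :
    (redK q h.n3 (F.emb i p).x).N = (q.N p.1 : ZMod 3) := by
  rw [h.red_x, N_i_mul _ _ _ (sq_na h i) (natCast_F9 _), rho_N]

theorem At3.N_y (h : At3 F) (i : J) (p : 𝓞 K × 𝓞 K) :
    (redK q h.n3 (F.emb i p).y).N = (q.N p.2 : ZMod 3) := by
  rw [h.red_y, N_i_mul _ _ _ (sq_na h i) (natCast_F9 _), rho_N]

theorem At3.red_nrm (h : At3 F) {a b : J} {v : F.Q} {m : ℤ} (hv : v ∈ F.I a b)
    (hm : ((F.na a : ℚ) / (F.na b : ℚ)) * QA.nr v = m) :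
    H698.nm (h.red v) = (F.na a : ZMod 3) * (F.na b : ZMod 3) * m := by
  rw [F.mem_I] at hv
  obtain ⟨p, hp, rfl⟩ := hv
  unfold At3.red H698.nm
  simp only
  rw [toP_N, toP_N, h.N_x, h.N_y]
  have ha' : (F.na a : ℚ) ≠ 0 := by exact_mod_cast (F.hna a).ne'
  have hb' : (F.na b : ℚ) ≠ 0 := by exact_mod_cast (F.hna b).ne'
  have hl' : (F.l : ℚ) ≠ 0 := by exact_mod_cast F.hl.ne'
  have hn' : (n : ℚ) ≠ 0 := by exact_mod_cast q.d_pos.ne'
  rw [F.kn, div_eq_iff (by positivity)] at hm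
  have h1 : ((F.l * q.N p.1 + 17 * q.N p.2 : ℤ) : ℚ) =
      ((m * (n * F.l * F.na a * F.na b) : ℤ) : ℚ) := by
    push_cast
    linarith
  have h2 : (F.l * q.N p.1 + 17 * q.N p.2 : ℤ) = m * (n * F.l * F.na a * F.na b) := by
    exact_mod_cast h1
  have h3 := congrArg (Int.cast : ℤ → ZMod 3) h2
  push_cast at h3
  rw [n_zmod3 h.n3, n_zmod3 h.l3] at h3
  have e17 : (17 : ZMod 3) = -1 := by decide
  rw [e17] at h3
  linear_combination h3

theorem F9_unit (c : ZMod 3) (hc : c * c = 1) (w : F9) (h : -(F9.i * ⟨c, 0⟩ * w) = 0) : w = 0 := by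
  revert c w
  decide +kernel

theorem mem_of_three {X : Ideal (𝓞 K)} {a : ℕ} (hX : q.HasN X a) (ha : ¬ 3 ∣ a) {w : 𝓞 K}
    (h : 3 * w ∈ X) : w ∈ X := by
  have hco : Nat.Coprime a 3 :=
    (Nat.coprime_comm.mp ((Nat.Prime.coprime_iff_not_dvd Nat.prime_three).mpr ha))
  obtain ⟨u, v, huv⟩ := Nat.isCoprime_iff_coprime.mpr hco
  have e : w = (u * w) * (a : 𝓞 K) + (v : 𝓞 K) * (3 * w) := by
    have h1 : ((u * a + v * 3 : ℤ) : 𝓞 K) = 1 := by
      have : (u * a + v * 3 : ℤ) = 1 := by exact_mod_cast huv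
      rw [this]; simp
    push_cast at h1
    linear_combination (-w) * h1
  rw [e]
  exact X.add_mem (X.mul_mem_left _ (a_mem q hX)) (X.mul_mem_left _ h)

theorem At3.red_zer (h : At3 F) {a b : J} {v : F.Q} (hv : v ∈ F.I a b) (h0 : h.red v = 0) :
    ∃ v' ∈ F.I a b, v = (3 : ℤ) • v' := by
  rw [F.mem_I] at hv
  obtain ⟨p, hp, rfl⟩ := hv
  have h1 : redK q h.n3 (F.emb a p).x = 0 := toP_inj (congrArg Prod.fst h0)
  have h2 : redK q h.n3 (F.emb a p).y = 0 := toP_inj (congrArg Prod.snd h0)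
  rw [h.red_x, natCast_F9] at h1
  rw [h.red_y, natCast_F9] at h2
  obtain ⟨w1, hw1⟩ := rho_eq_zero q h.n3 (F9_unit _ (sq_na h a) _ h1)
  obtain ⟨w2, hw2⟩ := rho_eq_zero q h.n3 (F9_unit _ (sq_na h a) _ h2)
  have hab : ¬ 3 ∣ F.na a * F.na b := by
    intro h5
    rcases (Nat.Prime.dvd_mul Nat.prime_three).mp h5 with h6 | h6
    · exact h.na3 a h6
    · exact h.na3 b h6
  have hlab : ¬ 3 ∣ F.l * F.na a * F.na b := by
    intro h5
    rw [mul_assoc] at h5
    rcases (Nat.Prime.dvd_mul Nat.prime_three).mp h5 with h6 | h6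
    · have := h.l3; omega
    · exact hab h6
  rw [F.mem_P] at hp
  obtain ⟨p1, p2, p3⟩ := hp
  rw [hw1] at p1 p3
  rw [hw2] at p2 p3
  have hp' : ((w1, w2) : 𝓞 K × 𝓞 K) ∈ F.P a b := by
    rw [F.mem_P]
    refine ⟨mem_of_three (F.hX a b) hab p1, mem_of_three (F.hY a b) hlab p2, ?_⟩
    have hco : Nat.Coprime 3 n :=
      (Nat.Prime.coprime_iff_not_dvd Nat.prime_three).mpr (by have := h.n3; omega)
    apply Fam.cancel hco
    have e : ((3 : ℕ) : 𝓞 K) * ((w1, w2) : 𝓞 K × 𝓞 K).1 + ((3 : ℕ) : 𝓞 K) *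
        (17 * ((w1, w2) : 𝓞 K × 𝓞 K).2) = 3 * w1 + 17 * (3 * w2) := by push_cast; ring
    rw [mul_add, e]
    exact p3
  refine ⟨F.emb a (w1, w2), F.emb_mem.mpr hp', ?_⟩
  rw [← map_zsmul]
  congr 1
  refine Prod.ext ?_ ?_
  · show p.1 = (3 : ℤ) • w1
    rw [hw1, zsmul_eq_mul]; push_cast; rfl
  · show p.2 = (3 : ℤ) • w2
    rw [hw2, zsmul_eq_mul]; push_cast; rfl

end Inst

end Vale.Agent.P014.H581
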