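import Vale.Agent.P017.H185.Cl2

/-!
# Residues modulo the ramified primes of `ℚ(√-n)`
-/

namespace Vale.Agent.P014.H581

open NumberField Vale.Agent.P017.H185 Vale.Agent.P017.H185.QF

variable {K : Type*} [Field K] [NumberField K] {n : ℕ} (q : QF K n)

/-- the trace -/
noncomputable def tr (z : 𝓞 K) : ℤ := (q.exists_trace z).choose

theorem add_s (z : 𝓞 K) : z + q.s z = (tr q z : 𝓞 K) := (q.exists_trace z).choose_spec.1

theorem tr_unique {z : 𝓞 K} {a : ℤ} (h : z + q.s z = (a : 𝓞 K)) : tr q z = a :=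
  intCast_inj' (K := K) ((add_s q z).symm.trans h)

theorem tr_add (z w : 𝓞 K) : tr q (z + w) = tr q z + tr q w := by
  apply tr_unique
  push_cast
  rw [← add_s, ← add_s, map_add]; ring

theorem tr_int (a : ℤ) : tr q (a : 𝓞 K) = 2 * a := by
  apply tr_unique
  push_cast
  rw [map_intCast]; ring

theorem tr_s (z : 𝓞 K) : tr q (q.s z) = tr q z := by
  apply tr_unique
  rw [q.s_s, ← add_s]; ring

theorem tr_t : tr q q.t = 0 := by
  apply tr_unique
  rw [q.s_t]; simp

theorem exists_coords (z : 𝓞 K) : ∃ v : ℤ, 2 * z = (tr q z : 𝓞 K) + v * q.t ∧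
    4 * (q.N z : ℤ) = tr q z ^ 2 + n * v ^ 2 := by
  obtain ⟨a, b, hab, m, hm⟩ := q.int_coords (isInt z)
  have hz : algebraMap (𝓞 K) K z = ((a / 2 : ℚ) : K) + ((b / 2 : ℚ) : K) * q.θ := by
    push_cast; linear_combination (1 / 2 : K) * hab
  have h2 : 2 * z = (a : 𝓞 K) + b * q.t := by
    apply ext'
    rw [map_mul, map_add, map_mul, map_intCast, map_intCast, coe_t, ← hab, map_ofNat]
  have ha : tr q z = a := by
    apply tr_unique
    have h3 := congrArg q.s h2
    rw [map_mul, map_add, map_mul, map_intCast, map_intCast, q.s_t, map_ofNat] at h3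
    have h4 : (2 : 𝓞 K) * (z + q.s z) = 2 * (a : 𝓞 K) := by linear_combination h2 + h3
    exact mul_left_cancel₀ two_ne_zero h4
  refine ⟨b, by rw [ha]; exact h2, ?_⟩
  have h5 : (q.N z : ℚ) = (a / 2) ^ 2 + n * (b / 2) ^ 2 := by
    rw [q.N_eq, hz, q.nm_coords]
  have h6 : (4 * (q.N z : ℤ) : ℚ) = ((a ^ 2 + n * b ^ 2 : ℤ) : ℚ) := by
    push_cast
    linear_combination 4 * h5
  rw [ha]
  exact_mod_cast h6

theorem N_mul (z w : 𝓞 K) : q.N (z * w) = q.N z * q.N w := by
  have : ((q.N (z * w) : ℕ) : 𝓞 K) = ((q.N z * q.N w : ℕ) : 𝓞 K) := by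
    push_cast
    rw [← q.mul_s, ← q.mul_s, ← q.mul_s, map_mul]; ring
  exact_mod_cast this

theorem N_s (z : 𝓞 K) : q.N (q.s z) = q.N z := by
  have : ((q.N (q.s z) : ℕ) : 𝓞 K) = ((q.N z : ℕ) : 𝓞 K) := by
    rw [← q.mul_s, ← q.mul_s, q.s_s]; ring
  exact_mod_cast this

theorem N_nat (a : ℕ) : q.N (a : 𝓞 K) = a ^ 2 := by
  have : ((q.N (a : 𝓞 K) : ℕ) : 𝓞 K) = ((a ^ 2 : ℕ) : 𝓞 K) := by
    rw [← q.mul_s, map_natCast]; push_cast; ring
  exact_mod_cast this

theorem N_t : q.N q.t = n := by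
  have : ((q.N q.t : ℕ) : 𝓞 K) = ((n : ℕ) : 𝓞 K) := by
    rw [← q.mul_s, q.s_t]; linear_combination (-1 : 𝓞 K) * q.t_sq
  exact_mod_cast this

theorem N_eq_zero {z : 𝓞 K} : q.N z = 0 ↔ z = 0 := by
  constructor
  · intro h
    by_contra h0
    exact q.N_ne_zero h0 h
  · rintro rfl
    have : ((q.N (0 : 𝓞 K) : ℕ) : 𝓞 K) = ((0 : ℕ) : 𝓞 K) := by
      rw [← q.mul_s]; simp
    exact_mod_cast this

theorem s_ne_zero {z : 𝓞 K} (h : z ≠ 0) : q.s z ≠ 0 := by
  rw [Ne, map_eq_zero_iff _ q.s.injective]; exact h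

theorem tr_mul (z w : 𝓞 K) : ∃ e : ℤ, 2 * tr q (z * w) = tr q z * tr q w + n * e := by
  obtain ⟨v, hv, -⟩ := exists_coords q z
  obtain ⟨u, hu, -⟩ := exists_coords q w
  refine ⟨-(v * u), ?_⟩
  apply intCast_inj' (K := K)
  push_cast
  rw [← add_s q (z * w)]
  have hv' := congrArg q.s hv
  have hu' := congrArg q.s hu
  rw [map_mul, map_add, map_mul, map_intCast, map_intCast, q.s_t, map_ofNat] at hv' hu'
  rw [map_mul]
  have h4 : (2 : 𝓞 K) * (2 * (z * w + q.s z * q.s w)) =
      2 * (tr q z * tr q w + n * -(v * u)) := by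
    have e1 : (4 : 𝓞 K) * (z * w) = (tr q z + v * q.t) * (tr q w + u * q.t) := by
      rw [← hv, ← hu]; ring
    have e2 : (4 : 𝓞 K) * (q.s z * q.s w) = (tr q z + v * -q.t) * (tr q w + u * -q.t) := by
      rw [← hv', ← hu']; ring
    linear_combination e1 + e2 + 2 * (v : 𝓞 K) * u * q.t_sq
  exact mul_left_cancel₀ two_ne_zero h4

theorem odd_of_dvd (hn : n % 4 = 3) {p : ℕ} (hp : p ∣ n) : ¬ 2 ∣ p := by
  intro h
  have : 2 ∣ n := h.trans hp
  omega

theorem two_unit (hn : n % 4 = 3) {p : ℕ} (hp : p ∣ n) : IsUnit (2 : ZMod p) := by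
  have h : Nat.Coprime 2 p := by
    rw [Nat.Prime.coprime_iff_not_dvd Nat.prime_two]
    exact odd_of_dvd hn hp
  have := (ZMod.unitOfCoprime 2 h).isUnit
  simpa using this

theorem two_mul_inv (hn : n % 4 = 3) {p : ℕ} (hp : p ∣ n) : (2 : ZMod p) * 2⁻¹ = 1 :=
  ZMod.mul_inv_of_unit _ (two_unit hn hp)

/-- the residue modulo the part of the different above the divisor `p` of `n` -/
noncomputable def res (hn : n % 4 = 3) {p : ℕ} (hp : p ∣ n) : 𝓞 K →+* ZMod p where
  toFun z := (tr q z : ZMod p) * 2⁻¹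
  map_one' := by
    have : tr q (1 : 𝓞 K) = 2 := by
      have := tr_int q 1
      simpa using this
    rw [this]
    have := two_mul_inv hn hp
    push_cast
    exact this
  map_zero' := by
    have : tr q (0 : 𝓞 K) = 0 := by
      have := tr_int q 0
      simpa using this
    rw [this]; simp
  map_add' z w := by
    rw [tr_add]; push_cast; ring
  map_mul' z w := by
    obtain ⟨e, he⟩ := tr_mul q z w
    have h1 : (2 : ZMod p) * (tr q (z * w) : ZMod p) = tr q z * tr q w := by
      have h2 : (((2 * tr q (z * w) : ℤ)) : ZMod p) = ((tr q z * tr q w + n * e : ℤ) : ZMod p) := by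
        rw [he]
      have h3 : (n : ZMod p) = 0 := (ZMod.natCast_eq_zero_iff _ _).mpr hp
      push_cast at h2
      rw [h2, h3]; ring
    have h2 := two_mul_inv hn hp
    calc (tr q (z * w) : ZMod p) * 2⁻¹ = ((2 : ZMod p) * 2⁻¹) * ((tr q (z * w) : ZMod p) * 2⁻¹) := by
          rw [h2, one_mul]
      _ = ((2 : ZMod p) * (tr q (z * w) : ZMod p)) * 2⁻¹ * 2⁻¹ := by ring
      _ = _ := by rw [h1]; ring

theorem res_s (hn : n % 4 = 3) {p : ℕ} (hp : p ∣ n) (z : 𝓞 K) :
    res q hn hp (q.s z) = res q hn hp z := by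
  show (tr q (q.s z) : ZMod p) * 2⁻¹ = (tr q z : ZMod p) * 2⁻¹
  rw [tr_s]

theorem res_sq (hn : n % 4 = 3) {p : ℕ} (hp : p ∣ n) (z : 𝓞 K) :
    res q hn hp z ^ 2 = (q.N z : ZMod p) := by
  have h := congrArg (res q hn hp) (q.mul_s z)
  rw [map_mul, res_s, map_natCast] at h
  rw [sq, h]

theorem res_t (hn : n % 4 = 3) {p : ℕ} (hp : p ∣ n) : res q hn hp q.t = 0 := by
  show (tr q q.t : ZMod p) * 2⁻¹ = 0
  rw [tr_t]; simp

theorem res_eq_zero_iff (hn : n % 4 = 3) {p : ℕ} (hp : p ∣ n) (z : 𝓞 K) :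
    res q hn hp z = 0 ↔ (p : ℤ) ∣ tr q z := by
  show (tr q z : ZMod p) * 2⁻¹ = 0 ↔ _
  rw [← ZMod.intCast_zmod_eq_zero_iff_dvd]
  constructor
  · intro h
    have h2 := two_mul_inv hn hp
    calc (tr q z : ZMod p) = (tr q z : ZMod p) * (2 * 2⁻¹) := by rw [h2, mul_one]
      _ = ((tr q z : ZMod p) * 2⁻¹) * 2 := by ring
      _ = 0 := by rw [h, zero_mul]
  · intro h
    rw [h, zero_mul]

theorem t_dvd_iff' (hn : n % 4 = 3) (z : 𝓞 K) : q.t ∣ z ↔ (n : ℤ) ∣ tr q z := by
  constructor
  · rintro ⟨w, rfl⟩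
    rw [← res_eq_zero_iff q hn dvd_rfl, map_mul, res_t, zero_mul]
  · rintro ⟨c, hc⟩
    obtain ⟨v, hv, -⟩ := exists_coords q z
    rw [hc] at hv
    obtain ⟨e, he⟩ : ∃ e : ℕ, n = 2 * e + 1 := ⟨n / 2, by omega⟩
    have hne : (n : 𝓞 K) = 2 * e + 1 := by
      conv_lhs => rw [he]
      push_cast; ring
    refine ⟨(e + 1) * (-q.t * c + v) + q.t * z, ?_⟩
    push_cast at hv
    have ht := q.t_sq
    linear_combination (e + 1 : 𝓞 K) * hv + z * hne + ((e + 1 : 𝓞 K) * c - z) * ht

theorem t_dvd_iff (hn : n % 4 = 3) (z : 𝓞 K) :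
    q.t ∣ z ↔ ∀ p (hp : p ∣ n), p.Prime → res q hn hp z = 0 := by
  rw [t_dvd_iff' q hn]
  constructor
  · intro h p hp _
    rw [res_eq_zero_iff]
    exact (Int.natCast_dvd_natCast.mpr hp).trans h
  · intro h
    have h1 : ∀ p ∈ n.primeFactors, (p : ℤ) ∣ tr q z := by
      intro p hp
      have hp' := Nat.dvd_of_mem_primeFactors hp
      exact (res_eq_zero_iff q hn hp' z).mp (h p hp' (Nat.prime_of_mem_primeFactors hp))
    rw [Int.natCast_dvd]
    have h2 : ∏ p ∈ n.primeFactors, p ∣ (tr q z).natAbs := by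
      refine Finset.prod_primes_dvd _ (fun p hp => (Nat.prime_of_mem_primeFactors hp).prime) ?_
      intro p hp
      exact Int.natCast_dvd.mp (h1 p hp)
    have h3 := Nat.prod_primeFactors_of_squarefree q.hd
    exact dvd_trans (dvd_of_eq h3.symm) h2

/-- the residue of the quotient of `z` by its conjugate -/
theorem res_tw (hn : n % 4 = 3) {p : ℕ} (hp : p ∣ n) (hpp : p.Prime) :
    ∀ (M : ℕ) (z : 𝓞 K), q.N z = M → z ≠ 0 → ∀ α β : 𝓞 K, z * α = q.s z * β →
      res q hn hp α = (-1) ^ padicValNat p M * res q hn hp β := by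
  have := Fact.mk hpp
  intro M
  induction M using Nat.strong_induction_on with
  | _ M ih =>
    intro z hM hz α β h
    have hM0 : M ≠ 0 := by rw [← hM]; exact q.N_ne_zero hz
    by_cases hpM : p ∣ M
    · obtain ⟨v, hv, hv4⟩ := exists_coords q z
      rw [hM] at hv4
      have hpt : (p : ℤ) ∣ tr q z := by
        rw [← res_eq_zero_iff q hn hp]
        have h1 := res_sq q hn hp z
        rw [hM, (ZMod.natCast_eq_zero_iff _ _).mpr hpM] at h1
        exact pow_eq_zero_iff two_ne_zero |>.mp h1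
      have hpp' : Prime (p : ℤ) := Nat.prime_iff_prime_int.mp hpp
      have hodd := odd_of_dvd hn hp
      obtain ⟨n', hn'⟩ := id hp
      have hpn' : ¬ p ∣ n' := by
        rintro ⟨c, hc⟩
        have := q.hd p ⟨c, by rw [hn', hc]; ring⟩
        exact hpp.one_lt.ne' (Nat.isUnit_iff.mp this)
      by_cases hpv : (p : ℤ) ∣ v
      · -- `p ∣ z`
        obtain ⟨a, ha⟩ := hpt
        obtain ⟨b, hb⟩ := hpv
        have h4 : (4 : ℤ) ∣ a ^ 2 + n * b ^ 2 := by
          have h5 : (4 : ℤ) ∣ (p : ℤ) ^ 2 * (a ^ 2 + n * b ^ 2) := ⟨M, by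
            rw [ha, hb] at hv4; rw [hv4]; ring⟩
          have hcop : IsCoprime (4 : ℤ) ((p : ℤ) ^ 2) := by
            have : Nat.Coprime 4 (p ^ 2) := by
              have : Nat.Coprime (2 ^ 2) (p ^ 2) := Nat.Coprime.pow _ _
                ((Nat.Prime.coprime_iff_not_dvd Nat.prime_two).mpr hodd)
              simpa using this
            have := Nat.isCoprime_iff_coprime.mpr this
            exact_mod_cast this
          exact hcop.dvd_of_dvd_mul_left h5
        obtain ⟨y, hy, hy2⟩ := q.of_coords h4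
        obtain ⟨z', hz'⟩ := exists_of_isInt hy
        have hzz : z = p * z' := by
          apply ext'
          rw [map_mul, map_natCast, hz']
          have h6 := congrArg (algebraMap (𝓞 K) K) hv
          rw [map_mul, map_add, map_mul, map_intCast, map_intCast, coe_t, map_ofNat, ha, hb] at h6
          push_cast at h6
          have : (2 : K) * algebraMap (𝓞 K) K z = 2 * (p * y) := by
            rw [h6]; linear_combination (-(p : K)) * hy2
          exact mul_left_cancel₀ two_ne_zero this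
        have hp0 : (p : 𝓞 K) ≠ 0 := by exact_mod_cast hpp.ne_zero
        have hz'0 : z' ≠ 0 := by rintro rfl; exact hz (by rw [hzz, mul_zero])
        have hN : M = p ^ 2 * q.N z' := by rw [← hM, hzz, N_mul, N_nat]
        have hN0 : q.N z' ≠ 0 := q.N_ne_zero hz'0
        have hlt : q.N z' < M := by
          rw [hN]
          have : 1 < p ^ 2 := Nat.one_lt_pow two_ne_zero hpp.one_lt
          exact lt_mul_of_one_lt_left (Nat.pos_of_ne_zero hN0) this
        have h7 : z' * α = q.s z' * β := by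
          apply mul_left_cancel₀ hp0
          rw [hzz, map_mul, map_natCast] at h
          linear_combination h
        rw [ih (q.N z') hlt z' rfl hz'0 α β h7, hN, padicValNat.mul (pow_ne_zero 2 hpp.ne_zero) hN0,
          padicValNat.prime_pow, pow_add]
        norm_num
      · -- `p` exactly divides the norm
        have hpM2 : ¬ p ^ 2 ∣ M := by
          rintro ⟨c, hc⟩
          obtain ⟨a, ha⟩ := hpt
          rw [hc, ha] at hv4
          push_cast at hv4
          have hn'' : (n : ℤ) = p * n' := by exact_mod_cast hn'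
          have hp0 : (p : ℤ) ≠ 0 := by exact_mod_cast hpp.ne_zero
          have h5 : (n' : ℤ) * v ^ 2 = p * (4 * c - a ^ 2) := by
            apply mul_left_cancel₀ hp0
            linear_combination -hv4 - v ^ 2 * hn''
          rcases hpp'.dvd_or_dvd (Dvd.intro _ h5.symm) with h6 | h6
          · exact hpn' (by exact_mod_cast h6)
          · exact hpv (hpp'.dvd_of_dvd_pow h6)
        have hval : padicValNat p M = 1 := by
          have h1 : 1 ≤ padicValNat p M := one_le_padicValNat_of_dvd hM0 hpM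
          have h2 : padicValNat p M < 2 := by
            by_contra hcon
            push Not at hcon
            exact hpM2 ((padicValNat_dvd_iff_le hM0).mpr hcon)
          omega
        rw [hval, pow_one, neg_one_mul, ← sub_eq_zero, sub_neg_eq_add, ← map_add]
        -- `z (α + β) = tr z * β` is divisible by `p`
        have h1 : z * (α + β) = (tr q z : 𝓞 K) * β := by
          rw [← add_s]; linear_combination h
        have h2 : (q.N z : 𝓞 K) * (q.N (α + β) : 𝓞 K) = (tr q z : 𝓞 K) ^ 2 * (q.N β : 𝓞 K) := by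
          have h3 := congrArg q.s h1
          rw [map_mul, map_mul, map_intCast] at h3
          rw [← q.mul_s, ← q.mul_s, ← q.mul_s]
          linear_combination (q.s z * q.s (α + β)) * h1 + (tr q z : 𝓞 K) * β * h3
        have h3 : (q.N z : ℤ) * q.N (α + β) = tr q z ^ 2 * q.N β := by
          apply intCast_inj' (K := K)
          push_cast
          exact h2
        have h4 : (p : ℤ) ∣ q.N (α + β) := by
          obtain ⟨a, ha⟩ := hpt
          obtain ⟨M', hM'⟩ := hpM
          have hpM' : ¬ (p : ℤ) ∣ M' := by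
            rintro hc
            have hc' : p ∣ M' := by exact_mod_cast hc
            obtain ⟨c, hc⟩ := hc'
            exact hpM2 ⟨c, by rw [hM', hc]; ring⟩
          have hp0 : (p : ℤ) ≠ 0 := by exact_mod_cast hpp.ne_zero
          have h5 : (M' : ℤ) * q.N (α + β) = p * (a ^ 2 * q.N β) := by
            apply mul_left_cancel₀ hp0
            rw [hM, hM', ha] at h3
            push_cast at h3
            linear_combination h3
          exact (hpp'.dvd_or_dvd (Dvd.intro _ h5.symm)).resolve_left hpM'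
        have h5 := res_sq q hn hp (α + β)
        have h6 : p ∣ q.N (α + β) := by exact_mod_cast h4
        rw [(ZMod.natCast_eq_zero_iff _ _).mpr h6] at h5
        exact pow_eq_zero_iff two_ne_zero |>.mp h5
    · have hval : padicValNat p M = 0 := padicValNat.eq_zero_of_not_dvd hpM
      rw [hval, pow_zero, one_mul]
      have h1 := congrArg (res q hn hp) h
      rw [map_mul, map_mul, res_s] at h1
      have h2 : res q hn hp z ≠ 0 := by
        intro h0
        have h3 := res_sq q hn hp z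
        rw [h0, hM, sq, zero_mul] at h3
        exact hpM ((ZMod.natCast_eq_zero_iff _ _).mp h3.symm)
      exact mul_left_cancel₀ h2 h1

end Vale.Agent.P014.H581
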