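import Vale.Agent.P014.H581.F9
import Vale.Agent.P014.H70.Ide

/-!
# Reduction modulo `3` when `3` is inert
-/

namespace Vale.Agent.P014.H581

open NumberField Vale.Agent.P017.H185 Vale.Agent.P017.H185.QF Vale.Agent.P014.H70

variable {K : Type*} [Field K] [NumberField K] {n : ℕ} (q : QF K n)

theorem crd_s (z : 𝓞 K) : crd q (q.s z) = ((crd q z).1, -(crd q z).2) := by
  apply crd_eq
  have h1 := crd_spec q z
  have h2 := congrArg q.σ h1
  rw [map_mul, map_add, map_mul, q.hσ] at h2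
  simp only [map_intCast, map_ofNat] at h2
  rw [QF.coe_s, h2]
  push_cast
  ring

theorem crd_one : crd q (1 : 𝓞 K) = (2, 0) := by
  apply crd_eq
  rw [map_one]; push_cast; ring

theorem crd_t : crd q q.t = (0, 2) := by
  apply crd_eq
  rw [QF.coe_t]; push_cast; ring

theorem crd_mul (z w : 𝓞 K) :
    2 * (crd q (z * w)).1 = (crd q z).1 * (crd q w).1 - n * ((crd q z).2 * (crd q w).2) ∧
    2 * (crd q (z * w)).2 = (crd q z).1 * (crd q w).2 + (crd q z).2 * (crd q w).1 := by
  have h1 := crd_spec q z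
  have h2 := crd_spec q w
  have h3 := crd_spec q (z * w)
  rw [map_mul] at h3
  have hθ := q.hθ
  have key : (((2 * (crd q (z * w)).1 - ((crd q z).1 * (crd q w).1 -
      n * ((crd q z).2 * (crd q w).2)) : ℤ) : ℚ) : K) +
      (((2 * (crd q (z * w)).2 - ((crd q z).1 * (crd q w).2 + (crd q z).2 * (crd q w).1) : ℤ) : ℚ) : K)
        * q.θ = 0 := by
    push_cast
    linear_combination (-2 : K) * h3 + (2 * (algebraMap (𝓞 K) K) w) * h1 +
      (((crd q z).1 : K) + (crd q z).2 * q.θ) * h2 + ((crd q z).2 * (crd q w).2 : K) * hθ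
  obtain ⟨h4, h5⟩ := q.uniq key
  have h6 : 2 * (crd q (z * w)).1 - ((crd q z).1 * (crd q w).1 -
      n * ((crd q z).2 * (crd q w).2)) = 0 := by exact_mod_cast h4
  have h7 : 2 * (crd q (z * w)).2 - ((crd q z).1 * (crd q w).2 + (crd q z).2 * (crd q w).1) = 0 := by
    exact_mod_cast h5
  constructor <;> linarith

/-- the reduction modulo `3` as a function -/
noncomputable def rhoF (z : 𝓞 K) : F9 := ⟨-((crd q z).1 : ZMod 3), -((crd q z).2 : ZMod 3)⟩

theorem n_zmod3 {n : ℕ} (h3 : n % 3 = 1) : (n : ZMod 3) = 1 := by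
  have : (n : ZMod 3) = ((n % 3 : ℕ) : ZMod 3) := by rw [ZMod.natCast_mod]
  rw [this, h3]; norm_num

theorem two_eq : (2 : ZMod 3) = -1 := by decide

/-- **the reduction modulo `3`** -/
noncomputable def rho (h3 : n % 3 = 1) : 𝓞 K →+* F9 where
  toFun := rhoF q
  map_zero' := by
    unfold rhoF
    rw [crd_zero]
    ext <;> simp
  map_one' := by
    unfold rhoF
    rw [crd_one]
    ext
    · simp only [F9.one_re]; push_cast; rw [two_eq]; ring
    · simp
  map_add' z w := by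
    unfold rhoF
    rw [crd_add]
    ext
    · simp only [F9.add_re, Prod.fst_add]; push_cast; ring
    · simp only [F9.add_im, Prod.snd_add]; push_cast; ring
  map_mul' z w := by
    obtain ⟨h1, h2⟩ := crd_mul q z w
    have h1' := congrArg (Int.cast : ℤ → ZMod 3) h1
    have h2' := congrArg (Int.cast : ℤ → ZMod 3) h2
    push_cast at h1' h2'
    rw [n_zmod3 h3, two_eq] at h1'
    rw [two_eq] at h2'
    unfold rhoF
    ext
    · simp only [F9.mul_re]
      linear_combination h1'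
    · simp only [F9.mul_im]
      linear_combination h2'

theorem rho_apply (h3 : n % 3 = 1) (z : 𝓞 K) :
    rho q h3 z = ⟨-((crd q z).1 : ZMod 3), -((crd q z).2 : ZMod 3)⟩ := rfl

theorem rho_t (h3 : n % 3 = 1) : rho q h3 q.t = F9.i := by
  rw [rho_apply, crd_t]
  decide

theorem rho_s (h3 : n % 3 = 1) (z : 𝓞 K) : rho q h3 (q.s z) = (rho q h3 z).conj := by
  rw [rho_apply, rho_apply, crd_s]
  ext
  · rfl
  · simp only [F9.conj_im]; push_cast; ring

theorem rho_N (h3 : n % 3 = 1) (z : 𝓞 K) : (rho q h3 z).N = (q.N z : ZMod 3) := by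
  have h := congrArg (Int.cast : ℤ → ZMod 3) (two_N q z)
  push_cast at h
  rw [n_zmod3 h3, two_eq] at h
  rw [rho_apply]
  unfold F9.N
  linear_combination -h

theorem rho_eq_zero (h3 : n % 3 = 1) {z : 𝓞 K} (h : rho q h3 z = 0) : ∃ w : 𝓞 K, z = 3 * w := by
  rw [rho_apply] at h
  have h1 := congrArg F9.re h
  have h2 := congrArg F9.im h
  simp only [F9.zero_re, F9.zero_im, neg_eq_zero] at h1 h2
  obtain ⟨a, ha⟩ := (ZMod.intCast_zmod_eq_zero_iff_dvd _ 3).mp h1
  obtain ⟨b, hb⟩ := (ZMod.intCast_zmod_eq_zero_iff_dvd _ 3).mp h2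
  push_cast at ha hb
  have h4 := two_N q z
  rw [ha, hb] at h4
  obtain ⟨w, hw, hw2⟩ := q.of_coords (a := a) (b := b) (by
    have h5 : (4 : ℤ) ∣ 9 * (a ^ 2 + n * b ^ 2) := ⟨q.N z, by linarith [h4]⟩
    exact (Int.isCoprime_iff_gcd_eq_one.mpr (by norm_num) : IsCoprime (4 : ℤ) 9).dvd_of_dvd_mul_left h5)
  obtain ⟨w', hw'⟩ := QF.exists_of_isInt hw
  refine ⟨w', ?_⟩
  apply QF.ext'
  rw [map_mul, map_ofNat, hw']
  have h6 := crd_spec q z
  rw [ha, hb] at h6
  push_cast at h6
  apply mul_left_cancel₀ (two_ne_zero (α := K))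
  linear_combination h6 - 3 * hw2

theorem rho_three (h3 : n % 3 = 1) (w : 𝓞 K) : rho q h3 (3 * w) = 0 := by
  rw [map_mul, map_ofNat, F9.three, zero_mul]

end Vale.Agent.P014.H581
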