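import Vale.Agent.P014.H581.NumId

/-!
# The group of divisors of `n` and the genus characters
-/

namespace Vale.Agent.P014.H581

open NumberField Vale.Agent.P017.H185 Vale.Agent.P017.H185.QF
open scoped Classical

theorem sd_decomp {n A B : ℕ} (hn : Squarefree n) (hA : A ∣ n) (hB : B ∣ n) :
    ∃ g a b : ℕ, A = g * a ∧ B = g * b ∧ sd A B = a * b ∧ g ≠ 0 ∧ a ≠ 0 ∧ b ≠ 0 ∧
      Nat.Coprime g a ∧ Nat.Coprime g b ∧ Nat.Coprime a b := by
  have hA0 : A ≠ 0 := fun h => hn.ne_zero (Nat.eq_zero_of_zero_dvd (h ▸ hA))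
  have hB0 : B ≠ 0 := fun h => hn.ne_zero (Nat.eq_zero_of_zero_dvd (h ▸ hB))
  have hg0 : 0 < A.gcd B := Nat.gcd_pos_of_pos_left _ (Nat.pos_of_ne_zero hA0)
  obtain ⟨a, ha⟩ := Nat.gcd_dvd_left A B
  obtain ⟨b, hb⟩ := Nat.gcd_dvd_right A B
  have hsA : Squarefree A := hn.squarefree_of_dvd hA
  have hsB : Squarefree B := hn.squarefree_of_dvd hB
  have hab : Nat.Coprime a b := by
    have h1 := Nat.coprime_div_gcd_div_gcd hg0
    have h2 : A / A.gcd B = a := Nat.div_eq_of_eq_mul_right hg0 ha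
    have h3 : B / A.gcd B = b := Nat.div_eq_of_eq_mul_right hg0 hb
    rwa [h2, h3] at h1
  refine ⟨A.gcd B, a, b, ha, hb, ?_, hg0.ne', ?_, ?_, ?_, ?_, hab⟩
  · unfold sd
    have h4 : A.lcm B = A.gcd B * (a * b) := by
      have h5 := Nat.gcd_mul_lcm A B
      apply Nat.eq_of_mul_eq_mul_left hg0
      calc A.gcd B * A.lcm B = A * B := h5
        _ = (A.gcd B * a) * (A.gcd B * b) := by rw [← ha, ← hb]
        _ = _ := by ring
    rw [h4]
    exact Nat.mul_div_cancel_left _ hg0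
  · rintro rfl; exact hA0 (by rw [ha, mul_zero])
  · rintro rfl; exact hB0 (by rw [hb, mul_zero])
  · exact Nat.coprime_of_squarefree_mul (ha ▸ hsA)
  · exact Nat.coprime_of_squarefree_mul (hb ▸ hsB)

theorem sd_comm (A B : ℕ) : sd A B = sd B A := by
  unfold sd
  rw [Nat.lcm_comm, Nat.gcd_comm]

theorem sd_of_coprime (g a b : ℕ) (hg : g ≠ 0) (hab : Nat.Coprime a b) :
    sd (g * a) (g * b) = a * b := by
  unfold sd
  rw [Nat.gcd_mul_left, hab.gcd_eq_one, mul_one, Nat.lcm_mul_left, hab.lcm_eq_mul]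
  exact Nat.mul_div_cancel_left _ (Nat.pos_of_ne_zero hg)

theorem sd_dvd {n A B : ℕ} (hn : Squarefree n) (hA : A ∣ n) (hB : B ∣ n) : sd A B ∣ n := by
  obtain ⟨g, a, b, h1, h2, h3, hg, ha, hb, hga, hgb, hab⟩ := sd_decomp hn hA hB
  rw [h3]
  exact hab.mul_dvd_of_dvd_of_dvd ((Dvd.intro_left g h1.symm).trans hA)
    ((Dvd.intro_left g h2.symm).trans hB)

theorem sd_sd {n A B : ℕ} (hn : Squarefree n) (hA : A ∣ n) (hB : B ∣ n) : sd (sd A B) B = A := by
  obtain ⟨g, a, b, h1, h2, h3, hg, ha, hb, hga, hgb, hab⟩ := sd_decomp hn hA hB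
  rw [h3, h2, mul_comm a b, mul_comm g b, sd_of_coprime b a g hb hga.symm, h1, mul_comm]

theorem jac_sd {n A B m : ℕ} (hn : Squarefree n) (hA : A ∣ n) (hB : B ∣ n) (hm : Nat.Coprime m n) :
    jacobiSym m (sd A B) = jacobiSym m A * jacobiSym m B := by
  obtain ⟨g, a, b, h1, h2, h3, hg, ha, hb, hga, hgb, hab⟩ := sd_decomp hn hA hB
  have : NeZero g := ⟨hg⟩
  have : NeZero a := ⟨ha⟩
  have : NeZero b := ⟨hb⟩
  have h4 : jacobiSym m g ^ 2 = 1 := by
    apply jac_sq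
    exact Nat.Coprime.coprime_dvd_right ((Dvd.intro a h1.symm).trans hA) hm
  rw [h3, h1, h2, jacobiSym.mul_right, jacobiSym.mul_right, jacobiSym.mul_right]
  calc jacobiSym m a * jacobiSym m b = jacobiSym m g ^ 2 * (jacobiSym m a * jacobiSym m b) := by
        rw [h4, one_mul]
    _ = _ := by ring

/-- the complement -/
theorem sd_compl {n A B C : ℕ} (hn : Squarefree n) (hA : A ∣ n) (hBC : B * C = n) :
    sd A B * sd A C = n := by
  have hn0 := hn.ne_zero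
  have hB0 : B ≠ 0 := by rintro rfl; exact hn0 (by rw [← hBC, zero_mul])
  have hC0 : C ≠ 0 := by rintro rfl; exact hn0 (by rw [← hBC, mul_zero])
  have hcoBC : Nat.Coprime B C := Nat.coprime_of_squarefree_mul (hBC ▸ hn)
  -- `A = b c`, `b ∣ B`, `c ∣ C`
  obtain ⟨b, c, hb, hc, hA'⟩ := (Nat.dvd_mul).mp (hBC ▸ hA : A ∣ B * C)
  obtain ⟨b', hb'⟩ := hb
  obtain ⟨c', hc'⟩ := hc
  have hbb' : Nat.Coprime b b' := by
    have : Squarefree B := hn.squarefree_of_dvd ⟨C, hBC.symm⟩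
    exact Nat.coprime_of_squarefree_mul (hb' ▸ this)
  have hcc' : Nat.Coprime c c' := by
    have : Squarefree C := hn.squarefree_of_dvd ⟨B, by rw [← hBC]; ring⟩
    exact Nat.coprime_of_squarefree_mul (hc' ▸ this)
  have hb0 : b ≠ 0 := by rintro rfl; exact hB0 (by rw [hb', zero_mul])
  have hc0 : c ≠ 0 := by rintro rfl; exact hC0 (by rw [hc', zero_mul])
  have h1 : Nat.Coprime c b' := Nat.Coprime.coprime_dvd_left ⟨c', hc'⟩
    (Nat.Coprime.coprime_dvd_right ⟨b, by rw [hb']; ring⟩ hcoBC.symm)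
  have h2 : Nat.Coprime b c' := Nat.Coprime.coprime_dvd_left ⟨b', hb'⟩
    (Nat.Coprime.coprime_dvd_right ⟨c, by rw [hc']; ring⟩ hcoBC)
  rw [← hA']
  have e1 : sd (b * c) B = c * b' := by
    rw [hb']; exact sd_of_coprime b c b' hb0 h1
  have e2 : sd (b * c) C = b * c' := by
    rw [hc', mul_comm b c]; exact sd_of_coprime c b c' hc0 h2
  rw [e1, e2, ← hBC, hb', hc']
  ring

variable {K : Type*} [Field K] [NumberField K] {n : ℕ} (q : QF K n)

theorem chi_sd (hn : n % 4 = 3) {A B : ℕ} (hA : A ∣ n) (hB : B ∣ n) (C : ClassGroup (𝓞 K)) :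
    chi q (sd A B) C = chi q A C * chi q B C := by
  obtain ⟨I, m, h1, rfl, h3, h4⟩ := exists_coprime q C (n_ne_zero q)
  rw [chi_cl q hn (sd_dvd q.hd hA hB) h1 h3 h4, chi_cl q hn hA h1 h3 h4, chi_cl q hn hB h1 h3 h4,
    jac_sd q.hd hA hB h4]

theorem chi_V1 (C : ClassGroup (𝓞 K)) : chi q 1 C = 1 := by
  unfold chi
  exact jacobiSym.one_right _

theorem chi_Vn (hn : n % 4 = 3) (C : ClassGroup (𝓞 K)) : chi q n C = 1 := by
  rw [← chi_compl q hn (one_mul n), chi_V1]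

theorem chi_pm (hn : n % 4 = 3) {V : ℕ} (hV : V ∣ n) (C : ClassGroup (𝓞 K)) :
    chi q V C = 1 ∨ chi q V C = -1 := mul_self_eq_one_iff.mp (by rw [← sq]; exact chi_sq q hn hV C)

end Vale.Agent.P014.H581
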