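import Vale.Agent.P014.H581.Elt

/-!
# Shifting the gluing condition by ambiguous classes
-/

namespace Vale.Agent.P014.H581

open NumberField Vale.Agent.P017.H185 Vale.Agent.P017.H185.QF
open scoped Classical

variable {K : Type*} [Field K] [NumberField K] {n : ℕ} (q : QF K n)

/-- the gluing condition with signs -/
def Gl (hn : n % 4 = 3) (S : Finset ℕ) (l : ℕ) (x y : 𝓞 K) : Prop :=
  ∀ p (hp : p ∣ n), p.Prime →
    res q hn hp y = (if p ∈ S then -1 else 1) * (l * res q hn hp x)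

/-- the pairs -/
noncomputable def Zc (hn : n % 4 = 3) (S : Finset ℕ) (l : ℕ) (X Y : Ideal (𝓞 K)) (c d : ℕ) :
    Finset (𝓞 K × 𝓞 K) :=
  (((elem q c).filter fun x => x ∈ X) ×ˢ ((elem q d).filter fun y => y ∈ Y)).filter
    fun p => Gl q hn S l p.1 p.2

theorem mem_Zc (hn : n % 4 = 3) {S : Finset ℕ} {l : ℕ} {X Y : Ideal (𝓞 K)} {c d : ℕ}
    {p : 𝓞 K × 𝓞 K} : p ∈ Zc q hn S l X Y c d ↔
      ((q.N p.1 = c ∧ p.1 ∈ X) ∧ (q.N p.2 = d ∧ p.2 ∈ Y)) ∧ Gl q hn S l p.1 p.2 := by
  unfold Zc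
  rw [Finset.mem_filter, Finset.mem_product, Finset.mem_filter, Finset.mem_filter, mem_elem,
    mem_elem]

omit [NumberField K] in
theorem transport {X X' : Ideal (𝓞 K)} {u w : 𝓞 K} (h : Ideal.span {u} * X' = Ideal.span {w} * X)
    {x : 𝓞 K} (hx : x ∈ X) : ∃ x' ∈ X', u * x' = w * x := by
  have h1 : w * x ∈ Ideal.span {u} * X' := by
    rw [h]
    exact Ideal.mul_mem_mul (Ideal.mem_span_singleton_self _) hx
  rw [Ideal.mem_span_singleton_mul] at h1
  exact h1

theorem transport_N {X X' : Ideal (𝓞 K)} {a a' : ℕ} {u w : 𝓞 K} (hu : u ≠ 0)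
    (hX : q.HasN X a) (hX' : q.HasN X' a') (h : Ideal.span {u} * X' = Ideal.span {w} * X)
    {x x' : 𝓞 K} (hx : u * x' = w * x) {M : ℕ} (hN : q.N x = M * a) : q.N x' = M * a' := by
  have h1 : q.N u * a' = q.N w * a := by
    have h2 := (q.hasN_span u).mul hX'
    rw [h] at h2
    exact q.hasN_unique h2 ((q.hasN_span w).mul hX)
  have h3 : q.N u * q.N x' = q.N w * q.N x := by rw [← N_mul, ← N_mul, hx]
  apply Nat.eq_of_mul_eq_mul_left (Nat.pos_of_ne_zero (q.N_ne_zero hu))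
  rw [h3, hN]
  calc q.N w * (M * a) = M * (q.N w * a) := by ring
    _ = M * (q.N u * a') := by rw [h1]
    _ = _ := by ring

theorem pm_sq (b : Prop) [Decidable b] {R : Type*} [CommRing R] :
    (if b then (-1 : R) else 1) * (if b then (-1 : R) else 1) = 1 := by
  split_ifs <;> ring

/-- the parity of the valuation -/
theorem parity {p x y b b' r : ℕ} (hp : p.Prime) (hx : x ≠ 0) (hy : y ≠ 0) (hr : r ≠ 0)
    (hb : ¬ p ∣ b) (hb' : ¬ p ∣ b') (h : x * b' = y * (b * r)) :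
    padicValNat p (x * y) = 2 * padicValNat p y + padicValNat p r := by
  have : Fact p.Prime := ⟨hp⟩
  have hb0 : b ≠ 0 := by rintro rfl; exact hb (dvd_zero _)
  have hb'0 : b' ≠ 0 := by rintro rfl; exact hb' (dvd_zero _)
  have h1 := congrArg (padicValNat p) h
  rw [padicValNat.mul hx hb'0, padicValNat.mul hy (mul_ne_zero hb0 hr), padicValNat.mul hb0 hr,
    padicValNat.eq_zero_of_not_dvd hb, padicValNat.eq_zero_of_not_dvd hb'] at h1
  rw [padicValNat.mul hx hy]
  omega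

/-- **the shift** -/
theorem shift (hn : n % 4 = 3) (h17 : ¬ 17 ∣ n) {A B A' B' L : Ideal (𝓞 K)} {a b a' b' l : ℕ}
    (hA : q.HasN A a) (hB : q.HasN B b) (hA' : q.HasN A' a') (hB' : q.HasN B' b')
    (hL : q.HasN L l) (hA0 : A ≠ ⊥) (hB0 : B ≠ ⊥) (hA'0 : A' ≠ ⊥) (hB'0 : B' ≠ ⊥)
    (ha : Nat.Coprime a n) (hb : Nat.Coprime b n) (ha' : Nat.Coprime a' n)
    (hb' : Nat.Coprime b' n) {S : Finset ℕ} (hS : S ⊆ n.primeFactors)
    (hAc : cl A' = cl A * cl (am q (∏ p ∈ S, p))) (hBc : cl B' = cl B * cl (am q (∏ p ∈ S, p)))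
    {M k m : ℕ} (hMk : M + 17 * k = m * n) :
    (Zc q hn ∅ l (A'.map q.s * B') (L.map q.s * (A'.map q.s * B'.map q.s)) (M * (a' * b'))
      (k * (l * (a' * b')))).card =
    (Zc q hn S l (A.map q.s * B) (L.map q.s * (A.map q.s * B.map q.s)) (M * (a * b))
      (k * (l * (a * b)))).card := by
  obtain ⟨r, hr⟩ : ∃ r, r = ∏ p ∈ S, p := ⟨_, rfl⟩
  rw [← hr] at hAc hBc
  have hrn : r ∣ n := by
    rw [hr, ← Nat.prod_primeFactors_of_squarefree q.hd]
    exact Finset.prod_dvd_prod_of_subset _ _ _ hS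
  have hr0 : r ≠ 0 := fun h => n_ne_zero q (Nat.eq_zero_of_zero_dvd (h ▸ hrn))
  have hvr : ∀ p, p ∣ n → p.Prime → padicValNat p r = if p ∈ S then 1 else 0 := by
    intro p hpn hp
    have hpf : Fact p.Prime := ⟨hp⟩
    split_ifs with hpS
    · have h1 : p ∣ r := by rw [hr]; exact Finset.dvd_prod_of_mem _ hpS
      have h2 : 1 ≤ padicValNat p r := one_le_padicValNat_of_dvd hr0 h1
      have h3 : padicValNat p r < 2 := by
        by_contra hcon
        push Not at hcon
        have h4 := (padicValNat_dvd_iff_le hr0).mpr hcon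
        have h5 := q.hd p (by rw [← sq]; exact h4.trans hrn)
        exact hp.one_lt.ne' (Nat.isUnit_iff.mp h5)
      omega
    · apply padicValNat.eq_zero_of_not_dvd
      intro h1
      rw [hr] at h1
      obtain ⟨p', hp', hpp'⟩ := (Nat.Prime.prime hp).exists_mem_finset_dvd h1
      have := (Nat.prime_dvd_prime_iff_eq hp (Nat.prime_of_mem_primeFactors (hS hp'))).mp hpp'
      exact hpS (this ▸ hp')
  -- the elements
  have hJ0 := am_ne q r
  rw [← cl_mul hA0 hJ0, cl_eq_iff hA'0 (mul_ne_bot hA0 hJ0)] at hAc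
  rw [← cl_mul hB0 hJ0, cl_eq_iff hB'0 (mul_ne_bot hB0 hJ0)] at hBc
  obtain ⟨x0, y0, hx0, hy0, hxy0⟩ := hAc
  obtain ⟨x1, y1, hx1, hy1, hxy1⟩ := hBc
  have hJN := am_hasN q hrn
  have hxy0' : Ideal.span {q.s x0} * A'.map q.s = Ideal.span {q.s y0} * (A.map q.s * am q r) := by
    have := congrArg (Ideal.map q.s) hxy0
    rwa [Ideal.map_mul, Ideal.map_mul, Ideal.map_mul, Ideal.map_span, Ideal.map_span,
      Set.image_singleton, Set.image_singleton, am_map] at this
  have hxy1' : Ideal.span {q.s x1} * B'.map q.s = Ideal.span {q.s y1} * (B.map q.s * am q r) := by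
    have := congrArg (Ideal.map q.s) hxy1
    rwa [Ideal.map_mul, Ideal.map_mul, Ideal.map_mul, Ideal.map_span, Ideal.map_span,
      Set.image_singleton, Set.image_singleton, am_map] at this
  have hsx0 := s_ne_zero q hx0
  have hsy0 := s_ne_zero q hy0
  have hsx1 := s_ne_zero q hx1
  have hsy1 := s_ne_zero q hy1
  have hrO : (r : 𝓞 K) ≠ 0 := by exact_mod_cast hr0
  -- norms
  have hnorm : q.N x1 * b' = q.N y1 * (b * r) := by
    have h2 := (q.hasN_span x1).mul hB'
    rw [hxy1] at h2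
    exact q.hasN_unique h2 ((q.hasN_span y1).mul (hB.mul hJN))
  -- the two multipliers
  obtain ⟨u, hu⟩ : ∃ u, u = q.s x0 * x1 := ⟨_, rfl⟩
  obtain ⟨w, hw⟩ : ∃ w, w = r * (q.s y0 * y1) := ⟨_, rfl⟩
  obtain ⟨u2, hu2⟩ : ∃ u, u = q.s x0 * q.s x1 := ⟨_, rfl⟩
  obtain ⟨w2, hw2⟩ : ∃ w, w = r * (q.s y0 * q.s y1) := ⟨_, rfl⟩
  have hu0 : u ≠ 0 := by rw [hu]; exact mul_ne_zero hsx0 hx1
  have hw0 : w ≠ 0 := by rw [hw]; exact mul_ne_zero hrO (mul_ne_zero hsy0 hy1)
  have hu20 : u2 ≠ 0 := by rw [hu2]; exact mul_ne_zero hsx0 hsx1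
  have hw20 : w2 ≠ 0 := by rw [hw2]; exact mul_ne_zero hrO (mul_ne_zero hsy0 hsy1)
  have hX : Ideal.span {u} * (A'.map q.s * B') = Ideal.span {w} * (A.map q.s * B) := by
    rw [hu, hw, ← Ideal.span_singleton_mul_span_singleton, ← Ideal.span_singleton_mul_span_singleton,
      ← Ideal.span_singleton_mul_span_singleton, mul_mul_mul_comm, hxy0', hxy1, ← am_sq q hrn]
    ring
  have hY : Ideal.span {u2} * (L.map q.s * (A'.map q.s * B'.map q.s)) =
      Ideal.span {w2} * (L.map q.s * (A.map q.s * B.map q.s)) := by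
    rw [mul_left_comm, mul_left_comm (Ideal.span {w2})]
    congr 1
    rw [hu2, hw2, ← Ideal.span_singleton_mul_span_singleton,
      ← Ideal.span_singleton_mul_span_singleton,
      ← Ideal.span_singleton_mul_span_singleton, mul_mul_mul_comm, hxy0', hxy1', ← am_sq q hrn]
    ring
  have hXN := (hasN_map q hA).mul hB
  have hX'N := (hasN_map q hA').mul hB'
  have hYN := (hasN_map q hL).mul ((hasN_map q hA).mul (hasN_map q hB))
  have hY'N := (hasN_map q hL).mul ((hasN_map q hA').mul (hasN_map q hB'))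
  -- the gluing
  have hglue : ∀ {x y x' y' : 𝓞 K}, u * x' = w * x → u2 * y' = w2 * y → q.N x = M * (a * b) →
      q.N y = k * (l * (a * b)) → (Gl q hn ∅ l x' y' ↔ Gl q hn S l x y) := by
    intro x y x' y' e1 e2 n1 n2
    have n1' := transport_N q hu0 hXN hX'N hX e1 n1
    have n2' := transport_N q hu20 hYN hY'N hY e2 n2
    -- the relation
    have hz0 : q.s x1 * y1 ≠ 0 := mul_ne_zero hsx1 hy1
    have hz : (q.s x1 * y1) * (x * y') = q.s (q.s x1 * y1) * (x' * y) := by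
      have hc0 : q.s x0 * (x1 * q.s x1) ≠ 0 := mul_ne_zero hsx0 (mul_ne_zero hx1 hsx1)
      have hd0 : (r : 𝓞 K) * q.s y0 ≠ 0 := mul_ne_zero hrO hsy0
      apply mul_left_cancel₀ (mul_ne_zero hc0 hd0)
      rw [map_mul, q.s_s]
      rw [hu, hw] at e1
      rw [hu2, hw2] at e2
      linear_combination (-(x1 * (r * q.s y0) * (q.s y1 * q.s x1) * y)) * e1 +
        (x1 * (r * q.s y0) * (q.s x1 * y1) * x) * e2
    unfold Gl
    refine forall_congr' fun p => forall_congr' fun hp => forall_congr' fun hpp => ?_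
    have hpf : Fact p.Prime := ⟨hpp⟩
    rw [if_neg (Finset.notMem_empty p), one_mul]
    have hpa : ¬ p ∣ a := fun h => hpp.one_lt.ne' (Nat.dvd_one.mp (ha ▸ Nat.dvd_gcd h hp))
    have hpb : ¬ p ∣ b := fun h => hpp.one_lt.ne' (Nat.dvd_one.mp (hb ▸ Nat.dvd_gcd h hp))
    have hpa' : ¬ p ∣ a' := fun h => hpp.one_lt.ne' (Nat.dvd_one.mp (ha' ▸ Nat.dvd_gcd h hp))
    have hpb' : ¬ p ∣ b' := fun h => hpp.one_lt.ne' (Nat.dvd_one.mp (hb' ▸ Nat.dvd_gcd h hp))
    have hz2 := res_tw q hn hp hpp _ _ rfl hz0 _ _ hz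
    have hpar : padicValNat p (q.N (q.s x1 * y1)) =
        2 * padicValNat p (q.N y1) + padicValNat p r := by
      rw [N_mul, N_s]
      exact parity hpp (q.N_ne_zero hx1) (q.N_ne_zero hy1) hr0 hpb hpb' hnorm
    have hsign : ((-1 : ZMod p)) ^ padicValNat p (q.N (q.s x1 * y1)) = if p ∈ S then -1 else 1 := by
      rw [hpar, pow_add, pow_mul, neg_one_sq, one_pow, one_mul, hvr p hp hpp]
      split_ifs <;> simp
    rw [hsign, map_mul, map_mul] at hz2
    by_cases hpM : p ∣ M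
    · -- everything vanishes
      have hpk : p ∣ k := by
        have h1 : p ∣ 17 * k := by
          have h2 : p ∣ M + 17 * k := by rw [hMk]; exact Dvd.dvd.mul_left hp m
          exact (Nat.dvd_add_right hpM).mp h2
        rcases (Nat.Prime.dvd_mul hpp).mp h1 with h | h
        · have h17' : p = 17 := (Nat.prime_dvd_prime_iff_eq hpp (by norm_num)).mp h
          exact absurd (h17' ▸ hp) h17
        · exact h
      have v1 : ∀ {z : 𝓞 K} {c d : ℕ}, q.N z = c * d → p ∣ c → res q hn hp z = 0 := by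
        intro z c d hz hc
        have h1 := res_sq q hn hp z
        rw [hz, (ZMod.natCast_eq_zero_iff _ _).mpr (Dvd.dvd.mul_right hc d)] at h1
        exact pow_eq_zero_iff two_ne_zero |>.mp h1
      rw [v1 n1 hpM, v1 n2 hpk, v1 n1' hpM, v1 n2' hpk]
      simp
    · have hx : res q hn hp x ≠ 0 := by
        intro h0
        have h1 := res_sq q hn hp x
        rw [h0, n1, sq, zero_mul] at h1
        have h2 := (ZMod.natCast_eq_zero_iff _ _).mp h1.symm
        rcases (Nat.Prime.dvd_mul hpp).mp h2 with h | h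
        · exact hpM h
        · rcases (Nat.Prime.dvd_mul hpp).mp h with h | h
          · exact hpa h
          · exact hpb h
      have hx' : res q hn hp x' ≠ 0 := by
        intro h0
        have h1 := res_sq q hn hp x'
        rw [h0, n1', sq, zero_mul] at h1
        have h2 := (ZMod.natCast_eq_zero_iff _ _).mp h1.symm
        rcases (Nat.Prime.dvd_mul hpp).mp h2 with h | h
        · exact hpM h
        · rcases (Nat.Prime.dvd_mul hpp).mp h with h | h
          · exact hpa' h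
          · exact hpb' h
      have hpm := pm_sq (p ∈ S) (R := ZMod p)
      constructor
      · intro h
        rw [h] at hz2
        apply mul_left_cancel₀ hx'
        linear_combination (-(if p ∈ S then (-1 : ZMod p) else 1)) * hz2 -
          (res q hn hp x' * res q hn hp y) * hpm
      · intro h
        rw [h] at hz2
        apply mul_left_cancel₀ hx
        linear_combination hz2 + (res q hn hp x' * (l * res q hn hp x)) * hpm
  -- the bijection
  symm
  have hfx : ∀ x ∈ A.map q.s * B, ∃ x' ∈ A'.map q.s * B', u * x' = w * x := fun x hx => transport hX hx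
  have hfy : ∀ y ∈ L.map q.s * (A.map q.s * B.map q.s),
      ∃ y' ∈ L.map q.s * (A'.map q.s * B'.map q.s), u2 * y' = w2 * y := fun y hy => transport hY hy
  choose! fx hfx1 hfx2 using hfx
  choose! fy hfy1 hfy2 using hfy
  refine Finset.card_bij (fun p _ => (fx p.1, fy p.2)) ?_ ?_ ?_
  · rintro ⟨x, y⟩ hp
    rw [mem_Zc] at hp ⊢
    obtain ⟨⟨⟨h1, h2⟩, h3, h4⟩, h5⟩ := hp
    exact ⟨⟨⟨transport_N q hu0 hXN hX'N hX (hfx2 x h2) h1, hfx1 x h2⟩,
      transport_N q hu20 hYN hY'N hY (hfy2 y h4) h3, hfy1 y h4⟩,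
      (hglue (hfx2 x h2) (hfy2 y h4) h1 h3).mpr h5⟩
  · rintro ⟨x, y⟩ hp ⟨x', y'⟩ hp' h
    rw [mem_Zc] at hp hp'
    have e1 := hfx2 x hp.1.1.2
    have e2 := hfx2 x' hp'.1.1.2
    have e3 := hfy2 y hp.1.2.2
    have e4 := hfy2 y' hp'.1.2.2
    have h1 : fx x = fx x' := congrArg Prod.fst h
    have h2 : fy y = fy y' := congrArg Prod.snd h
    rw [h1] at e1
    rw [h2] at e3
    have k1 : x = x' := mul_left_cancel₀ hw0 (e1.symm.trans e2)
    have k2 : y = y' := mul_left_cancel₀ hw20 (e3.symm.trans e4)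
    rw [k1, k2]
  · rintro ⟨x', y'⟩ hp
    rw [mem_Zc] at hp
    obtain ⟨⟨⟨h1, h2⟩, h3, h4⟩, h5⟩ := hp
    obtain ⟨x, hx, ex⟩ := transport hX.symm h2
    obtain ⟨y, hy, ey⟩ := transport hY.symm h4
    have n1 := transport_N q hw0 hX'N hXN hX.symm ex h1
    have n2 := transport_N q hw20 hY'N hYN hY.symm ey h3
    refine ⟨(x, y), ?_, ?_⟩
    · rw [mem_Zc]
      exact ⟨⟨⟨n1, hx⟩, n2, hy⟩, (hglue ex.symm ey.symm n1 n2).mp h5⟩
    · have k1 : fx x = x' := mul_left_cancel₀ hu0 ((hfx2 x hx).trans ex)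
      have k2 : fy y = y' := mul_left_cancel₀ hu20 ((hfy2 y hy).trans ey)
      show (fx x, fy y) = (x', y')
      rw [k1, k2]

end Vale.Agent.P014.H581
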