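import Vale.Agent.P014.H581.Sd

/-!
# Genus theory: the classes of order two, the principal genus, sums over squares
-/

namespace Vale.Agent.P014.H581

open NumberField Vale.Agent.P017.H185 Vale.Agent.P017.H185.QF
open scoped Classical

variable {K : Type*} [Field K] [NumberField K] {n : ℕ} (q : QF K n)

theorem ideal_sq_inj {J A : Ideal (𝓞 K)} (hJ : J ≠ ⊥) (hA : A ≠ ⊥) (h : J * J = A * A) : J = A := by
  have h1 := congrArg UniqueFactorizationMonoid.normalizedFactors h
  rw [UniqueFactorizationMonoid.normalizedFactors_mul hJ hJ,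
    UniqueFactorizationMonoid.normalizedFactors_mul hA hA] at h1
  have h2 : UniqueFactorizationMonoid.normalizedFactors J =
      UniqueFactorizationMonoid.normalizedFactors A := by
    ext P
    have h3 := congrArg (Multiset.count P) h1
    rw [Multiset.count_add, Multiset.count_add] at h3
    omega
  rw [← Ideal.prod_normalizedFactors_eq_self hJ, h2, Ideal.prod_normalizedFactors_eq_self hA]

/-- the ambiguous ideal of norm `S` -/
noncomputable def am (S : ℕ) : Ideal (𝓞 K) := Ideal.span {(S : 𝓞 K), q.t}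

theorem am_sq {S : ℕ} (hS : S ∣ n) : am q S * am q S = Ideal.span {(S : 𝓞 K)} := q.amb_ideal hS

theorem am_map (S : ℕ) : (am q S).map q.s = am q S := q.amb_ideal_map S

theorem am_ne (S : ℕ) : am q S ≠ ⊥ := by
  intro h
  have : q.t ∈ am q S := Ideal.subset_span (by simp)
  rw [h] at this
  exact q.t_ne_zero (by simpa using this)

theorem am_hasN {S : ℕ} (hS : S ∣ n) : q.HasN (am q S) S := by
  unfold HasN
  rw [am_map, am_sq q hS]

theorem am_cl {S : ℕ} (hS : S ∣ n) : cl (am q S) * cl (am q S) = 1 := by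
  have hS0 : (S : 𝓞 K) ≠ 0 := by
    have : S ≠ 0 := fun h => n_ne_zero q (Nat.eq_zero_of_zero_dvd (h ▸ hS))
    exact_mod_cast this
  rw [← cl_mul (am_ne q S) (am_ne q S), am_sq q hS, cl_span hS0]

/-- the complementary ambiguous ideal is in the same class -/
theorem am_compl {S T : ℕ} (hST : S * T = n) : cl (am q S) = cl (am q T) := by
  have hSn : S ∣ n := ⟨T, hST.symm⟩
  have hTn : T ∣ n := ⟨S, by rw [← hST]; ring⟩
  have h1 : am q S * am q T = Ideal.span {q.t} := by
    apply ideal_sq_inj (mul_ne_bot (am_ne q S) (am_ne q T)) (span_ne_bot q.t_ne_zero)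
    rw [mul_mul_mul_comm, am_sq q hSn, am_sq q hTn, Ideal.span_singleton_mul_span_singleton,
      Ideal.span_singleton_mul_span_singleton, ← sq, q.t_sq, Ideal.span_singleton_neg]
    congr 2
    exact_mod_cast hST
  have h2 : cl (am q S) * cl (am q T) = 1 := by
    rw [← cl_mul (am_ne q S) (am_ne q T), h1, cl_span q.t_ne_zero]
  calc cl (am q S) = cl (am q S) * (cl (am q T) * cl (am q T)) := by rw [am_cl q hTn, mul_one]
    _ = (cl (am q S) * cl (am q T)) * cl (am q T) := by rw [mul_assoc]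
    _ = _ := by rw [h2, one_mul]

/-- the classes of order two are ambiguous -/
theorem two_tors (hn : n % 4 = 3) {C : ClassGroup (𝓞 K)} (h : C * C = 1) :
    ∃ S, S ∣ n ∧ C = cl (am q S) := by
  obtain ⟨I, hI, rfl⟩ := exists_cl C
  rw [← cl_mul hI hI] at h
  obtain ⟨γ, -, hγ⟩ := (cl_eq_one_iff (mul_ne_bot hI hI)).mp h
  obtain ⟨m, -, hm⟩ := q.exists_hasN hI
  obtain ⟨a, ha, hram, ⟨J, hJJ, x, y, hx, hy, hxy⟩, -⟩ := q.amb hI hm hγ
  have han : a ∣ n := by
    rw [← Nat.prod_primeFactors_of_squarefree ha]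
    refine Finset.prod_primes_dvd _ (fun p hp => (Nat.prime_of_mem_primeFactors hp).prime) ?_
    intro p hp
    rcases hram p (Nat.prime_of_mem_primeFactors hp) (Nat.dvd_of_mem_primeFactors hp) with h | h
    · exact h
    · exact absurd hn h.2
  have ha0 : (a : 𝓞 K) ≠ 0 := by exact_mod_cast ha.ne_zero
  have hJ0 : J ≠ ⊥ := by
    rintro rfl
    rw [Ideal.bot_mul] at hJJ
    exact span_ne_bot ha0 hJJ.symm
  have hJ : J = am q a := ideal_sq_inj hJ0 (am_ne q a) (by rw [hJJ, am_sq q han])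
  refine ⟨a, han, ?_⟩
  rw [← hJ, cl_eq_iff hI hJ0]
  exact ⟨x, y, hx, hy, hxy⟩

/-- the classes of order at most two -/
noncomputable def T2 : Finset (ClassGroup (𝓞 K)) := Finset.univ.filter fun C => C * C = 1

include q in
theorem card_T2_le (hn : n % 4 = 3) :
    2 * (T2 (K := K)).card ≤ n.divisors.card := by
  have hn0 := n_ne_zero q
  have hmaps : Set.MapsTo (fun S => cl (am q S)) (n.divisors : Set ℕ) (T2 (K := K) : Set _) := by
    intro S hS
    have hS' : S ∣ n := (Nat.mem_divisors.mp hS).1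
    show _ ∈ T2
    unfold T2
    rw [Finset.mem_filter]
    exact ⟨Finset.mem_univ _, am_cl q hS'⟩
  rw [Finset.card_eq_sum_card_fiberwise hmaps, mul_comm, ← smul_eq_mul]
  rw [Finset.card_eq_sum_ones, smul_eq_mul, Finset.sum_mul]
  refine Finset.sum_le_sum fun C hC => ?_
  rw [one_mul]
  unfold T2 at hC
  rw [Finset.mem_filter] at hC
  obtain ⟨S, hS, rfl⟩ := two_tors q hn hC.2
  obtain ⟨T, hT⟩ := hS
  have hne : S ≠ T := by
    rintro rfl
    have h1 := q.hd S ⟨1, by rw [mul_one]; exact hT⟩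
    rw [Nat.isUnit_iff] at h1
    rw [h1] at hT
    omega
  have hsub : ({S, T} : Finset ℕ) ⊆ n.divisors.filter (fun a => cl (am q a) = cl (am q S)) := by
    intro U hU
    rw [Finset.mem_insert, Finset.mem_singleton] at hU
    rw [Finset.mem_filter, Nat.mem_divisors]
    rcases hU with rfl | rfl
    · exact ⟨⟨⟨T, hT⟩, hn0⟩, rfl⟩
    · exact ⟨⟨⟨S, by rw [hT]; ring⟩, hn0⟩, (am_compl q hT.symm).symm⟩
  have := Finset.card_le_card hsub
  rwa [Finset.card_pair hne] at this

/-! ### existence of classes with given character value -/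

theorem exists_jac_neg {V : ℕ} (hV : Odd V) (hsq : Squarefree V) (h1 : V ≠ 1) :
    ∃ a : ℕ, Nat.Coprime a V ∧ jacobiSym a V = -1 := by
  obtain ⟨r, hr, hrV⟩ := Nat.exists_prime_and_dvd h1
  obtain ⟨W, hW⟩ := hrV
  have hr2 : r ≠ 2 := by
    rintro rfl
    have : Even V := ⟨W, by rw [hW]; ring⟩
    exact (Nat.not_even_iff_odd.mpr hV) this
  have hrW : Nat.Coprime r W := Nat.coprime_of_squarefree_mul (hW ▸ hsq)
  have hfact : Fact r.Prime := ⟨hr⟩
  obtain ⟨b, hb⟩ := FiniteField.exists_nonsquare (F := ZMod r) (by rw [ZMod.ringChar_zmod_n]; exact hr2)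
  obtain ⟨a, ha1, ha2⟩ := Nat.chineseRemainder hrW b.val 1
  have hW0 : W ≠ 0 := by rintro rfl; rw [mul_zero] at hW; exact hsq.ne_zero hW
  have : NeZero r := ⟨hr.ne_zero⟩
  have : NeZero W := ⟨hW0⟩
  have hab : ((a : ℤ) : ZMod r) = b := by
    rw [Int.cast_natCast, (ZMod.natCast_eq_natCast_iff _ _ _).mpr ha1, ZMod.natCast_zmod_val]
  have e1 : jacobiSym a r = -1 := by
    rw [← jacobiSym.legendreSym.to_jacobiSym, legendreSym.eq_neg_one_iff, hab]
    exact hb
  have e2 : jacobiSym a W = 1 := by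
    have h3 : jacobiSym a W = jacobiSym (1 : ℕ) W := by
      apply jacobiSym.mod_left'
      exact_mod_cast ha2
    rw [h3, Nat.cast_one, jacobiSym.one_left]
  have h4 : jacobiSym a V = -1 := by
    rw [hW, jacobiSym.mul_right, e1, e2]; norm_num
  refine ⟨a, ?_, h4⟩
  have h5 : jacobiSym a V ≠ 0 := by rw [h4]; norm_num
  rw [Ne, jacobiSym.eq_zero_iff, not_and_or] at h5
  rcases h5 with h5 | h5
  · exact absurd hsq.ne_zero h5
  · rw [Int.gcd_natCast_natCast, not_not] at h5
    exact h5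

theorem exists_chi_neg (hn : n % 4 = 3) {V W : ℕ} (hVW : V * W = n) (hV1 : V ≠ 1) (hW1 : W ≠ 1) :
    ∃ C : ClassGroup (𝓞 K), chi q V C = -1 := by
  have hn0 := n_ne_zero q
  have hVn : V ∣ n := ⟨W, hVW.symm⟩
  have hWn : W ∣ n := ⟨V, by rw [← hVW]; ring⟩
  have hV0 : V ≠ 0 := by rintro rfl; exact hn0 (by rw [← hVW, zero_mul])
  have hW0 : W ≠ 0 := by rintro rfl; exact hn0 (by rw [← hVW, mul_zero])
  have hco : Nat.Coprime V W := Nat.coprime_of_squarefree_mul (hVW ▸ q.hd)
  obtain ⟨a, ha, ha'⟩ := exists_jac_neg (odd_V hn hVn) (q.hd.squarefree_of_dvd hVn) hV1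
  obtain ⟨b, hb, hb'⟩ := exists_jac_neg (odd_V hn hWn) (q.hd.squarefree_of_dvd hWn) hW1
  obtain ⟨c, hc1, hc2⟩ := Nat.chineseRemainder hco a b
  have hcn : Nat.Coprime c n := by
    rw [← hVW]
    apply Nat.Coprime.mul_right
    · unfold Nat.Coprime; rw [hc1.gcd_eq]; exact ha
    · unfold Nat.Coprime; rw [hc2.gcd_eq]; exact hb
  have : NeZero n := ⟨hn0⟩
  have : NeZero V := ⟨hV0⟩
  have : NeZero W := ⟨hW0⟩
  obtain ⟨p, -, hp, hpc⟩ := Nat.forall_exists_prime_gt_and_eq_mod
    (ZMod.unitOfCoprime c hcn).isUnit 0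
  rw [ZMod.coe_unitOfCoprime, ZMod.natCast_eq_natCast_iff] at hpc
  have hpV : jacobiSym p V = -1 := by
    rw [← ha']
    apply jacobiSym.mod_left'
    exact_mod_cast (hpc.of_dvd hVn).trans hc1
  have hpW : jacobiSym p W = -1 := by
    rw [← hb']
    apply jacobiSym.mod_left'
    exact_mod_cast (hpc.of_dvd hWn).trans hc2
  have hpn : jacobiSym p n = 1 := by
    rw [← hVW, jacobiSym.mul_right, hpV, hpW]; norm_num
  obtain ⟨P, hP⟩ := exists_prime_ideal q hn hp (by rw [hpn]; norm_num)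
  have hpco : Nat.Coprime p n := by
    unfold Nat.Coprime; rw [hpc.gcd_eq]; exact hcn
  refine ⟨cl P, ?_⟩
  rw [chi_cl q hn hVn (ne_bot_of_hasN q hp.ne_zero hP) hP hpco, hpV]

/-- orthogonality -/
theorem sum_chi (hn : n % 4 = 3) {V W : ℕ} (hVW : V * W = n) (hV1 : V ≠ 1) (hW1 : W ≠ 1) :
    ∑ C : ClassGroup (𝓞 K), chi q V C = 0 := by
  obtain ⟨D, hD⟩ := exists_chi_neg q hn hVW hV1 hW1
  have h1 : ∑ C : ClassGroup (𝓞 K), chi q V C = ∑ C : ClassGroup (𝓞 K), chi q V (C * D) :=
    (Fintype.sum_equiv (Equiv.mulRight D) _ _ fun C => rfl).symm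
  have h2 : ∑ C : ClassGroup (𝓞 K), chi q V (C * D) = -∑ C : ClassGroup (𝓞 K), chi q V C := by
    rw [← Finset.sum_neg_distrib]
    refine Finset.sum_congr rfl fun C _ => ?_
    rw [chi_mul q hn ⟨W, hVW.symm⟩, hD]; ring
  rw [h2] at h1
  linarith

/-- the sum of all genus characters -/
noncomputable def Tt (D : ClassGroup (𝓞 K)) : ℤ := ∑ V ∈ n.divisors, chi q V D

theorem Tt_cases (hn : n % 4 = 3) (D : ClassGroup (𝓞 K)) :
    (Tt q D = n.divisors.card ∧ ∀ V, V ∣ n → chi q V D = 1) ∨ Tt q D = 0 := by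
  have hn0 := n_ne_zero q
  by_cases h : ∀ V, V ∣ n → chi q V D = 1
  · left
    refine ⟨?_, h⟩
    unfold Tt
    rw [Finset.sum_congr rfl fun V hV => h V (Nat.mem_divisors.mp hV).1]
    simp
  · right
    push Not at h
    obtain ⟨V0, hV0, hne⟩ := h
    have hneg := (chi_pm q hn hV0 D).resolve_left hne
    have h1 : Tt q D = ∑ V ∈ n.divisors, chi q (sd V V0) D := by
      unfold Tt
      symm
      refine Finset.sum_bij' (fun V _ => sd V V0) (fun V _ => sd V V0) ?_ ?_ ?_ ?_ ?_
      · intro V hV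
        rw [Nat.mem_divisors] at hV ⊢
        exact ⟨sd_dvd q.hd hV.1 hV0, hn0⟩
      · intro V hV
        rw [Nat.mem_divisors] at hV ⊢
        exact ⟨sd_dvd q.hd hV.1 hV0, hn0⟩
      · intro V hV
        exact sd_sd q.hd (Nat.mem_divisors.mp hV).1 hV0
      · intro V hV
        exact sd_sd q.hd (Nat.mem_divisors.mp hV).1 hV0
      · intro V _
        rfl
    have h2 : ∑ V ∈ n.divisors, chi q (sd V V0) D = -Tt q D := by
      unfold Tt
      rw [← Finset.sum_neg_distrib]
      refine Finset.sum_congr rfl fun V hV => ?_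
      rw [chi_sd q hn (Nat.mem_divisors.mp hV).1 hV0, hneg]; ring
    rw [h2] at h1
    linarith

theorem sum_Tt (hn : n % 4 = 3) :
    ∑ D : ClassGroup (𝓞 K), Tt q D = 2 * Fintype.card (ClassGroup (𝓞 K)) := by
  have hn0 := n_ne_zero q
  unfold Tt
  rw [Finset.sum_comm]
  have hn1 : (1 : ℕ) ≠ n := by omega
  have hsub : ({1, n} : Finset ℕ) ⊆ n.divisors := by
    intro U hU
    rw [Finset.mem_insert, Finset.mem_singleton] at hU
    rw [Nat.mem_divisors]
    rcases hU with rfl | rfl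
    · exact ⟨one_dvd _, hn0⟩
    · exact ⟨dvd_rfl, hn0⟩
  rw [← Finset.sum_subset hsub]
  · rw [Finset.sum_pair hn1]
    simp only [chi_V1, chi_Vn q hn]
    simp
    ring
  · intro V hV hV'
    rw [Finset.mem_insert, Finset.mem_singleton, not_or] at hV'
    obtain ⟨⟨W, hW⟩, -⟩ := Nat.mem_divisors.mp hV
    apply sum_chi q hn hW.symm hV'.1
    rintro rfl
    exact hV'.2 (by rw [hW, mul_one])

/-- the squares -/
noncomputable def Sqs : Finset (ClassGroup (𝓞 K)) := Finset.univ.image fun C => C * C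

theorem card_fib {D : ClassGroup (𝓞 K)} (h : D ∈ Sqs (K := K)) :
    (Finset.univ.filter fun A : ClassGroup (𝓞 K) => A * A = D).card = (T2 (K := K)).card := by
  unfold Sqs at h
  obtain ⟨A, -, rfl⟩ := Finset.mem_image.mp h
  symm
  refine Finset.card_bij (fun B _ => A * B) ?_ ?_ ?_
  · intro B hB
    unfold T2 at hB
    rw [Finset.mem_filter] at hB ⊢
    refine ⟨Finset.mem_univ _, ?_⟩
    rw [mul_mul_mul_comm, hB.2, mul_one]
  · intro B _ B' _ h
    exact mul_left_cancel h
  · intro C hC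
    rw [Finset.mem_filter] at hC
    refine ⟨A⁻¹ * C, ?_, by rw [mul_inv_cancel_left]⟩
    unfold T2
    rw [Finset.mem_filter]
    refine ⟨Finset.mem_univ _, ?_⟩
    rw [mul_mul_mul_comm, hC.2, ← mul_inv, inv_mul_cancel]

theorem card_eq_mul : Fintype.card (ClassGroup (𝓞 K)) = (Sqs (K := K)).card * (T2 (K := K)).card := by
  have hmaps : Set.MapsTo (fun C : ClassGroup (𝓞 K) => C * C) ((Finset.univ : Finset (ClassGroup (𝓞 K))) : Set (ClassGroup (𝓞 K)))
      (Sqs (K := K) : Set _) := by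
    intro C _
    exact Finset.mem_image_of_mem _ (Finset.mem_univ _)
  rw [← Finset.card_univ, Finset.card_eq_sum_card_fiberwise hmaps, Finset.sum_congr rfl
    (fun D hD => card_fib hD), Finset.sum_const, smul_eq_mul]

/-- **the principal genus theorem** -/
theorem genus (hn : n % 4 = 3) :
    2 * (T2 (K := K)).card = n.divisors.card ∧
      ∀ D : ClassGroup (𝓞 K), (∀ V, V ∣ n → chi q V D = 1) ↔ D ∈ Sqs (K := K) := by
  set H : Finset (ClassGroup (𝓞 K)) := Finset.univ.filter fun D => ∀ V, V ∣ n → chi q V D = 1 with hH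
  have h1 : ∑ D : ClassGroup (𝓞 K), Tt q D = H.card * n.divisors.card := by
    rw [← Finset.sum_filter_add_sum_filter_not Finset.univ
      (fun D : ClassGroup (𝓞 K) => ∀ V, V ∣ n → chi q V D = 1)]
    have e1 : ∑ D ∈ Finset.univ.filter (fun D : ClassGroup (𝓞 K) => ∀ V, V ∣ n → chi q V D = 1),
        Tt q D = H.card * n.divisors.card := by
      rw [← hH, ← nsmul_eq_mul, ← Finset.sum_const]
      refine Finset.sum_congr rfl fun D hD => ?_
      rw [hH, Finset.mem_filter] at hD
      unfold Tt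
      rw [Finset.sum_congr rfl fun V hV => hD.2 V (Nat.mem_divisors.mp hV).1]
      simp
    rw [e1, Finset.sum_eq_zero, add_zero]
    intro D hD
    rw [Finset.mem_filter] at hD
    rcases Tt_cases q hn D with h | h
    · exact absurd h.2 hD.2
    · exact h
  rw [sum_Tt q hn] at h1
  have h2 : 2 * Fintype.card (ClassGroup (𝓞 K)) = H.card * n.divisors.card := by exact_mod_cast h1
  have hsub : Sqs (K := K) ⊆ H := by
    intro D hD
    unfold Sqs at hD
    obtain ⟨A, -, rfl⟩ := Finset.mem_image.mp hD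
    rw [hH, Finset.mem_filter]
    refine ⟨Finset.mem_univ _, fun V hV => ?_⟩
    rw [chi_mul q hn hV, ← sq]
    exact chi_sq q hn hV A
  have h3 := Finset.card_le_card hsub
  have h4 := card_T2_le q hn
  have h5 := card_eq_mul (K := K)
  have hSpos : 0 < (Sqs (K := K)).card := by
    rw [Finset.card_pos]
    exact ⟨1, Finset.mem_image.mpr ⟨1, Finset.mem_univ _, mul_one 1⟩⟩
  have hdpos : 0 < n.divisors.card := Finset.card_pos.mpr ⟨1, Nat.one_mem_divisors.mpr (n_ne_zero q)⟩
  -- `2 s t = h τ`, `s ≤ h`, `2 t ≤ τ`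
  have h6 : (Sqs (K := K)).card * (2 * (T2 (K := K)).card) = H.card * n.divisors.card := by
    rw [← h2, h5]; ring
  have h7 : H.card = (Sqs (K := K)).card := by
    apply le_antisymm _ h3
    by_contra hcon
    push Not at hcon
    have : (Sqs (K := K)).card * (2 * (T2 (K := K)).card) < H.card * n.divisors.card :=
      calc (Sqs (K := K)).card * (2 * (T2 (K := K)).card) ≤ (Sqs (K := K)).card * n.divisors.card :=
            Nat.mul_le_mul_left _ h4
        _ < _ := Nat.mul_lt_mul_of_pos_right hcon hdpos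
    omega
  constructor
  · rw [h7] at h6
    exact Nat.eq_of_mul_eq_mul_left hSpos h6
  · intro D
    have h8 : Sqs (K := K) = H := Finset.eq_of_subset_of_card_le hsub h7.le
    rw [h8, hH, Finset.mem_filter]
    simp

/-- **sums over squares** -/
theorem sum_sq (hn : n % 4 = 3) (f : ClassGroup (𝓞 K) → ℤ) (C : ClassGroup (𝓞 K)) :
    2 * ∑ A : ClassGroup (𝓞 K), f (A * A * C) =
      ∑ V ∈ n.divisors, chi q V C * ∑ B : ClassGroup (𝓞 K), chi q V B * f B := by
  obtain ⟨g1, g2⟩ := genus q hn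
  have h1 : ∑ A : ClassGroup (𝓞 K), f (A * A * C) = ∑ D : ClassGroup (𝓞 K),
      ((Finset.univ.filter fun A : ClassGroup (𝓞 K) => A * A = D).card : ℤ) * f (D * C) := by
    rw [← Finset.sum_fiberwise Finset.univ (fun A : ClassGroup (𝓞 K) => A * A)]
    refine Finset.sum_congr rfl fun D _ => ?_
    rw [← nsmul_eq_mul, ← Finset.sum_const]
    refine Finset.sum_congr rfl fun A hA => ?_
    rw [Finset.mem_filter] at hA
    rw [hA.2]
  have h2 : ∀ D : ClassGroup (𝓞 K),
      2 * ((Finset.univ.filter fun A : ClassGroup (𝓞 K) => A * A = D).card : ℤ) = Tt q D := by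
    intro D
    by_cases hD : D ∈ Sqs (K := K)
    · rw [card_fib hD]
      have h3 := (g2 D).mpr hD
      unfold Tt
      rw [Finset.sum_congr rfl fun V hV => h3 V (Nat.mem_divisors.mp hV).1]
      rw [Finset.sum_const, nsmul_eq_mul, mul_one, ← g1]
      push_cast
      ring
    · have h3 : (Finset.univ.filter fun A : ClassGroup (𝓞 K) => A * A = D) = ∅ := by
        rw [Finset.filter_eq_empty_iff]
        intro A _ hA
        exact hD (Finset.mem_image.mpr ⟨A, Finset.mem_univ _, hA⟩)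
      rw [h3, Finset.card_empty]
      rcases Tt_cases q hn D with h | h
      · exact absurd ((g2 D).mp h.2) hD
      · rw [h]; simp
  rw [h1, Finset.mul_sum]
  have h4 : ∀ D : ClassGroup (𝓞 K), 2 * (((Finset.univ.filter fun A : ClassGroup (𝓞 K) =>
      A * A = D).card : ℤ) * f (D * C)) = Tt q D * f (D * C) := by
    intro D
    rw [← h2]; ring
  rw [Finset.sum_congr rfl fun D _ => h4 D]
  unfold Tt
  simp only [Finset.sum_mul]
  rw [Finset.sum_comm]
  refine Finset.sum_congr rfl fun V hV => ?_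
  have hV' := (Nat.mem_divisors.mp hV).1
  rw [Finset.mul_sum]
  refine Fintype.sum_equiv (Equiv.mulRight C) _ _ fun D => ?_
  show chi q V D * f (D * C) = chi q V C * (chi q V (D * C) * f (D * C))
  rw [chi_mul q hn hV']
  have := chi_sq q hn hV' C
  linear_combination (-(chi q V D * f (D * C))) * this

end Vale.Agent.P014.H581
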