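import Vale.Agent.P014.H581.R3Inst
import Vale.Agent.P014.H687.Rep39

/-!
# `Theta3` from the abstract theorem on systems with a reduction modulo `3`
-/

namespace Vale.Agent.P014.H581

open NumberField Vale.Agent.P017.H185 Vale.Agent.P017.H185.QF Vale.Agent.P014.H70
open scoped Classical

variable {K : Type*} [Field K] [NumberField K] {n : ℕ} {q : QF K n}

theorem at3_fam {l : ℕ} (r : Rep q l) (hn : n % 4 = 3)
    (hn17 : ¬ IsSquare ((n : ℕ) : ZMod 17)) (hl : l.Prime) (hl17 : 17 < l)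
    (hco : ∀ C, Nat.Coprime (r.na C) (17 * n)) (hn3 : n % 3 = 1) (hl3 : l % 3 = 1)
    (hna3 : ∀ C, ¬ 3 ∣ r.na C) : At3 (r.fam hn hn17 hl hl17 hco) :=
  ⟨hn3, hl3, hna3⟩

/-- the abstract statement (C3-B1) -/
def Main3 (hrel : Fam.Rel17) : Prop :=
  ∀ (F : Fam q (ClassGroup (𝓞 K))) (R : H698.R3 (F.sys hrel)), ∃ e : ClassGroup (𝓞 K) → ℤ,
    (∀ a, e a = 1 ∨ e a = -1) ∧ ∀ a b,
      ∑ w ∈ H698.E (F.sys hrel) a b 9, H698.eta (R.red w).1 +
        4 * ∑ u ∈ H698.E (F.sys hrel) a b 1, H698.hh (R.red u) = 8 * (e a * e b)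

theorem exists_Theta3 (hrel : Fam.Rel17) (q : QF K n)
    (hmain : Main3 (q := q) hrel) (hn : n % 4 = 3) (h17 : jacobiSym n 17 = -1)
    (hn3 : n % 3 = 1) :
    ∃ (l : ℕ) (r : Rep q l) (y : ClassGroup (𝓞 K) → ℤ), Theta3 r y := by
  obtain ⟨l, r, hl, hl17, hl3, hco3⟩ := exists_Rep3 q hn h17
  have hn17 : ¬ IsSquare ((n : ℕ) : ZMod 17) := by
    have : Fact (Nat.Prime 17) := ⟨by norm_num⟩
    rw [← jacobiSym.legendreSym.to_jacobiSym] at h17
    have h := (legendreSym.eq_neg_one_iff 17).mp h17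
    rwa [Int.cast_natCast] at h
  have hco : ∀ C, Nat.Coprime (r.na C) (17 * n) := fun C =>
    Nat.Coprime.coprime_mul_left_right (hco3 C)
  have hna3 : ∀ C, ¬ 3 ∣ r.na C := fun C => by
    have h1 : Nat.Coprime (r.na C) 3 := Nat.Coprime.coprime_mul_right_right (hco3 C)
    exact (Nat.Prime.coprime_iff_not_dvd Nat.prime_three).mp h1.symm
  have h := at3_fam r hn hn17 hl hl17 hco hn3 hl3 hna3
  obtain ⟨e, he, hm⟩ := hmain (r.fam hn hn17 hl hl17 hco)
    (h.r3 hrel (fun a b => H687.rep3 _ hrel a b) (fun a b => H687.rep9 _ hrel a b))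
  refine ⟨l, r, fun a => 4 * H698.sgn (r.na a : ZMod 3) * e a, ?_, ?_⟩
  · intro x
    have h1 : ((r.na x : ℕ) : ZMod 3) ≠ 0 := by
      rw [Ne, ZMod.natCast_eq_zero_iff]; exact hna3 x
    rcases sgn_cases _ h1 with h2 | h2 <;> rcases he x with h3 | h3 <;>
      simp only [h2, h3] <;> norm_num
  · intro A B
    have h1 := h.prod hrel (e := e) hm A B
    rw [r.RNc_fam hn hn17 hl hl17 hco, r.RNc_fam hn hn17 hl hl17 hco]
    have e1 : ∀ p, r.kk A B p = q.N p.2 / ((r.fam hn hn17 hl hl17 hco).l *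
        (r.fam hn hn17 hl hl17 hco).na A * (r.fam hn hn17 hl hl17 hco).na B) := by
      intro p
      unfold Rep.kk Rep.nX
      rw [← mul_assoc]
      rfl
    simp only [e1]
    exact h1

/-- **`BD3`** -/
theorem BD3_exists_of {K : Type} [Field K] [NumberField K] {n : ℕ} (hrel : Fam.Rel17)
    (q : QF K n)
    (hmain : Main3 (q := q) hrel) (hn : n % 4 = 3) (h17 : jacobiSym n 17 = -1)
    (hn3 : n % 3 = 1) :
    ∃ y : ClassGroup (𝓞 K) → ℤ, H74.BD3 n (ClassGroup (𝓞 K)) y (chi q) := by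
  obtain ⟨l, r, y, h⟩ := exists_Theta3 hrel q hmain hn h17 hn3
  exact ⟨y, BD3_of_Theta3 hn h17 (by omega) h⟩

end Vale.Agent.P014.H581
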