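import Vale.Agent.P014.H581.Asm
import Vale.Agent.P014.H74.Iface2

/-!
# The weighted count; representatives prime to `3`
-/

namespace Vale.Agent.P014.H581

open NumberField Vale.Agent.P017.H185 Vale.Agent.P017.H185.QF
open scoped Classical

variable {K : Type*} [Field K] [NumberField K] {n : ℕ} {q : QF K n}

namespace Rep

variable {l : ℕ} (r : Rep q l)

/-- the second norm, divided by the norm of the ideal -/
noncomputable def kk (A B : ClassGroup (𝓞 K)) (p : 𝓞 K × 𝓞 K) : ℕ := q.N p.2 / (l * r.nX A B)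

/-- the set of the representations -/
def RNc (A B : ClassGroup (𝓞 K)) (m : ℕ) : Set (𝓞 K × 𝓞 K) :=
  RNs q (r.X A B) (r.Y A B) (r.nX A B) (l * r.nX A B) m

/-- the representations split according to the second norm -/
theorem RNc_eq (hn : n % 4 = 3) (h17 : ¬ 17 ∣ n) {m : ℕ} (hm : ¬ 17 ∣ m)
    (A B : ClassGroup (𝓞 K)) :
    r.RNc A B m =
      (((Finset.range (m * n)).filter (fun k => 17 * k < m * n)).biUnion fun k =>
        Zc q hn ∅ l (r.X A B) (r.Y A B) ((m * n - 17 * k) * r.nX A B) (k * (l * r.nX A B)) :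
          Finset (𝓞 K × 𝓞 K)) := by
  have ha0 := r.nX_ne A B
  have hl0 := r.hl0
  unfold RNc
  ext ⟨x, y⟩
  rw [Finset.coe_biUnion, Set.mem_iUnion₂]
  constructor
  · rintro ⟨h1, h2, h3, h4⟩
    simp only at h1 h2 h3 h4
    obtain ⟨k, hk⟩ := dvd_N_of_mem q (r.hY A B) h2
    have h5 : q.N x + 17 * k * r.nX A B = m * n * r.nX A B := by
      have h6 : 0 < l * r.nX A B := Nat.pos_of_ne_zero (mul_ne_zero hl0 ha0)
      apply Nat.eq_of_mul_eq_mul_left h6
      rw [hk] at h4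
      linarith [h4]
    have h6 : 17 * k ≤ m * n := by
      apply Nat.le_of_mul_le_mul_right _ (Nat.pos_of_ne_zero ha0)
      rw [← h5]
      exact Nat.le_add_left _ _
    have h7 : 17 * k ≠ m * n := by
      intro h
      rcases (Nat.Prime.dvd_mul (by norm_num : Nat.Prime 17)).mp ⟨k, h.symm⟩ with h | h
      · exact hm h
      · exact h17 h
    have h8 : 17 * k < m * n := lt_of_le_of_ne h6 h7
    refine ⟨k, ?_, ?_⟩
    · rw [Finset.mem_coe, Finset.mem_filter, Finset.mem_range]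
      exact ⟨by omega, h8⟩
    · rw [Finset.mem_coe, mem_Zc]
      refine ⟨⟨⟨?_, h1⟩, ?_, h2⟩, (Gl_iff hn r.hl x y).mpr h3⟩
      · show q.N x = _
        rw [Nat.sub_mul]
        omega
      · show q.N y = _
        rw [hk]; ring
  · rintro ⟨k, hk, h⟩
    rw [Finset.mem_coe, Finset.mem_filter, Finset.mem_range] at hk
    rw [Finset.mem_coe, mem_Zc] at h
    obtain ⟨⟨⟨h1, h2⟩, h3, h4⟩, h5⟩ := h
    refine ⟨h2, h4, (Gl_iff hn r.hl x y).mp h5, ?_⟩
    simp only at h1 h3 ⊢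
    rw [h1, h3]
    have h6 : (m * n - 17 * k) + 17 * k = m * n := Nat.sub_add_cancel hk.2.le
    calc l * r.nX A B * ((m * n - 17 * k) * r.nX A B) + 17 * (r.nX A B * (k * (l * r.nX A B)))
        = l * r.nX A B * r.nX A B * ((m * n - 17 * k) + 17 * k) := by ring
      _ = _ := by rw [h6]; ring

/-- the set of the representations is finite -/
theorem finite_RNc (hn : n % 4 = 3) (h17 : ¬ 17 ∣ n) {m : ℕ} (hm : ¬ 17 ∣ m)
    (A B : ClassGroup (𝓞 K)) : (r.RNc A B m).Finite := by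
  rw [r.RNc_eq hn h17 hm A B]
  exact Finset.finite_toSet _

/-- **the weighted number of representations** -/
theorem sum_RNc (hn : n % 4 = 3) (h17 : ¬ 17 ∣ n) {m : ℕ} (hm : ¬ 17 ∣ m) (f : ℕ → ℤ)
    (A B : ClassGroup (𝓞 K)) :
    ∑ᶠ p ∈ r.RNc A B m, f (r.kk A B p) =
      ∑ k ∈ (Finset.range (m * n)).filter (fun k => 17 * k < m * n),
        f k * r.W hn ∅ (m * n - 17 * k) k A B := by
  have ha0 := r.nX_ne A B
  have hl0 := r.hl0
  have hla : l * r.nX A B ≠ 0 := mul_ne_zero hl0 ha0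
  rw [r.RNc_eq hn h17 hm A B, finsum_mem_coe_finset, Finset.sum_biUnion]
  · refine Finset.sum_congr rfl fun k _ => ?_
    rw [Finset.sum_congr rfl (g := fun _ => f k), Finset.sum_const, nsmul_eq_mul, mul_comm]
    · rfl
    · intro p hp
      rw [mem_Zc] at hp
      have h : q.N p.2 = k * (l * r.nX A B) := hp.1.2.1
      unfold kk
      rw [h, Nat.mul_div_cancel _ (Nat.pos_of_ne_zero hla)]
  · intro k _ k' _ hkk
    rw [Function.onFun, Finset.disjoint_left]
    rintro p hp hp'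
    rw [mem_Zc] at hp hp'
    apply hkk
    have h2 := hp.1.2.1.symm.trans hp'.1.2.1
    exact Nat.eq_of_mul_eq_mul_right (Nat.pos_of_ne_zero hla) h2

/-- **The weighted count.** -/
theorem countw (hn : n % 4 = 3) (h17 : ¬ 17 ∣ n) (hn3 : 3 < n) {V V' : ℕ} (hVV : V * V' = n)
    {m : ℕ} (hm : ¬ 17 ∣ m) (f : ℕ → ℤ) :
    2 ^ n.primeFactors.card * ∑ A : ClassGroup (𝓞 K), ∑ B : ClassGroup (𝓞 K),
        chi q V A * chi q V B * ∑ᶠ p ∈ r.RNc A B m, f (r.kk A B p) =
      2 ^ n.primeFactors.card * (f 0 * (2 * Fintype.card (ClassGroup (𝓞 K)) * R V V' m)) +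
        2 * SAw f V V' m := by
  have hm0 : m ≠ 0 := by rintro rfl; exact hm (dvd_zero _)
  have hV : V ∣ n := ⟨V', hVV.symm⟩
  have hmn : 0 < m * n := Nat.mul_pos (Nat.pos_of_ne_zero hm0) (by omega)
  -- the splitting
  have h1 : ∑ A : ClassGroup (𝓞 K), ∑ B : ClassGroup (𝓞 K), chi q V A * chi q V B *
          ∑ᶠ p ∈ r.RNc A B m, f (r.kk A B p) =
      ∑ k ∈ (Finset.range (m * n)).filter (fun k => 17 * k < m * n),
        f k * r.Wt hn V (m * n - 17 * k) k := by
    unfold Wt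
    symm
    simp only [Finset.mul_sum]
    rw [Finset.sum_comm]
    refine Finset.sum_congr rfl fun A _ => ?_
    rw [Finset.sum_comm]
    refine Finset.sum_congr rfl fun B _ => ?_
    rw [r.sum_RNc hn h17 hm f A B, Finset.mul_sum]
    refine Finset.sum_congr rfl fun k _ => ?_
    ring
  have h2 : (Finset.range (m * n)).filter (fun k => 17 * k < m * n) =
      insert 0 ((Finset.Ico 1 (m * n)).filter (fun k => 17 * k < m * n)) := by
    ext k
    rw [Finset.mem_insert, Finset.mem_filter, Finset.mem_filter, Finset.mem_range, Finset.mem_Ico]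
    omega
  have h3 : (0 : ℕ) ∉ (Finset.Ico 1 (m * n)).filter (fun k => 17 * k < m * n) := by
    rw [Finset.mem_filter, Finset.mem_Ico]
    omega
  rw [h1, h2, Finset.sum_insert h3, mul_add]
  congr 1
  · -- `k = 0`
    congr 2
    unfold Wt
    have e1 : ∀ A B : ClassGroup (𝓞 K), chi q V A * chi q V B *
        (r.W hn ∅ (m * n - 17 * 0) 0 A B : ℤ) =
        2 * (chi q V A * chi q V B * ((rc q (A⁻¹ * B)⁻¹ m : ℤ) * 1)) := by
      intro A B
      rw [r.W_zero hn hn3 hm0]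
      push_cast
      ring
    simp only [e1, ← Finset.mul_sum]
    rw [reindex (q := q) hn hV (fun C => (rc q C m : ℤ)) (fun _ => 1) 1]
    rw [← nu_eq q hn hVV hm0, nu_eq_sum]
    simp only [Finset.sum_const, Finset.card_univ, nsmul_eq_mul, mul_one]
    rw [← Finset.sum_mul]
    ring
  · unfold SAw
    rw [hVV, Finset.mul_sum, Finset.mul_sum]
    refine Finset.sum_congr rfl fun k hk => ?_
    rw [Finset.mem_filter, Finset.mem_Ico] at hk
    have h := r.Wt_SU hn h17 hn3 hVV (M := m * n - 17 * k) (k := k) (by omega) (by omega)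
      (m := m) (by omega)
    linear_combination f k * h

end Rep

/-- the output of the theory for the conductor `3` (C3-B1) -/
structure Theta3 {l : ℕ} (r : Rep q l) (y : ClassGroup (𝓞 K) → ℤ) : Prop where
  y_val : ∀ x, y x = 4 ∨ y x = -4
  prod : ∀ A B, y A * y B = 2 * (∑ᶠ p ∈ r.RNc A B 9, w9 (r.kk A B p) +
    ∑ᶠ p ∈ r.RNc A B 1, w1 (r.kk A B p))

/-- field `B` of `BD3` -/
theorem field_B3 (hn : n % 4 = 3) (h17 : ¬ 17 ∣ n) (hn3 : 3 < n) {l : ℕ} {r : Rep q l}
    {y : ClassGroup (𝓞 K) → ℤ} (h : Theta3 r y) {V V' : ℕ} (hVV : V * V' = n) :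
    2 ^ n.primeFactors.card * (∑ x, chi q V x * y x) ^ 2 =
      2 ^ (n.primeFactors.card + 4) * (Fintype.card (ClassGroup (𝓞 K)) : ℤ) +
        4 * (SAw w9 V V' 9 + SAw w1 V V' 1) := by
  have h9 := r.countw hn h17 hn3 hVV (m := 9) (by norm_num) w9
  have h1 := r.countw hn h17 hn3 hVV (m := 1) (by norm_num) w1
  have e1 : (∑ x, chi q V x * y x) ^ 2 =
      2 * (∑ A : ClassGroup (𝓞 K), ∑ B : ClassGroup (𝓞 K),
        chi q V A * chi q V B * ∑ᶠ p ∈ r.RNc A B 9, w9 (r.kk A B p) +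
       ∑ A : ClassGroup (𝓞 K), ∑ B : ClassGroup (𝓞 K),
        chi q V A * chi q V B * ∑ᶠ p ∈ r.RNc A B 1, w1 (r.kk A B p)) := by
    rw [← double, ← Finset.sum_add_distrib, Finset.mul_sum]
    refine Finset.sum_congr rfl fun A _ => ?_
    rw [← Finset.sum_add_distrib, Finset.mul_sum]
    refine Finset.sum_congr rfl fun B _ => ?_
    rw [h.prod A B]
    ring
  have w90 : w9 0 = 0 := rfl
  have w10 : w1 0 = 4 := rfl
  have hR : R V V' 1 = 1 := R_one _ _
  rw [w90] at h9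
  rw [w10, hR] at h1
  rw [e1, pow_add]
  linear_combination 2 * h9 + 2 * h1

/-! ### representatives prime to `3` -/

variable (q)

/-- an ideal `L` of prime norm `l > 17`, `17 l ≡ -1 mod 3 n` -/
theorem exists_L3 (hn : n % 4 = 3) (h17 : jacobiSym n 17 = -1) :
    ∃ (l : ℕ) (L : Ideal (𝓞 K)), l.Prime ∧ 17 < l ∧ q.HasN L l ∧ 3 * n ∣ 17 * l + 1 := by
  have hn0 := n_ne_zero q
  have : NeZero (3 * n) := ⟨mul_ne_zero (by norm_num) hn0⟩
  have hco : Nat.Coprime 17 (3 * n) := by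
    refine Nat.Coprime.mul_right (by norm_num) ?_
    exact (Nat.Prime.coprime_iff_not_dvd (by norm_num)).mpr (not_dvd_17 h17)
  obtain ⟨l, hl, hlp, hlc⟩ := Nat.forall_exists_prime_gt_and_eq_mod
    (-(ZMod.unitOfCoprime 17 hco)⁻¹).isUnit 17
  have h1 : ((17 * l + 1 : ℕ) : ZMod (3 * n)) = 0 := by
    push_cast
    rw [hlc]
    have h2 : ((ZMod.unitOfCoprime 17 hco : (ZMod (3 * n))ˣ) : ZMod (3 * n)) *
        (((ZMod.unitOfCoprime 17 hco)⁻¹ : (ZMod (3 * n))ˣ) : ZMod (3 * n)) = 1 := Units.mul_inv _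
    have h3 : ((ZMod.unitOfCoprime 17 hco : (ZMod (3 * n))ˣ) : ZMod (3 * n)) = 17 := by
      rw [ZMod.coe_unitOfCoprime]; norm_num
    rw [h3] at h2
    push_cast
    linear_combination -h2
  have hdvd3 : 3 * n ∣ 17 * l + 1 := (ZMod.natCast_eq_zero_iff _ _).mp h1
  have hdvd : n ∣ 17 * l + 1 := (dvd_mul_left n 3).trans hdvd3
  have h2 : jacobiSym (17 * l : ℤ) n = jacobiSym (-1) n := by
    apply jacobiSym.mod_left'
    obtain ⟨c, hc⟩ := hdvd
    have hc' : (17 * l : ℤ) + 1 = n * c := by exact_mod_cast hc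
    rw [show (17 * l : ℤ) = -1 + n * c by linarith, Int.add_mul_emod_self_left]
  have hodd : Odd n := Nat.odd_iff.mpr (by omega)
  have h3 : jacobiSym (-1) n = -1 := by
    rw [jacobiSym.at_neg_one hodd, ZMod.χ₄_nat_three_mod_four hn]
  have h4 : jacobiSym (17 : ℕ) n = -1 := by
    rw [jacobiSym.quadratic_reciprocity_one_mod_four (by norm_num) hodd, ← h17]
  rw [jacobiSym.mul_left, h3] at h2
  have h5 : jacobiSym l n = 1 := by
    have h4' : jacobiSym (17 : ℤ) n = -1 := h4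
    rw [h4'] at h2
    linarith
  obtain ⟨L, hL⟩ := exists_prime_ideal q hn hlp (by rw [h5]; norm_num)
  exact ⟨l, L, hlp, hl, hL, hdvd3⟩

/-- **Existence of the data, prime to `3`.** -/
theorem exists_Rep3 (hn : n % 4 = 3) (h17 : jacobiSym n 17 = -1) :
    ∃ (l : ℕ) (r : Rep q l), l.Prime ∧ 17 < l ∧ l % 3 = 1 ∧
      ∀ C, Nat.Coprime (r.na C) (3 * (17 * n)) := by
  obtain ⟨l, L, hlp, hl17, hL, hl⟩ := exists_L3 q hn h17
  have hM : 3 * (17 * n) ≠ 0 := mul_ne_zero (by norm_num) (mul_ne_zero (by norm_num) (n_ne_zero q))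
  choose a na ha0 hcl hN hco using fun C : ClassGroup (𝓞 K) => exists_coprime q C hM
  refine ⟨l, ⟨a, na, ha0, hcl, hN, fun C => Nat.Coprime.coprime_dvd_right ⟨51, by ring⟩ (hco C),
    L, hL, (dvd_mul_left n 3).trans hl, hlp.ne_zero⟩, hlp, hl17, ?_, hco⟩
  have h5 : 3 ∣ 17 * l + 1 := (dvd_mul_right 3 n).trans hl
  omega

end Vale.Agent.P014.H581
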